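import Crest.Agent.X326.B3.Streams
import Crest.Agent.X326.B3.Spec
import Crest.Agent.X326.TC.Zip
import Crest.Agent.X326.TC.NatLin
import Crest.Agent.X326.TC.NatMul

/-!
Row 326 (S0503), part M3: running times of the stream operations.
-/

set_option autoImplicit false

namespace Crest.Agent.X326.B3

open Crest.Agent.Lib.PT Crest.Agent.X326.M4

variable {ι : Type} [PTCode ι] {P : ι → Prop} {T : ι → ℕ}

/-! ### picking and interleaving -/

section Deal

variable {α : Type} [PTCode α] {W : ℕ}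

theorem tc_pick (ρ : Fin W → Fin W) {ws : ι → List (List α)} (h : TC P T ws) :
    TC P T (fun x => pick ρ (ws x)) :=
  TC.listMap_fixed (List.finRange W) (fun w _ => TC.getD h (TU.const (ρ w).val) (TC.const []))

theorem tc_undealP (ρ : Fin W → Fin W) {ws : ι → List (List α)} (h : TC P T ws) :
    TC P T (fun x => undealP ρ (ws x)) :=
  TC.undeal W (tc_pick ρ h) (fun _ _ => length_pick)


end Deal

/-! ### words and records -/

namespace St

theorem lin_addM : Lin (fun q : ℕ × ℕ × ℕ => addM q.1 q.2.1 q.2.2) := by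
  unfold addM
  fun_prop

theorem lin_negM : Lin (fun q : ℕ × ℕ => negM q.1 q.2) := by
  unfold negM
  fun_prop

theorem lin_halfM : Lin (fun q : ℕ × ℕ => halfM q.1 q.2) :=
  TC.ite (TP.eq (TC.natModTwo (TC.snd TC.id)) (TC.const 0)) (TC.natDivTwo (TC.snd TC.id))
    (TC.natDivTwo ((TC.snd TC.id).natAdd (TC.fst TC.id)))

variable {M : ι → ℕ} {u v : ι → List ℕ}

theorem tc_recAdd (hM : TC P T M) (hu : TC P T u) (hv : TC P T v)
    (hB : Bud P T (fun x => (u x).length * sz (M x))) :
    TC P T (fun x => recAdd (M x) (u x) (v x)) :=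
  TC.zipWithCtx_lin lin_addM hM hu hv hB

theorem tc_recNeg (hM : TC P T M) (hu : TC P T u)
    (hB : Bud P T (fun x => (u x).length * sz (M x))) : TC P T (fun x => recNeg (M x) (u x)) :=
  TC.mapCtx_lin lin_negM hM hu hB

theorem tc_recHalf (hM : TC P T M) (hu : TC P T u)
    (hB : Bud P T (fun x => (u x).length * sz (M x))) : TC P T (fun x => recHalf (M x) (u x)) :=
  TC.mapCtx_lin lin_halfM hM hu hB

theorem length_nsmul (M : ℕ) (y : List ℕ) (n : ℕ) : (recNsmul M y n).length = y.length := by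
  induction n with
  | zero => simp [recNsmul]
  | succ n ih => simp [recNsmul, recAdd, ih]

theorem length_zsmul (M : ℕ) (a : ℤ) (y : List ℕ) : (recZsmul M a y).length = y.length := by
  unfold recZsmul
  split_ifs <;> simp [recNeg, length_nsmul]

theorem length_iterate_half (M : ℕ) (y : List ℕ) (j : ℕ) :
    ((recHalf M)^[j] y).length = y.length := by
  induction j with
  | zero => rfl
  | succ j ih => rw [Function.iterate_succ_apply', recHalf, List.length_map, ih]

theorem tc_nsmul (n : ℕ) (hM : TC P T M) (hu : TC P T u)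
    (hB : Bud P T (fun x => (u x).length * sz (M x))) :
    TC P T (fun x => recNsmul (M x) (u x) n) := by
  induction n with
  | zero => exact TC.map (TC.const 0) hu
  | succ n ih => exact tc_recAdd hM ih hu (hB.mono fun x _ => by rw [length_nsmul])

theorem tc_zsmul (a : ℤ) (hM : TC P T M) (hu : TC P T u)
    (hB : Bud P T (fun x => (u x).length * sz (M x))) :
    TC P T (fun x => recZsmul (M x) a (u x)) := by
  unfold recZsmul
  by_cases h : a < 0
  · simp only [if_pos h]
    exact tc_recNeg hM (tc_nsmul _ hM hu hB) (hB.mono fun x _ => by rw [length_nsmul])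
  · simp only [if_neg h]
    exact tc_nsmul _ hM hu hB

theorem tc_iterate_half (j : ℕ) (hM : TC P T M) (hu : TC P T u)
    (hB : Bud P T (fun x => (u x).length * sz (M x))) :
    TC P T (fun x => (recHalf (M x))^[j] (u x)) := by
  induction j with
  | zero => exact hu
  | succ j ih =>
    simp only [Function.iterate_succ_apply']
    exact tc_recHalf hM ih (hB.mono fun x _ => by rw [length_iterate_half])

theorem tc_smul (a : ℤ) (j : ℕ) (hM : TC P T M) (hu : TC P T u)
    (hB : Bud P T (fun x => (u x).length * sz (M x))) :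
    TC P T (fun x => recSmul (M x) a j (u x)) :=
  tc_iterate_half j hM (tc_zsmul a hM hu hB) (hB.mono fun x _ => by rw [length_zsmul])

theorem tc_axpy (a : ℤ) (j : ℕ) (hM : TC P T M) (hu : TC P T u) (hv : TC P T v)
    (hB : Bud P T (fun x => ((u x).length + (v x).length) * sz (M x))) :
    TC P T (fun x => recAxpy (M x) a j (u x) (v x)) :=
  tc_recAdd hM hu
    (tc_smul a j hM hv (hB.mono fun _ _ => Nat.mul_le_mul_right _ (Nat.le_add_left _ _)))
    (hB.mono fun _ _ => Nat.mul_le_mul_right _ (Nat.le_add_right _ _))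

end St

/-! ### the instruction `add` -/

section Add

variable {M r : ι → ℕ} {s t : ι → List (List ℕ)}

/-- `addL` on streams whose records have at most `r x` coefficients -/
theorem tc_addL (a : ℤ) (j : ℕ) (hM : TC P T M) (hs : TC P T s) (ht : TC P T t) (r : ι → ℕ)
    (h : ∀ x, P x → (∀ y ∈ s x, y.length ≤ r x) ∧ ∀ y ∈ t x, y.length ≤ r x)
    (hB : Bud P T (fun x => (s x).length * ((r x + 1) * (Nat.size (M x) + 1)))) :
    TC P T (fun x => addL (M x) a j (s x) (t x)) := by
  have h1 : TC (fun _ : ℕ × List ℕ × List ℕ => True)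
      (fun q => (q.2.1.length + q.2.2.length) * sz q.1)
      (fun q => recAxpy q.1 a j q.2.1 q.2.2) :=
    St.tc_axpy a j (TC.fst TC.id) (TC.fst (TC.snd TC.id)) (TC.snd (TC.snd TC.id)) Bud.self
  refine TC.zipWithCtx_le (Q := fun _ => True) (f := fun M => recAxpy M a j) h1 hM hs ht (fun x => 2 * ((r x + 1) * (Nat.size (M x) + 1))) 0
    (fun x hx y hy z hz => ⟨True.intro, ?_⟩) ((hB.const_mul 2).mono fun x _ => ?_)
    (hB.mono fun x _ => ?_)
  · have h2 := (h x hx).1 y hy
    have h3 := (h x hx).2 z hz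
    simp only [sz_nat]
    nlinarith
  · exact le_of_eq (by ring)
  · rw [sz_nat]
    exact Nat.mul_le_mul_left _ (by nlinarith)

/-- the `add` step on the list of streams -/
theorem tc_addSet (w w' : ℕ) (a : ℤ) (j : ℕ) {ws : ι → List (List (List ℕ))} (hM : TC P T M)
    (hws : TC P T ws) (n r : ι → ℕ)
    (h : ∀ x, P x → ∀ s ∈ ws x, s.length ≤ n x ∧ ∀ y ∈ s, y.length ≤ r x)
    (hB : Bud P T (fun x => n x * ((r x + 1) * (Nat.size (M x) + 1)))) :
    TC P T (fun x => (ws x).set w (addL (M x) a j ((ws x).getD w []) ((ws x).getD w' []))) := by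
  have key : ∀ x, P x → ∀ v, ((ws x).getD v []).length ≤ n x ∧
      ∀ y ∈ (ws x).getD v [], y.length ≤ r x := by
    intro x hx v
    by_cases hv : v < (ws x).length
    · exact h x hx _ (getD_mem _ hv)
    · rw [List.getD_eq_default _ _ (by omega)]
      simp
  exact TC.set hws (TU.const w) (tc_addL a j hM (TC.getD hws (TU.const w) (TC.const []))
    (TC.getD hws (TU.const w') (TC.const [])) r
    (fun x hx => ⟨(key x hx w).2, (key x hx w').2⟩)
    (hB.mono fun x hx => Nat.mul_le_mul_right _ (key x hx w).1))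

end Add

/-! ### layouts -/

section LayTC

variable {L : ι → Lay}

theorem tc_layTuple (h : TC P T L) : TC P T (fun x =>
    ((L x).Pre, (L x).g, Un.mk (L x).F, (L x).G1, (L x).R, (L x).G2, (L x).Z)) :=
  h.recode (fun _ _ => rfl)

theorem tc_layPre (h : TC P T L) : TC P T (fun x => (L x).Pre) := (tc_layTuple h).fst
theorem tc_layg (h : TC P T L) : TC P T (fun x => (L x).g) := (tc_layTuple h).snd.fst
theorem tu_layF (h : TC P T L) : TU P T (fun x => (L x).F) := (tc_layTuple h).snd.snd.fst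
theorem tc_layG1 (h : TC P T L) : TC P T (fun x => (L x).G1) := (tc_layTuple h).snd.snd.snd.fst
theorem tc_layR (h : TC P T L) : TC P T (fun x => (L x).R) :=
  (tc_layTuple h).snd.snd.snd.snd.fst
theorem tc_layG2 (h : TC P T L) : TC P T (fun x => (L x).G2) :=
  (tc_layTuple h).snd.snd.snd.snd.snd.fst
theorem tc_layZ (h : TC P T L) : TC P T (fun x => (L x).Z) :=
  (tc_layTuple h).snd.snd.snd.snd.snd.snd

theorem tc_layMk {a b c d e f g : ι → ℕ} (ha : TC P T a) (hb : TC P T b) (hc : TU P T c)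
    (hd : TC P T d) (he : TC P T e) (hf : TC P T f) (hg : TC P T g) :
    TC P T (fun x => (⟨a x, b x, c x, d x, e x, f x, g x⟩ : Lay)) :=
  (ha.prodMk (hb.prodMk (TC.prodMk hc (hd.prodMk (he.prodMk (hf.prodMk hg)))))).recode
    (fun _ _ => rfl)

theorem tc_laySub (W : ℕ) (h : TC P T L) : TC P T (fun x => (L x).sub W) :=
  tc_layMk (tc_layPre h) (tc_layg h) (tu_layF h) (tc_layG1 h) (tc_layR h) (tc_layG2 h)
    (TC.natDivConst W (tc_layZ h))

theorem sz_lay (L : Lay) : sz L = 2 * L.Pre.size + 1 + (2 * L.g.size + 1 + (2 * L.F + 1 +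
    (2 * L.G1.size + 1 + (2 * L.R.size + 1 + (2 * L.G2.size + 1 + L.Z.size))))) := by
  have : sz L = sz (L.Pre, L.g, Un.mk L.F, L.G1, L.R, L.G2, L.Z) := rfl
  rw [this]
  simp only [sz_prod, sz_nat, sz_un]

theorem sz_laySub_le (L : Lay) (W : ℕ) : sz (L.sub W) ≤ sz L := by
  rw [sz_lay, sz_lay]
  have := Nat.size_le_size (Nat.div_le_self L.Z W)
  simp only [Lay.sub_Pre, Lay.sub_g, Lay.sub_F, Lay.sub_G1, Lay.sub_R, Lay.sub_G2, Lay.sub_Z]
  omega

theorem Lay.Good.sub {L : Lay} {W : ℕ} (h : L.Good) (hW : W ∣ L.Z) : (L.sub W).Good :=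
  ⟨h.Pre, h.g, h.G1, h.R, h.even, h.G2, by
    obtain ⟨c, hc⟩ := hW
    have h0 := h.Z
    have hW0 : 0 < W := Nat.pos_of_mul_pos_right (hc ▸ h0)
    rw [Lay.sub_Z, hc, Nat.mul_div_cancel_left _ hW0]
    exact Nat.pos_of_mul_pos_left (hc ▸ h0)⟩

end LayTC

/-! ### well-formed arrays -/

section WFL

variable {L : Lay} {W r M : ℕ}

theorem fib_eq {A : Type} [CommRing A] (y : A) (L : Lay) (β : Base) (l : List (List ℕ)) :
    fib y L β l = L.fib (ev y) l β := rfl

theorem WFL.dealAll {l : List (List ℕ)} (h : W ∣ L.Z) (hl : WFL L r M l) :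
    ∀ s ∈ dealAll W l, WFL (L.sub W) r M s := fun _ hs =>
  ⟨Lay.length_of_mem_dealAll h hl.1 hs, fun x hx => hl.2 x (mem_of_mem_dealAll hs hx)⟩

theorem WFL.undealP (h : W ∣ L.Z) (ρ : Fin W → Fin W) {ws : List (List (List ℕ))}
    (hW : ws.length = W) (hws : ∀ s ∈ ws, WFL (L.sub W) r M s) : WFL L r M (undealP ρ ws) :=
  ⟨Lay.length_undealP h ρ hW (fun s hs => (hws s hs).1), fun x hx => by
    obtain ⟨s, h1, h2⟩ := mem_of_mem_undealP hW hx
    exact (hws s h1).2 x h2⟩

theorem WFL.addL {s t : List (List ℕ)} (hs : WFL L r M s) (ht : WFL L r M t) (a : ℤ) (j : ℕ) :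
    WFL L r M (addL M a j s t) :=
  ⟨length_addL a j hs.1 ht.1, wf_of_mem_addL a j hs.2 ht.2⟩

theorem sz_le_of_wf {x : List ℕ} (h : WF r M x) : sz x ≤ r * (2 * Nat.size M + 1) := by
  have := sz_list_le (l := x) (m := Nat.size M) (fun c hc => by
    rw [sz_nat]; exact Nat.size_le_size (h.2 c hc).le)
  rwa [h.1] at this

theorem WFL.sz_le {l : List (List ℕ)} (h : WFL L r M l) :
    sz l ≤ L.N * (4 * ((r + 1) * (Nat.size M + 1))) := by
  have := sz_list_le (l := l) (m := r * (2 * Nat.size M + 1)) (fun x hx => sz_le_of_wf (h.2 x hx))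
  rw [h.1] at this
  exact this.trans (Nat.mul_le_mul_left _ (by nlinarith))

theorem WFL.msz_le {l : List (List ℕ)} (h : WFL L r M l) :
    msz l ≤ r * (2 * Nat.size M + 1) := by
  have key : ∀ l : List (List ℕ), (∀ x ∈ l, WF r M x) → msz l ≤ r * (2 * Nat.size M + 1) := by
    intro l hl
    induction l with
    | nil => simp [msz]
    | cons a l ih =>
      have h1 := sz_le_of_wf (hl a (by simp))
      have h2 := ih (fun x hx => hl x (by simp [hx]))
      simp only [msz, List.map_cons, List.foldr_cons] at h2 ⊢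
      exact max_le h1 h2
  exact key l h.2

theorem sz_streams_le {ws : List (List (List ℕ))} (hW : ws.length = W)
    (hws : ∀ s ∈ ws, WFL L r M s) :
    sz ws ≤ W * (2 * (L.N * (4 * ((r + 1) * (Nat.size M + 1)))) + 1) := by
  have := sz_list_le (l := ws) (fun s hs => (hws s hs).sz_le)
  rwa [hW] at this

end WFL

end Crest.Agent.X326.B3
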