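import Crest.Agent.X326.B3.Partner
import Crest.Agent.X326.M4.Rec
import Crest.Agent.X326.M4.Fft

/-!
Row 326 (S0503), part M3: one butterfly on one bit of the flat index, on lists of records.

* `baseC M w l`: the butterfly `C` on the parity of `x / w` (base case of the recursion);
* `hPass M j l`: the butterfly `H` on bit `j`.
-/

set_option autoImplicit false

namespace Crest.Agent.X326.B3

open M4

/-- `(a + a' + i (a - a')) / 2` -/
def cRec (M : ℕ) (a a' : List ℕ) : List ℕ :=
  recHalf M (recAdd M (recAdd M a a') (recMulI M (recSub M a a')))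

/-- the butterfly `C` at weight `w` -/
def baseC (M w : ℕ) (l : List (List ℕ)) : List (List ℕ) :=
  List.zipWith (cRec M) l (partner w l)

/-- `a' - a` or `a + a'` -/
def hRec (e : ℕ × Bool) (q : List ℕ × List ℕ) : List ℕ :=
  bif e.2 then recSub e.1 q.2 q.1 else recAdd e.1 q.1 q.2

/-- the butterfly `H` on bit `j` -/
def hPass (M j : ℕ) (l : List (List ℕ)) : List (List ℕ) :=
  List.zipWith hRec ((List.range (l.zip (partner (2 ^ j) l)).length).map
    (fun x => (M, x.testBit j))) (l.zip (partner (2 ^ j) l))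

variable {r M : ℕ}

theorem wf_cRec {a a' : List ℕ} (ha : WF r M a) (ha' : WF r M a') : WF r M (cRec M a a') :=
  ((ha.add ha').add (ha.sub ha').mulI).half

theorem wf_hRec {a a' : List ℕ} (c : Bool) (ha : WF r M a) (ha' : WF r M a') :
    WF r M (hRec (M, c) (a, a')) := by
  cases c
  · exact ha.add ha'
  · exact ha'.sub ha

theorem wf_getD {l : List (List ℕ)} (h : ∀ a ∈ l, WF r M a) {x : ℕ} (hx : x < l.length) :
    WF r M (l.getD x []) := by
  rw [List.getD_eq_getElem _ _ hx]
  exact h _ (List.getElem_mem hx)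

theorem length_baseC {w : ℕ} (hw : 0 < w) {l : List (List ℕ)} (h : 2 * w ∣ l.length) :
    (baseC M w l).length = l.length := by
  simp [baseC, length_partner hw h]

theorem getD_baseC {w : ℕ} (hw : 0 < w) {l : List (List ℕ)} (h : 2 * w ∣ l.length) {x : ℕ}
    (hx : x < l.length) :
    (baseC M w l).getD x [] = cRec M (l.getD x []) (l.getD (pidx w x) []) := by
  have h1 : x < (partner w l).length := by rwa [length_partner hw h]
  rw [← getD_partner hw h [] hx, List.getD_eq_getElem _ _ hx, List.getD_eq_getElem _ _ h1,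
    List.getD_eq_getElem _ _ (by rwa [length_baseC hw h])]
  simp [baseC]

theorem wf_baseC {w : ℕ} {l : List (List ℕ)} (h : ∀ a ∈ l, WF r M a) :
    ∀ a ∈ baseC M w l, WF r M a := by
  intro a ha
  obtain ⟨i, hi, rfl⟩ := List.getElem_of_mem ha
  simp only [baseC, List.getElem_zipWith]
  exact wf_cRec (h _ (List.getElem_mem _)) (h _ (mem_of_mem_partner (List.getElem_mem _)))

theorem length_hPass {j : ℕ} {l : List (List ℕ)} (h : 2 * 2 ^ j ∣ l.length) :
    (hPass M j l).length = l.length := by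
  simp [hPass, length_partner (Nat.two_pow_pos j) h]

theorem getD_hPass {j : ℕ} {l : List (List ℕ)} (h : 2 * 2 ^ j ∣ l.length) {x : ℕ}
    (hx : x < l.length) :
    (hPass M j l).getD x [] = hRec (M, x.testBit j) (l.getD x [], l.getD (x ^^^ 2 ^ j) []) := by
  have hw := Nat.two_pow_pos j
  have h1 : x < (partner (2 ^ j) l).length := by rwa [length_partner hw h]
  rw [← pidx_two_pow, ← getD_partner hw h [] hx, List.getD_eq_getElem _ _ hx,
    List.getD_eq_getElem _ _ h1, List.getD_eq_getElem _ _ (by rwa [length_hPass h])]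
  simp [hPass]

theorem wf_hPass {j : ℕ} {l : List (List ℕ)} (h : ∀ a ∈ l, WF r M a) :
    ∀ a ∈ hPass M j l, WF r M a := by
  intro a ha
  obtain ⟨i, hi, rfl⟩ := List.getElem_of_mem ha
  simp only [hPass, List.getElem_zipWith, List.getElem_map, List.getElem_zip]
  exact wf_hRec _ (h _ (List.getElem_mem _)) (h _ (mem_of_mem_partner (List.getElem_mem _)))

section Sem

variable {A : Type} [CommRing A] {y hf : A}

theorem ev_cRec (hM : (M : A) = 0) (hodd : M % 2 = 1) (hy : y ^ r = -1) (hhf : 2 * hf = 1)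
    {a a' : List ℕ} (ha : WF r M a) (ha' : WF r M a') :
    ev y (cRec M a a') =
      hf * (1 + y ^ (r / 2)) * ev y a + hf * (1 - y ^ (r / 2)) * ev y a' := by
  rw [cRec, ev_half hM hodd hhf, ev_add hM (ha.add ha') (ha.sub ha').mulI, ev_add hM ha ha',
    ev_mulI hM hy (ha.sub ha'), ev_sub hM ha ha']
  ring

/-- the base case: `C` on the selected bit of chunk `lo` -/
theorem ev_baseC (hM : (M : A) = 0) (hodd : M % 2 = 1) (hy : y ^ r = -1) (hhf : 2 * hf = 1)
    {L : Lay} {β : Base} {sy sa lo : ℕ} (hβ : L.Ok sy sa β) (hR : 2 ∣ L.R) (hlo : lo < L.F)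
    {l : List (List ℕ)} (hl : l.length = L.N) (h : ∀ a ∈ l, WF r M a) (b : Bv) :
    ev y ((baseC M (L.wy * L.R ^ lo) l).getD (L.addr β b) []) =
      Cop (y ^ (r / 2)) hf lo (fun c => ev y (l.getD (L.addr β c) [])) b := by
  have hlt : ∀ c, L.addr β c < l.length := fun c => hl ▸ Lay.addr_lt_N hβ c
  rw [getD_baseC (Lay.weight_pos hβ hlo) (hl ▸ Lay.two_mul_dvd_N hR hlo) (hlt b),
    Lay.pidx_addr hβ hR hlo, ev_cRec hM hodd hy hhf (wf_getD h (hlt _)) (wf_getD h (hlt _))]
  rfl


theorem length_baseC_lay {L : Lay} {lo : ℕ} (hR : 2 ∣ L.R) (hlo : lo < L.F)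
    {l : List (List ℕ)} (hl : l.length = L.N) :
    (baseC M (L.wy * L.R ^ lo) l).length = L.N := by
  have hd := Lay.two_mul_dvd_N hR hlo
  rcases Nat.eq_zero_or_pos (L.wy * L.R ^ lo) with h0 | h0
  · rw [h0, mul_zero, zero_dvd_iff] at hd
    have : l = [] := List.eq_nil_of_length_eq_zero (hl.trans hd)
    rw [this, hd]; rfl
  · rw [length_baseC h0 (hl ▸ hd), hl]

theorem ev_hPass (hM : (M : A) = 0) {n j : ℕ} (hj : j < n) {l : List (List ℕ)}
    (hl : l.length = 2 ^ n) (h : ∀ a ∈ l, WF r M a) {x : ℕ} (hx : x < 2 ^ n) :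
    ev y ((hPass M j l).getD x []) = Hbit j (fun z => ev y (l.getD z [])) x := by
  have hd : 2 * 2 ^ j ∣ l.length := by
    rw [hl, ← pow_succ']; exact pow_dvd_pow 2 hj
  have h1 := wf_getD h (hl ▸ hx)
  have h2 := wf_getD h (hl ▸ xor_two_pow_lt hj hx)
  rw [getD_hPass hd (hl ▸ hx), Hbit]
  cases x.testBit j
  · simpa [hRec] using ev_add hM h1 h2
  · simpa [hRec] using ev_sub hM h2 h1

end Sem

end Crest.Agent.X326.B3
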