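import Crest.Agent.X326.B3.Partner
import Crest.Agent.X326.M4.Fft
import Crest.Agent.X326.B3.Base
import Crest.Agent.X326.B3.Spec
import Crest.Agent.X326.M4.Bridge

-- ▼ part X326/B3/Embed
section

/-!
Row 326 (S0503), part M3: change of radix.  A shape is a list of pairs `(s, s')` with `s ≤ s'`
(innermost field first); `rb S x` rewrites the mixed-radix digits of `x` for the radices `s` with
the radices `s'`.  `embL` spreads a list along `rb S`, `resL` reads it back.
-/

set_option autoImplicit false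

namespace Crest.Agent.X326.B3

/-- change of radix (the part above the listed fields is kept) -/
def rb : List (ℕ × ℕ) → ℕ → ℕ
  | [], x => x
  | p :: S, x => x % p.1 + p.2 * rb S (x / p.1)

/-- the image of `[0, prod s * H)` under `rb S` -/
def Inb : List (ℕ × ℕ) → ℕ → ℕ → Prop
  | [], H, y => y < H
  | p :: S, H, y => y % p.2 < p.1 ∧ Inb S H (y / p.2)

/-- one step of the membership test -/
def inbStep (st : ℕ × Bool) (p : ℕ × ℕ) : ℕ × Bool :=
  (st.1 / p.2, st.2 && decide (st.1 % p.2 < p.1))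

/-- the membership test -/
def inb (S : List (ℕ × ℕ)) (H y : ℕ) : Bool :=
  (S.foldl inbStep (y, true)).2 && decide ((S.foldl inbStep (y, true)).1 < H)

/-- product of the source radices -/
def prodS (S : List (ℕ × ℕ)) : ℕ := (S.map Prod.fst).prod

/-- product of the target radices -/
def prodT (S : List (ℕ × ℕ)) : ℕ := (S.map Prod.snd).prod

/-- a shape of positive, growing radices -/
def Grow (S : List (ℕ × ℕ)) : Prop := ∀ p ∈ S, 0 < p.1 ∧ p.1 ≤ p.2

theorem foldl_inbStep (S : List (ℕ × ℕ)) (H y : ℕ) (c : Bool) :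
    ((S.foldl inbStep (y, c)).2 && decide ((S.foldl inbStep (y, c)).1 < H)) = true ↔
      c = true ∧ Inb S H y := by
  induction S generalizing y c with
  | nil =>
    simp only [List.foldl_nil, Inb, Bool.and_eq_true]
    exact and_congr_right (fun _ => decide_eq_true_iff)
  | cons p S ih => rw [List.foldl_cons, inbStep, ih]; simp [Inb, and_assoc]

theorem inb_iff (S : List (ℕ × ℕ)) (H y : ℕ) : inb S H y = true ↔ Inb S H y := by
  rw [inb, foldl_inbStep]; simp

theorem Grow.tail {p : ℕ × ℕ} {S : List (ℕ × ℕ)} (h : Grow (p :: S)) : Grow S :=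
  fun q hq => h q (List.mem_cons_of_mem _ hq)

theorem rb_strictMono {S : List (ℕ × ℕ)} (h : Grow S) : StrictMono (rb S) := by
  induction S with
  | nil => exact strictMono_id
  | cons p S ih =>
    intro x y hxy
    obtain ⟨h0, h1⟩ := h p (by simp)
    have hx := Nat.mod_lt x h0
    simp only [rb]
    rcases (Nat.div_le_div_right (c := p.1) hxy.le).eq_or_lt with e | e
    · have h2 := Nat.div_add_mod x p.1
      have h3 := Nat.div_add_mod y p.1
      rw [e] at h2 ⊢
      omega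
    · have h2 : p.2 * (rb S (x / p.1) + 1) ≤ p.2 * rb S (y / p.1) :=
        Nat.mul_le_mul_left _ (ih h.tail e)
      rw [mul_add] at h2
      omega

theorem inb_rb {S : List (ℕ × ℕ)} (h : Grow S) (H x : ℕ) :
    Inb S H (rb S x) ↔ x < prodS S * H := by
  induction S generalizing x with
  | nil => simp [Inb, rb, prodS]
  | cons p S ih =>
    obtain ⟨h0, h1⟩ := h p (by simp)
    have hx := Nat.mod_lt x h0
    have e1 : (x % p.1 + p.2 * rb S (x / p.1)) % p.2 = x % p.1 := by
      rw [Nat.add_mul_mod_self_left, Nat.mod_eq_of_lt (by omega)]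
    have e2 : (x % p.1 + p.2 * rb S (x / p.1)) / p.2 = rb S (x / p.1) := by
      rw [Nat.add_mul_div_left _ _ (by omega), Nat.div_eq_of_lt (by omega), zero_add]
    have e3 : prodS (p :: S) * H = prodS S * H * p.1 := by simp [prodS]; ring
    simp only [Inb, rb]
    rw [e1, e2, ih h.tail, e3, Nat.div_lt_iff_lt_mul h0]
    simp [hx]

theorem exists_rb_of_inb {S : List (ℕ × ℕ)} {H y : ℕ} (hy : Inb S H y) : ∃ x, rb S x = y := by
  induction S generalizing y with
  | nil => exact ⟨y, rfl⟩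
  | cons p S ih =>
    obtain ⟨h1, h2⟩ := hy
    obtain ⟨u, hu⟩ := ih h2
    refine ⟨y % p.2 + p.1 * u, ?_⟩
    simp only [rb]
    rw [Nat.add_mul_mod_self_left, Nat.mod_eq_of_lt h1, Nat.add_mul_div_left _ _ (by omega),
      Nat.div_eq_of_lt h1, zero_add, hu, Nat.mod_add_div]

theorem rb_lt {S : List (ℕ × ℕ)} (h : Grow S) {H x : ℕ} (hx : x < prodS S * H) :
    rb S x < prodT S * H := by
  induction S generalizing x with
  | nil => simpa [rb, prodS, prodT] using hx
  | cons p S ih =>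
    obtain ⟨h0, h1⟩ := h p (by simp)
    have hx' := Nat.mod_lt x h0
    have e3 : prodS (p :: S) * H = prodS S * H * p.1 := by simp [prodS]; ring
    have e4 : prodT (p :: S) * H = p.2 * (prodT S * H) := by simp [prodT]; ring
    rw [e3, ← Nat.div_lt_iff_lt_mul h0] at hx
    have h2 : p.2 * (rb S (x / p.1) + 1) ≤ p.2 * (prodT S * H) :=
      Nat.mul_le_mul_left _ (ih h.tail hx)
    rw [mul_add] at h2
    simp only [rb]
    omega

theorem filter_inb {S : List (ℕ × ℕ)} (h : Grow S) {H N' : ℕ} (hN : prodT S * H ≤ N') :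
    (List.range N').filter (inb S H) = (List.range (prodS S * H)).map (rb S) := by
  refine List.Pairwise.eq_of_mem_iff (r := (· < ·)) (List.pairwise_lt_range.filter _)
    (List.pairwise_lt_range.map _ (fun a b hab => rb_strictMono h hab)) (fun y => ?_)
  simp only [List.mem_filter, List.mem_range, List.mem_map, inb_iff]
  constructor
  · rintro ⟨_, hy⟩
    obtain ⟨x, rfl⟩ := exists_rb_of_inb hy
    exact ⟨x, (inb_rb h H x).1 hy, rfl⟩
  · rintro ⟨x, hx, rfl⟩
    exact ⟨(rb_lt h hx).trans_le hN, (inb_rb h H x).2 hx⟩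

/-! ### spreading a list and reading it back -/

section Lists

variable {α : Type}

/-- the flags of the image -/
def flags (S : List (ℕ × ℕ)) (H N' : ℕ) : List Bool := (List.range N').map (inb S H)

/-- spread `l` along the flags `fl`, the other places receive `z` -/
def embL (fl : List Bool) (z : α) (l : List α) : List α :=
  mergeBy fl l (List.replicate (fl.length - l.length) z)

variable {S : List (ℕ × ℕ)} {H N' : ℕ}

@[simp] theorem length_flags : (flags S H N').length = N' := by simp [flags]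

theorem embL_eq (h : Grow S) (hN : prodT S * H ≤ N') (z d : α) {l : List α}
    (hl : l.length = prodS S * H) :
    embL (flags S H N') z l = (List.range N').map
      (fun y => if inb S H y then l.getD (Function.invFun (rb S) y) d else z) := by
  have hinv := Function.leftInverse_invFun (rb_strictMono h).injective
  have e1 : l = ((List.range N').filter (inb S H)).map
      (fun y => l.getD (Function.invFun (rb S) y) d) := by
    rw [filter_inb h hN, List.map_map]
    conv_lhs => rw [← map_getD_range l d, hl]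
    exact List.map_congr_left (fun x _ => by simp only [Function.comp, hinv x])
  have e2 : List.replicate (N' - l.length) z =
      ((List.range N').filter (fun y => !inb S H y)).map (fun _ => z) := by
    rw [List.map_const']
    congr 1
    have h1 := List.length_eq_length_filter_add (l := List.range N') (inb S H)
    rw [filter_inb h hN] at h1
    simp only [List.length_range, List.length_map] at h1
    omega
  rw [embL, length_flags, e2]
  conv_lhs => rw [e1]
  exact mergeBy_map _ _ _ _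

theorem length_embL (h : Grow S) (hN : prodT S * H ≤ N') (z : α) {l : List α}
    (hl : l.length = prodS S * H) : (embL (flags S H N') z l).length = N' := by
  rw [embL_eq h hN z z hl]; simp

theorem getD_embL (h : Grow S) (hN : prodT S * H ≤ N') (z d : α) {l : List α}
    (hl : l.length = prodS S * H) {x : ℕ} (hx : x < prodS S * H) :
    (embL (flags S H N') z l).getD (rb S x) d = l.getD x d := by
  rw [embL_eq h hN z d hl, getD_map_range _ ((rb_lt h hx).trans_le hN),
    if_pos ((inb_iff _ _ _).2 ((inb_rb h H x).2 hx)),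
    Function.leftInverse_invFun (rb_strictMono h).injective x]

theorem mem_of_mem_embL {fl : List Bool} {z a : α} {l : List α} (h : a ∈ embL fl z l) :
    a ∈ l ∨ a = z :=
  (mem_of_mem_mergeBy h).imp_right List.eq_of_mem_replicate

theorem filterBy_flags (h : Grow S) (hN : prodT S * H ≤ N') (d : α) {l : List α}
    (hl : l.length = N') :
    filterBy (flags S H N') l = (List.range (prodS S * H)).map (fun x => l.getD (rb S x) d) := by
  conv_lhs => rw [← map_getD_range l d, hl]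
  rw [flags, filterBy_map, filter_inb h hN, List.map_map]
  rfl

end Lists

/-! ### the change of radix between two layouts -/

theorem rb_cons {s s' u : ℕ} (hu : u < s) (S : List (ℕ × ℕ)) (v : ℕ) :
    rb ((s, s') :: S) (u + s * v) = u + s' * rb S v := by
  simp only [rb]
  rw [Nat.add_mul_mod_self_left, Nat.mod_eq_of_lt hu, Nat.add_mul_div_left _ _ (by omega),
    Nat.div_eq_of_lt hu, zero_add]

theorem rb_replicate {s s' n : ℕ} {d : ℕ → ℕ} (hd : ∀ j < n, d j < s) (S : List (ℕ × ℕ))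
    (v : ℕ) : rb (List.replicate n (s, s') ++ S) (ds s d n + s ^ n * v) =
      ds s' d n + s' ^ n * rb S v := by
  induction n generalizing d with
  | zero => simp [ds]
  | succ n ih =>
    have e : ds s d (n + 1) + s ^ (n + 1) * v =
        d 0 + s * (ds s (fun j => d (j + 1)) n + s ^ n * v) := by
      rw [ds_succ']; ring
    rw [List.replicate_succ, List.cons_append, e, rb_cons (hd 0 (by omega)),
      ih (fun j hj => hd (j + 1) (by omega)), ds_succ']
    ring

/-- the shape that turns the layout `L0` into the layout `L` -/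
def shape (L0 L : Lay) : List (ℕ × ℕ) :=
  (L0.Z, L.Z) :: (List.replicate L0.F (L0.g, L.g) ++
    (L0.G2, L.G2) :: List.replicate L0.F (L0.R, L.R))

theorem prodS_shape (L0 L : Lay) : prodS (shape L0 L) = L0.wy * L0.R ^ L0.F := by
  simp [prodS, shape, Lay.wy]; ring

theorem prodT_shape {L0 L : Lay} (hF : L.F = L0.F) : prodT (shape L0 L) = L.wy * L.R ^ L.F := by
  simp [prodT, shape, Lay.wy, hF]; ring

theorem addr_horner (L : Lay) (β : Base) (b : Bv) :
    L.addr β b = β.z + L.Z * (ds L.g β.a L.F + L.g ^ L.F *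
      (β.p + L.G2 * (ds L.R (Lay.ydig β b) L.F + L.R ^ L.F * β.hi))) := by
  rw [Lay.addr_eq, Lay.low, Lay.wy]; ring

theorem rb_addr {L0 L : Lay} (hF : L.F = L0.F) {β : Base} {sy sa : ℕ} (h : L0.Ok sy sa β)
    (b : Bv) : rb (shape L0 L) (L0.addr β b) = L.addr β b := by
  rw [addr_horner, addr_horner, shape, rb_cons h.z,
    rb_replicate (fun j hj => by have := h.a j hj; omega), rb_cons h.p,
    ← List.append_nil (List.replicate L0.F (L0.R, L.R)),
    rb_replicate (fun j hj => Lay.ydig_lt h b hj), hF]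
  rfl

/-! ### every index is an address -/

theorem ds_digits (q u n : ℕ) : ds q (fun j => u / q ^ j % q) n = u % q ^ n := by
  induction n with
  | zero => simp [ds, Nat.mod_one]
  | succ n ih => rw [ds_succ, ih, Nat.mod_pow_succ]; ring

theorem exists_addr (L : Lay) (hR : 2 ∣ L.R) {x : ℕ} (hx : x < L.N) :
    ∃ (β : Base) (b : Bv), L.Ok 0 0 β ∧ L.addr β b = x := by
  have hN : L.N = L.Z * (L.g ^ L.F * (L.G2 * (L.R ^ L.F * (L.G1 * L.g ^ L.F * L.Pre)))) := by
    unfold Lay.N Lay.wh Lay.wy; ring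
  have hpos : 0 < L.N := by omega
  rw [hN] at hx hpos
  have hZ : 0 < L.Z := Nat.pos_of_mul_pos_right hpos
  have h1 := Nat.pos_of_mul_pos_left hpos
  have hg : 0 < L.g ^ L.F := Nat.pos_of_mul_pos_right h1
  have h2 := Nat.pos_of_mul_pos_left h1
  have hG : 0 < L.G2 := Nat.pos_of_mul_pos_right h2
  have h3 := Nat.pos_of_mul_pos_left h2
  have hRF : 0 < L.R ^ L.F := Nat.pos_of_mul_pos_right h3
  set x1 := x / L.Z with hx1
  set x2 := x1 / L.g ^ L.F with hx2
  set x3 := x2 / L.G2 with hx3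
  have hb : ∀ c : ℕ, ((c : ZMod 2)).val = c % 2 := fun c => ZMod.val_natCast 2 c
  refine ⟨⟨x3 / L.R ^ L.F, fun j => x3 / L.R ^ j % L.R / 2, x2 % L.G2,
    fun j => x1 / L.g ^ j % L.g, x % L.Z⟩, fun j => ((x3 / L.R ^ j % L.R : ℕ) : ZMod 2),
    ⟨?_, fun j hj => ?_, Nat.mod_lt _ hG, fun j hj => ?_, Nat.mod_lt _ hZ⟩, ?_⟩
  · refine Nat.div_lt_of_lt_mul (Nat.div_lt_of_lt_mul (Nat.div_lt_of_lt_mul
      (Nat.div_lt_of_lt_mul hx)))
  · have : 0 < L.R := Nat.pos_of_ne_zero (fun e => by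
      rw [e, zero_pow (by omega)] at hRF; omega)
    have := Nat.mod_lt (x3 / L.R ^ j) this
    simp only
    omega
  · have : 0 < L.g := Nat.pos_of_ne_zero (fun e => by
      rw [e, zero_pow (by omega)] at hg; omega)
    have := Nat.mod_lt (x1 / L.g ^ j) this
    simp only
    omega
  · rw [addr_horner]
    have e : ds L.R (Lay.ydig ⟨x3 / L.R ^ L.F, fun j => x3 / L.R ^ j % L.R / 2, x2 % L.G2,
        fun j => x1 / L.g ^ j % L.g, x % L.Z⟩ (fun j => ((x3 / L.R ^ j % L.R : ℕ) : ZMod 2))) L.F =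
        x3 % L.R ^ L.F := by
      rw [← ds_digits]
      refine ds_congr' (fun j _ => ?_)
      simp only [Lay.ydig, hb]
      omega
    rw [e]
    simp only [ds_digits]
    rw [Nat.mod_add_div, Nat.mod_add_div, Nat.mod_add_div, Nat.mod_add_div]

/-! ### the blow-up -/

theorem add_pow_le_three_mul {a b n : ℕ} (h : n * b ≤ a) : (a + b) ^ n ≤ 3 * a ^ n := by
  rcases Nat.eq_zero_or_pos a with rfl | ha
  · rcases Nat.eq_zero_or_pos n with rfl | hn
    · simp
    · have : b = 0 := by nlinarith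
      subst this
      simp [zero_pow hn.ne']
  have ha' : (0 : ℝ) < a := by exact_mod_cast ha
  have h1 : ((a : ℝ) + b) = a * (b / a + 1) := by field_simp; ring
  have h2 : ((b : ℝ) / a + 1) ^ n ≤ Real.exp (b / a) ^ n :=
    pow_le_pow_left₀ (by positivity) (Real.add_one_le_exp _) n
  have h3 : Real.exp (b / a) ^ n ≤ Real.exp 1 := by
    rw [← Real.exp_nat_mul]
    apply Real.exp_le_exp.2
    rw [← mul_div_assoc, div_le_one ha']
    exact_mod_cast h
  have h4 : Real.exp 1 ≤ 3 := Real.exp_one_lt_three.le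
  have h5 : (((a + b) ^ n : ℕ) : ℝ) ≤ ((3 * a ^ n : ℕ) : ℝ) := by
    push_cast
    rw [h1, mul_pow, mul_comm]
    exact mul_le_mul_of_nonneg_right (h2.trans (h3.trans h4)) (by positivity)
  exact_mod_cast h5

end Crest.Agent.X326.B3
private theorem rz_655ff67340 : type_of% @_root_.Crest.Agent.X326.B3.Inb.eq_def := @_root_.Crest.Agent.X326.B3.Inb.eq_def -- L19
private theorem rz_b47f94a0f0 : type_of% @_root_.Crest.Agent.X326.B3.Inb.eq_1 := @_root_.Crest.Agent.X326.B3.Inb.eq_1 -- L19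
private theorem rz_6250aa95dd : type_of% @_root_.Crest.Agent.X326.B3.rb.eq_def := @_root_.Crest.Agent.X326.B3.rb.eq_def -- L14
private theorem rz_bf90d107f4 : type_of% @_root_.Crest.Agent.X326.B3.rb.eq_1 := @_root_.Crest.Agent.X326.B3.rb.eq_1 -- L14
end

-- ▼ part X326/B3/HC
section

/-!
Row 326 (S0503), part M3: `H^{⊗ n} = (1 - i) ^ n S C^{⊗ n} S` with `S = diag (1, i)^{⊗ n}`, and the
reading of `H^{⊗ n}` on a layout whose radices are powers of two.
-/

set_option autoImplicit false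

namespace Crest.Agent.X326.B3

open Finset

variable {A : Type} [CommRing A]

/-- the butterfly `H` on bit `j` -/
def Hop (j : ℕ) (y : Bv → A) : Bv → A :=
  fun b => if (b j).val = 1 then y (b + Pi.single j 1) - y b else y b + y (b + Pi.single j 1)

/-- `H` on the bits `0, …, n - 1` -/
def Hrange : ℕ → (Bv → A) → Bv → A
  | 0, y => y
  | n + 1, y => Hop n (Hrange n y)

/-- the number of set bits among the first `n` -/
def cnt (n : ℕ) (b : Bv) : ℕ := ∑ j ∈ range n, (b j).val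

theorem cnt_succ (n : ℕ) (b : Bv) : cnt (n + 1) b = cnt n b + (b n).val := by
  unfold cnt; rw [sum_range_succ]

theorem cnt_flip {n j : ℕ} (h : n ≤ j) (b : Bv) : cnt n (b + Pi.single j 1) = cnt n b := by
  unfold cnt
  refine sum_congr rfl (fun k hk => ?_)
  have : k ≠ j := by have := mem_range.1 hk; omega
  simp [this]

theorem Crange_mul (i hf : A) (lo n : ℕ) (s w : Bv → A)
    (hs : ∀ j < n, ∀ b, s (b + Pi.single (lo + j) 1) = s b) :
    Crange i hf lo n (fun b => s b * w b) = fun b => s b * Crange i hf lo n w b := by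
  induction n with
  | zero => rfl
  | succ n ih =>
    funext b
    simp only [Crange, ih (fun j hj => hs j (by omega)), Cop, hs n (by omega), smul_eq_mul]
    ring

theorem Hrange_eq {i hf : A} (hi : i * i = -1) (hhf : 2 * hf = 1) (n : ℕ) (y : Bv → A) :
    Hrange n y = fun b =>
      (1 - i) ^ n * (i ^ cnt n b * Crange i hf 0 n (fun c => i ^ cnt n c * y c) b) := by
  induction n with
  | zero => funext b; simp [Hrange, Crange, cnt]
  | succ n ih =>
    funext b
    have e1 : (fun c => i ^ cnt (n + 1) c * y c) =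
        fun c => i ^ (c n).val * (i ^ cnt n c * y c) := by
      funext c; rw [cnt_succ, pow_add]; ring
    have e2 := Crange_mul i hf 0 n (fun c => i ^ (c n).val) (fun c => i ^ cnt n c * y c)
      (fun j hj c => by
        have : n ≠ j := by omega
        simp [this])
    have h2 : (b n).val < 2 := ZMod.val_lt _
    have e3 : ((b + Pi.single n 1 : Bv) n).val = 1 - (b n).val := by
      rw [Pi.add_apply, Pi.single_eq_same, Lay.val_add_one]
    have c1 : (1 - i) * i * (hf * (1 + i) * i) = -1 := by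
      linear_combination (-hf * (i * i - 2)) * hi - hhf
    have c2 : (1 - i) * i * (hf * (1 - i)) = 1 := by
      linear_combination (hf * i - 2 * hf) * hi + hhf
    have c3 : (1 - i) * (hf * (1 + i)) = 1 := by
      linear_combination (-hf) * hi + hhf
    rw [e1, Crange, e2]
    simp only [Hrange, Hop, ih, Cop, zero_add, smul_eq_mul, cnt_flip le_rfl, cnt_succ, e3]
    generalize Crange i hf 0 n (fun c => i ^ cnt n c * y c) b = u
    generalize Crange i hf 0 n (fun c => i ^ cnt n c * y c) (b + Pi.single n 1) = u'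
    split_ifs with h
    · rw [h, pow_add, pow_succ (1 - i)]
      linear_combination (-((1 - i) ^ n * i ^ cnt n b * u)) * c1 -
        ((1 - i) ^ n * i ^ cnt n b * u') * c2
    · have h0 : (b n).val = 0 := by omega
      rw [h0, pow_succ (1 - i)]
      linear_combination (-((1 - i) ^ n * i ^ cnt n b * u)) * c3 -
        ((1 - i) ^ n * i ^ cnt n b * u') * c2

theorem one_sub_pow_of_dvd {i : A} (hi : i * i = -1) {n : ℕ} (hn : 8 ∣ n) :
    (1 - i) ^ n = 2 ^ (n / 2) := by
  obtain ⟨e, rfl⟩ := hn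
  have h8 : (1 - i) ^ 8 = 2 ^ 4 := by
    have h2 : (1 - i) ^ 2 = -2 * i := by linear_combination hi
    have h4 : (1 - i) ^ 4 = -4 := by
      rw [show 4 = 2 * 2 from rfl, pow_mul, h2]; linear_combination 4 * hi
    rw [show 8 = 4 * 2 from rfl, pow_mul, h4]; norm_num
  rw [pow_mul, h8, ← pow_mul, show 8 * e / 2 = 4 * e by omega]

/-! ### layouts with radices that are powers of two -/

/-- the number of set selected bits of a flat index -/
def sexp (wy R F x : ℕ) : ℕ := ((List.range F).map (fun j => x / (wy * R ^ j) % 2)).sum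

theorem sexp_addr {L : Lay} {β : Base} {sy sa : ℕ} (h : L.Ok sy sa β) (hR : 2 ∣ L.R) (b : Bv) :
    sexp L.wy L.R L.F (L.addr β b) = cnt L.F b := by
  unfold sexp cnt
  rw [show ∀ f : ℕ → ℕ, ((List.range L.F).map f).sum = ∑ j ∈ range L.F, f j from fun _ => rfl]
  exact sum_congr rfl (fun j hj => Lay.addr_div_mod_two h hR (mem_range.1 hj) b)

/-- the bit positions of the selected bits: chunk `j` starts at bit `a + k * j` -/
def fastBits (a k n : ℕ) : List ℕ := ((List.range n).map (fun j => a + k * j)).reverse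

theorem fastBits_succ (a k n : ℕ) : fastBits a k (n + 1) = (a + k * n) :: fastBits a k n := by
  simp [fastBits, List.range_succ]

theorem Hbit_addr {L : Lay} {β : Base} {sy sa a k : ℕ} (h : L.Ok sy sa β) (hy : L.wy = 2 ^ a)
    (hR : L.R = 2 ^ k) (hk : 0 < k) {j : ℕ} (hj : j < L.F) (x : ℕ → A) (b : Bv) :
    M4.Hbit (a + k * j) x (L.addr β b) = Hop j (fun c => x (L.addr β c)) b := by
  have h2 : 2 ∣ L.R := hR ▸ dvd_pow_self 2 hk.ne'
  have hw : L.wy * L.R ^ j = 2 ^ (a + k * j) := by rw [hy, hR, ← pow_mul, ← pow_add]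
  have e1 := Lay.addr_div_mod_two h h2 hj b
  have e2 := Lay.pidx_addr h h2 hj b
  rw [hw] at e1 e2
  rw [pidx_two_pow] at e2
  unfold M4.Hbit Hop
  rw [Nat.testBit_eq_decide_div_mod_eq, e1, e2]
  simp

theorem Hs_addr {L : Lay} {β : Base} {sy sa a k : ℕ} (h : L.Ok sy sa β) (hy : L.wy = 2 ^ a)
    (hR : L.R = 2 ^ k) (hk : 0 < k) {n : ℕ} (hn : n ≤ L.F) (x : ℕ → A) :
    (fun b => M4.Hs (fastBits a k n) x (L.addr β b)) = Hrange n (fun c => x (L.addr β c)) := by
  induction n with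
  | zero => rfl
  | succ n ih =>
    funext b
    rw [fastBits_succ, M4.Hs_cons, Hbit_addr h hy hR hk (by omega), ih (by omega), Hrange]

/-- the layer is three plain butterflies and the butterflies on the fast axes -/
theorem layBits_perm (k F ρ : ℕ) : (M4.layBits k (F + 3) ρ).Perm
    (ρ :: (k * (F + 1) + ρ) :: (k * (F + 2) + ρ) :: fastBits (k + ρ) k F) := by
  have e : M4.layBits k (F + 3) ρ = ρ :: ((List.range F).map (fun j => k + ρ + k * j) ++
      [k * (F + 1) + ρ, k * (F + 2) + ρ]) := by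
    unfold M4.layBits
    rw [List.range_succ, List.range_succ, List.range_succ_eq_map]
    simp only [List.map_append, List.map_cons, List.map_map, List.map_nil, List.cons_append,
      List.append_assoc, List.nil_append, mul_zero, zero_add, List.cons.injEq, true_and]
    congr 1
    exact List.map_congr_left (fun j _ => by simp only [Function.comp, Nat.succ_eq_add_one]; ring)
  rw [e]
  refine List.Perm.cons _ (List.perm_append_comm.trans ?_)
  exact List.Perm.cons _ (List.Perm.cons _ (List.reverse_perm _).symm)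

theorem Hlay_eq (k F ρ : ℕ) (x : ℕ → A) : M4.Hlay k (F + 3) ρ x =
    M4.Hbit ρ (M4.Hbit (k * (F + 1) + ρ) (M4.Hbit (k * (F + 2) + ρ)
      (M4.Hs (fastBits (k + ρ) k F) x))) :=
  M4.Hs_perm (layBits_perm k F ρ) x

end Crest.Agent.X326.B3
private theorem rz_3af801be36 : type_of% @_root_.Crest.Agent.X326.B3.Hrange.eq_def := @_root_.Crest.Agent.X326.B3.Hrange.eq_def -- L22
private theorem rz_d939f2a8e6 : type_of% @_root_.Crest.Agent.X326.B3.Hrange.eq_1 := @_root_.Crest.Agent.X326.B3.Hrange.eq_1 -- L22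
end

-- ▼ part X326/B3/LayerPure

/-!
Row 326 (S0503), part M3: the layer of butterflies on bit `ρ` of all axes, from part B.
Definitions and correctness.
-/

set_option autoImplicit false

namespace Crest.Agent.X326.B3

open M4 Crest.Agent.Lib.PT

/-- lists of records -/
abbrev RL : Type := List (List ℕ)

/-- multiplication by `y ^ e.2` modulo `e.1` -/
def rotOp (e : ℕ × ℕ) (a : List ℕ) : List ℕ := recRot e.1 e.2 a

/-- multiply record number `n` by `y ^ e n` -/
def stw (M : ℕ) (e : ℕ → ℕ) (l : RL) : RL :=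
  List.zipWith rotOp ((List.range l.length).map (fun n => (M, e n))) l

theorem wfa_stw {N r M : ℕ} {l : RL} (h : WFA N r M l) (e : ℕ → ℕ) : WFA N r M (stw M e l) := by
  refine ⟨by simp [stw, h.1], fun x hx => ?_⟩
  obtain ⟨i, hi, rfl⟩ := List.getElem_of_mem hx
  simp only [stw, List.getElem_zipWith, List.getElem_map, rotOp]
  exact (h.2 _ (List.getElem_mem _)).rot _

theorem arr_stw {N r M : ℕ} {l : RL} (h : WFA N r M l) {e : ℕ → ℕ} {n : ℕ} (hn : n < N)
    (he : e n ≤ 2 * r) : arr r M (stw M e l) n = yR r M ^ e n * arr r M l n := by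
  have h1 : n < l.length := by rw [h.1]; exact hn
  have h2 : (stw M e l).getD n [] = recRot M (e n) (l.getD n []) := by
    rw [List.getD_eq_getElem _ _ (by simpa [stw] using h1), List.getD_eq_getElem _ _ h1]
    simp [stw, rotOp]
  rw [arr, h2, ev_rot (cast_M_Rg r M) (yR_pow r M) (h.getD hn) he, arr]

/-- number of fast axes -/
def fF (p : Par) : ℕ := p.d - 3

/-- bits per slot of the lower ancilla -/
def fq (p : Par) : ℕ := (fF p).size

/-- the natural layout, bracketed at bit `ρ` -/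
def lay0 (p : Par) (ρ : ℕ) : Lay :=
  ⟨2 ^ (2 * p.k - ρ - fq p * fF p), 2 ^ fq p, fF p, 1, 2 ^ p.k, 1, 2 ^ (p.k + ρ - fq p * fF p)⟩

/-- the safe layout -/
def lay1 (p : Par) (ρ : ℕ) : Lay :=
  ⟨2 ^ (2 * p.k - ρ - fq p * fF p), 2 ^ fq p + 1, fF p, 1, 2 ^ p.k + 2 * (2 ^ fq p + 1), 1,
    2 ^ (p.k + ρ - fq p * fF p)⟩

/-- the flags of the embedding -/
def lflags (p : Par) (ρ : ℕ) : List Bool :=
  flags (shape (lay0 p ρ) (lay1 p ρ)) (2 ^ (2 * p.k - ρ)) (lay1 p ρ).N

/-- the exponent of `y` in the diagonal map `S` -/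
def sE (p : Par) (ρ x : ℕ) : ℕ :=
  p.r / 2 * sexp (2 ^ (p.k + ρ)) (2 ^ p.k) (fF p) x % (2 * p.r)

/-- input of part B -/
abbrev PBIn : Type := (ℕ × ℕ) × Lay × (Un × Un) × List (List ℕ)

/-- the input of part B in the layer -/
def pbIn (m : ℕ) (p : Par) (ρ : ℕ) (l : RL) : PBIn :=
  ((p.M, p.r), lay1 p ρ, (⟨0⟩, ⟨Nat.log m (fF p)⟩),
    embL (lflags p ρ) (recZero p.r) (stw p.M (sE p ρ) l))

/-- the butterflies on the fast axes -/
def fastL (m : ℕ) (pb : PBIn → RL) (p : Par) (ρ : ℕ) (l : RL) : RL :=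
  (stw p.M (sE p ρ) (filterBy (lflags p ρ) (pb (pbIn m p ρ l)))).map (recShift p.P (fF p / 2))

/-- the layer -/
def layerL (m : ℕ) (pb : PBIn → RL) (p : Par) (ρ : ℕ) (l : RL) : RL :=
  hPass p.M ρ (hPass p.M (p.k * (fF p + 1) + ρ) (hPass p.M (p.k * (fF p + 2) + ρ)
    (fastL m pb p ρ l)))

/-- side conditions of the layer (`2 ^ w` streams, `m` groups) -/
def LayerOk (w m : ℕ) (p : Par) : Prop :=
  p.Ok ∧ ∃ j, 1 ≤ j ∧ p.d = m ^ j + 3 ∧
    m ^ j * (m ^ j).size + w * j + 2 * (m ^ j).size + 3 ≤ p.k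

/-- the facts used below -/
structure LFacts (w m : ℕ) (p : Par) : Prop where
  ok : p.Ok
  d_eq : p.d = fF p + 3
  pow_eq : m ^ Nat.log m (fF p) = fF p
  dvd : 8 ∣ fF p
  pos : 0 < fF p
  room : fq p * fF p + w * Nat.log m (fF p) + 2 * fq p + 3 ≤ p.k

theorem LayerOk.facts {w m : ℕ} (hm : 8 ∣ m) (hm0 : 0 < m) {p : Par} (h : LayerOk w m p) :
    LFacts w m p := by
  obtain ⟨hok, j, hj, hd, hr⟩ := h
  have hF : fF p = m ^ j := by unfold fF; omega
  have hm1 : 1 < m := by have := Nat.le_of_dvd hm0 hm; omega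
  have hl : Nat.log m (fF p) = j := by rw [hF, Nat.log_pow hm1]
  refine ⟨hok, by rw [hF, hd], by rw [hl, hF], ?_, ?_, ?_⟩
  · rw [hF]; exact hm.trans (dvd_pow_self m (by omega))
  · rw [hF]; positivity
  · rw [hl, fq, hF, mul_comm]; exact hr

section Facts

variable {w m : ℕ} {p : Par} {ρ : ℕ}

theorem lay0_wy (h : LFacts w m p) (ρ : ℕ) : (lay0 p ρ).wy = 2 ^ (p.k + ρ) := by
  have := h.room
  simp only [lay0, Lay.wy, mul_one]
  rw [← pow_mul, ← pow_add]
  congr 1; omega

theorem lay0_hi (h : LFacts w m p) (hρ : ρ < p.k) :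
    (lay0 p ρ).G1 * (lay0 p ρ).g ^ (lay0 p ρ).F * (lay0 p ρ).Pre = 2 ^ (2 * p.k - ρ) := by
  have := h.room
  simp only [lay0, one_mul]
  rw [← pow_mul, ← pow_add]
  congr 1; omega

theorem prodS_lay (h : LFacts w m p) (hρ : ρ < p.k) :
    prodS (shape (lay0 p ρ) (lay1 p ρ)) * 2 ^ (2 * p.k - ρ) = p.N := by
  rw [prodS_shape, lay0_wy h, Par.N, h.d_eq]
  simp only [lay0]
  rw [← pow_mul, ← pow_add, ← pow_add]
  congr 1
  have : p.k * (fF p + 3) = p.k * fF p + 3 * p.k := by ring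
  omega

theorem lay0_N (h : LFacts w m p) (hρ : ρ < p.k) : (lay0 p ρ).N = p.N := by
  rw [← prodS_lay h hρ, prodS_shape, ← lay0_hi h hρ, Lay.N, Lay.wh]; ring

theorem grow_lay (p : Par) (ρ : ℕ) : Grow (shape (lay0 p ρ) (lay1 p ρ)) := by
  intro q hq
  simp only [shape, lay0, lay1, List.mem_cons, List.mem_append, List.mem_replicate] at hq
  rcases hq with rfl | ⟨_, rfl⟩ | rfl | ⟨_, rfl⟩ <;> simp

theorem prodT_lay (h : LFacts w m p) (hρ : ρ < p.k) :
    prodT (shape (lay0 p ρ) (lay1 p ρ)) * 2 ^ (2 * p.k - ρ) ≤ (lay1 p ρ).N := by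
  rw [prodT_shape (L0 := lay0 p ρ) (L := lay1 p ρ) rfl, ← lay0_hi h hρ, Lay.N, Lay.wh]
  have h1 : (lay0 p ρ).g ^ (lay0 p ρ).F ≤ (lay1 p ρ).g ^ (lay1 p ρ).F :=
    Nat.pow_le_pow_left (Nat.le_succ _) _
  calc (lay1 p ρ).wy * (lay1 p ρ).R ^ (lay1 p ρ).F *
        ((lay0 p ρ).G1 * (lay0 p ρ).g ^ (lay0 p ρ).F * (lay0 p ρ).Pre)
      ≤ (lay1 p ρ).wy * (lay1 p ρ).R ^ (lay1 p ρ).F *
        ((lay1 p ρ).G1 * (lay1 p ρ).g ^ (lay1 p ρ).F * (lay1 p ρ).Pre) :=
        Nat.mul_le_mul_left _ (Nat.mul_le_mul_right _ (Nat.mul_le_mul_left _ h1))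
    _ = _ := by ring

theorem lay1_good (h : LFacts w m p) (ρ : ℕ) : (lay1 p ρ).Good := by
  have hk := h.ok.k_pos
  refine ⟨Nat.two_pow_pos _, Nat.succ_le_succ Nat.one_le_two_pow, Nat.one_pos, ?_, ?_,
    Nat.one_pos, Nat.two_pow_pos _⟩
  · exact Nat.add_pos_left (Nat.two_pow_pos _) _
  · exact dvd_add (dvd_pow_self 2 (by omega)) (dvd_mul_right _ _)

theorem lay1_safe {β : Base} (hβ : (lay0 p ρ).Ok 0 0 β) : (lay1 p ρ).Safe β := by
  refine ⟨hβ.hi.trans_le ?_, fun j hj => ?_, hβ.p, fun j hj => ?_, hβ.z⟩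
  · exact Nat.mul_le_mul_right _ (Nat.mul_le_mul_left _ (Nat.pow_le_pow_left (Nat.le_succ _) _))
  · have := hβ.h j hj
    simp only [lay0, lay1] at this ⊢
    omega
  · have := hβ.a j hj
    simp only [lay0, lay1] at this ⊢
    omega

theorem lay1_N_le (h : LFacts w m p) (hρ : ρ < p.k) : (lay1 p ρ).N ≤ 27 * p.N := by
  have hq : fF p < 2 ^ fq p := Nat.lt_size_self _
  have h1 : (2 ^ fq p + 1) ^ fF p ≤ 3 * (2 ^ fq p) ^ fF p := add_pow_le_three_mul (by omega)
  have h2 : (2 ^ p.k + 2 * (2 ^ fq p + 1)) ^ fF p ≤ 3 * (2 ^ p.k) ^ fF p := by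
    apply add_pow_le_three_mul
    have h3 : 2 ^ (2 * fq p + 2) ≤ 2 ^ p.k :=
      Nat.pow_le_pow_right (by norm_num) (by have := h.room; omega)
    have h4 : 2 ^ (2 * fq p + 2) = 2 ^ fq p * (2 * (2 ^ fq p + 2 ^ fq p)) := by ring
    have h5 : fF p * (2 * (2 ^ fq p + 1)) ≤ 2 ^ fq p * (2 * (2 ^ fq p + 2 ^ fq p)) :=
      Nat.mul_le_mul hq.le (by omega)
    omega
  rw [← lay0_N h hρ]
  simp only [Lay.N, Lay.wh, Lay.wy, lay0, lay1, mul_one]
  generalize 2 ^ (p.k + ρ - fq p * fF p) = Z at *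
  generalize 2 ^ (2 * p.k - ρ - fq p * fF p) = Pre at *
  calc Z * (2 ^ fq p + 1) ^ fF p * (2 ^ p.k + 2 * (2 ^ fq p + 1)) ^ fF p *
        (2 ^ fq p + 1) ^ fF p * Pre
      ≤ Z * (3 * (2 ^ fq p) ^ fF p) * (3 * (2 ^ p.k) ^ fF p) * (3 * (2 ^ fq p) ^ fF p) * Pre := by
        gcongr
    _ = _ := by ring

theorem LFacts.r_even (h : LFacts w m p) : p.r % 2 = 0 := by
  have h1 := h.room
  have h2 := h.ok.k_le
  obtain ⟨e, he⟩ : ∃ e, p.lr = e + 1 := ⟨p.lr - 1, by omega⟩
  rw [Par.r, he, pow_succ]; omega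

theorem LFacts.M_odd (h : LFacts w m p) : p.M % 2 = 1 :=
  two_pow_sub_one_odd (by have := h.ok.P_ge; omega)

theorem LFacts.M_pos (h : LFacts w m p) : 0 < p.M := by have := h.M_odd; omega

theorem LFacts.F_le (h : LFacts w m p) : fF p ≤ p.P := by
  have h1 := h.ok.kd_le
  have h2 : 1 * p.d ≤ p.k * p.d := Nat.mul_le_mul_right _ h.ok.k_pos
  have := h.d_eq
  omega

theorem sE_le (p : Par) (ρ x : ℕ) : sE p ρ x ≤ 2 * p.r :=
  (Nat.mod_lt _ (by have : 0 < p.r := Nat.two_pow_pos _; omega)).le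

theorem pbIn_dom (h : LFacts w m p) (hρ : ρ < p.k) {l : RL} (hl : p.WF l) :
    PartBDom (2 ^ w) m (pbIn m p ρ l) := by
  have ht := wfa_stw hl (sE p ρ)
  refine ⟨lay1_good h ρ, ?_, ?_, ?_, fun x hx => ?_⟩
  · simp only [pbIn, zero_add, h.pow_eq]; exact le_rfl
  · simp only [pbIn, lay1]
    rw [← pow_mul]
    exact pow_dvd_pow 2 (by have := h.room; omega)
  · exact length_embL (grow_lay p ρ) (prodT_lay h hρ) _ (ht.1.trans (prodS_lay h hρ).symm)
  · rcases mem_of_mem_embL hx with hx | rfl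
    · exact ht.2 x hx
    · exact wf_zero h.M_pos

end Facts

/-- the specification of part B -/
def PBSpec (W m : ℕ) (pb : PBIn → RL) : Prop :=
  ∀ (M r : ℕ) (L : Lay) (lo j : ℕ) (l : List (List ℕ)),
    PartBDom W m ((M, r), L, (⟨lo⟩, ⟨j⟩), l) →
    WFL L r M (pb ((M, r), L, (⟨lo⟩, ⟨j⟩), l)) ∧
    ∀ (A : Type) [CommRing A] (y hf : A), (M : A) = 0 → M % 2 = 1 → y ^ r = -1 →
      r % 2 = 0 → 2 * hf = 1 → ∀ β, L.Safe β →
        fib y L β (pb ((M, r), L, (⟨lo⟩, ⟨j⟩), l)) =
          Crange (y ^ (r / 2)) hf lo (m ^ j) (fib y L β l)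

section Correct

variable {w m : ℕ} {p : Par} {ρ : ℕ} {pb : PBIn → RL} {l : RL}

theorem wfl_pb (hpb : PBSpec (2 ^ w) m pb) (h : LFacts w m p) (hρ : ρ < p.k) (hl : p.WF l) :
    WFL (lay1 p ρ) p.r p.M (pb (pbIn m p ρ l)) :=
  (hpb _ _ _ _ _ _ (pbIn_dom h hρ hl)).1

theorem filter_pb (hpb : PBSpec (2 ^ w) m pb) (h : LFacts w m p) (hρ : ρ < p.k) (hl : p.WF l) :
    filterBy (lflags p ρ) (pb (pbIn m p ρ l)) = (List.range p.N).map
      (fun x => (pb (pbIn m p ρ l)).getD (rb (shape (lay0 p ρ) (lay1 p ρ)) x) []) := by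
  rw [lflags, filterBy_flags (grow_lay p ρ) (prodT_lay h hρ) [] (wfl_pb hpb h hρ hl).1,
    prodS_lay h hρ]

theorem wf_filter_pb (hpb : PBSpec (2 ^ w) m pb) (h : LFacts w m p) (hρ : ρ < p.k)
    (hl : p.WF l) : p.WF (filterBy (lflags p ρ) (pb (pbIn m p ρ l))) :=
  ⟨by rw [filter_pb hpb h hρ hl]; simp,
    fun x hx => (wfl_pb hpb h hρ hl).2 x (mem_of_mem_filterBy hx)⟩

theorem wf_fastL (hpb : PBSpec (2 ^ w) m pb) (h : LFacts w m p) (hρ : ρ < p.k) (hl : p.WF l) :
    p.WF (fastL m pb p ρ l) := by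
  have ht := wfa_stw (wf_filter_pb hpb h hρ hl) (sE p ρ)
  refine ⟨by simp [fastL, ht.1], fun x hx => ?_⟩
  obtain ⟨z, hz, rfl⟩ := List.mem_map.1 hx
  exact WF.shift h.ok.P_ge (by have := h.F_le; omega) (ht.2 z hz)

theorem pow_sE (h : LFacts w m p) {β : Base} (hβ : (lay0 p ρ).Ok 0 0 β) (b : Bv) :
    yR p.r p.M ^ sE p ρ ((lay0 p ρ).addr β b) = (yR p.r p.M ^ (p.r / 2)) ^ cnt (fF p) b := by
  have h2 : 2 ∣ (lay0 p ρ).R := dvd_pow_self 2 (by have := h.ok.k_pos; omega)
  have h3 := sexp_addr hβ h2 b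
  rw [lay0_wy h] at h3
  rw [sE, pow_mod_two_mul (yR_pow _ _), pow_mul]
  exact congrArg _ h3

theorem arr_fastL (hpb : PBSpec (2 ^ w) m pb) (h : LFacts w m p) (hρ : ρ < p.k) (hl : p.WF l) :
    ∀ n < p.N, arr p.r p.M (fastL m pb p ρ l) n =
      Hs (fastBits (p.k + ρ) p.k (fF p)) (arr p.r p.M l) n := by
  intro n hn
  have h2 : 2 ∣ (lay0 p ρ).R := dvd_pow_self 2 (by have := h.ok.k_pos; omega)
  obtain ⟨β, b, hβ, rfl⟩ := exists_addr (lay0 p ρ) h2 (hn.trans_eq (lay0_N h hρ).symm)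
  have hlt : ∀ c, (lay0 p ρ).addr β c < p.N := fun c => lay0_N h hρ ▸ Lay.addr_lt_N hβ c
  have hi : yR p.r p.M ^ (p.r / 2) * yR p.r p.M ^ (p.r / 2) = -1 :=
    pow_half_sq (yR_pow _ _) h.r_even
  have hhf := two_mul_hfR p.r h.M_odd
  have hf := wf_filter_pb hpb h hρ hl
  have ht := wfa_stw hf (sE p ρ)
  have hrb : ∀ c, rb (shape (lay0 p ρ) (lay1 p ρ)) ((lay0 p ρ).addr β c) = (lay1 p ρ).addr β c :=
    fun c => rb_addr (L0 := lay0 p ρ) (L := lay1 p ρ) rfl hβ c
  -- the last two passes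
  have e1 : arr p.r p.M (fastL m pb p ρ l) ((lay0 p ρ).addr β b) = 2 ^ (fF p / 2) *
      arr p.r p.M (stw p.M (sE p ρ) (filterBy (lflags p ρ) (pb (pbIn m p ρ l))))
        ((lay0 p ρ).addr β b) := by
    have h1 : (lay0 p ρ).addr β b <
        (stw p.M (sE p ρ) (filterBy (lflags p ρ) (pb (pbIn m p ρ l)))).length := by
      rw [ht.1]; exact hn
    have e : (fastL m pb p ρ l).getD ((lay0 p ρ).addr β b) [] = recShift p.P (fF p / 2)
        ((stw p.M (sE p ρ) (filterBy (lflags p ρ) (pb (pbIn m p ρ l)))).getD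
          ((lay0 p ρ).addr β b) []) := by
      rw [fastL, List.getD_eq_getElem _ _ (by simpa using h1), List.getD_eq_getElem _ _ h1,
        List.getElem_map]
    rw [arr, e]
    exact ev_shift (cast_M_Rg p.r _) h.ok.P_ge (by have := h.F_le; omega) (WFA.getD ht hn)
  have e2 : arr p.r p.M (filterBy (lflags p ρ) (pb (pbIn m p ρ l))) ((lay0 p ρ).addr β b) =
      fib (yR p.r p.M) (lay1 p ρ) β (pb (pbIn m p ρ l)) b := by
    rw [arr, filter_pb hpb h hρ hl, getD_map_range _ hn, hrb, fib]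
  have e3 : fib (yR p.r p.M) (lay1 p ρ) β (embL (lflags p ρ) (recZero p.r)
      (stw p.M (sE p ρ) l)) = fun c => (yR p.r p.M ^ (p.r / 2)) ^ cnt (fF p) c *
        arr p.r p.M l ((lay0 p ρ).addr β c) := by
    funext c
    rw [fib, ← hrb, lflags, getD_embL (grow_lay p ρ) (prodT_lay h hρ) _ _
      ((wfa_stw hl _).1.trans (prodS_lay h hρ).symm) ((hlt c).trans_eq (prodS_lay h hρ).symm),
      ← pow_sE h hβ, ← arr_stw hl (hlt c) (sE_le p ρ _), arr]
  have e4 := (hpb _ _ _ _ _ _ (pbIn_dom h hρ hl)).2 _ (yR p.r p.M) (hfR p.r p.M)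
    (cast_M_Rg _ _) h.M_odd (yR_pow _ _) h.r_even hhf β (lay1_safe hβ)
  have e5 := congrFun (Hs_addr hβ (lay0_wy h ρ) (k := p.k) rfl h.ok.k_pos (n := fF p) le_rfl
    (arr p.r p.M l)) b
  rw [e1, arr_stw hf hn (sE_le p ρ _), e2, pow_sE h hβ, e5, Hrange_eq hi hhf,
    one_sub_pow_of_dvd hi h.dvd, ← e3, ← h.pow_eq, ← e4, h.pow_eq]
  rfl

theorem wf_hPass_par {j : ℕ} (hj : j < p.k * p.d) (hl : p.WF l) : p.WF (hPass p.M j l) := by
  refine ⟨(length_hPass ?_).trans hl.1, wf_hPass hl.2⟩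
  rw [hl.1, Par.N, ← pow_succ']
  exact pow_dvd_pow 2 hj

theorem arr_hPass {j : ℕ} (hj : j < p.k * p.d) (hl : p.WF l) {a : ℕ → Rg p.r p.M}
    (ha : ∀ n < p.N, arr p.r p.M l n = a n) :
    ∀ n < p.N, arr p.r p.M (hPass p.M j l) n = Hbit j a n := fun n hn =>
  (ev_hPass (cast_M_Rg _ _) hj hl.1 hl.2 hn).trans (Hbit_congr hj ha n hn)

theorem LFacts.pos_lt (h : LFacts w m p) (hρ : ρ < p.k) {i : ℕ} (hi : i < fF p + 3) :
    p.k * i + ρ < p.k * p.d := M4.pos_lt (h.d_eq ▸ hi) hρ

theorem LFacts.rho_lt (h : LFacts w m p) (hρ : ρ < p.k) : ρ < p.k * p.d := by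
  simpa using h.pos_lt hρ (i := 0) (by omega)

theorem wf_layerL (hpb : PBSpec (2 ^ w) m pb) (h : LFacts w m p) (hρ : ρ < p.k) (hl : p.WF l) :
    p.WF (layerL m pb p ρ l) :=
  wf_hPass_par (h.rho_lt hρ) (wf_hPass_par (h.pos_lt hρ (by omega))
    (wf_hPass_par (h.pos_lt hρ (by omega)) (wf_fastL hpb h hρ hl)))

theorem arr_layerL (hpb : PBSpec (2 ^ w) m pb) (h : LFacts w m p) (hρ : ρ < p.k) (hl : p.WF l) :
    ∀ n < p.N, arr p.r p.M (layerL m pb p ρ l) n = Hlay p.k p.d ρ (arr p.r p.M l) n := by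
  have h0 := wf_fastL hpb h hρ hl
  have h1 := wf_hPass_par (h.pos_lt hρ (i := fF p + 2) (by omega)) h0
  have h2 := wf_hPass_par (h.pos_lt hρ (i := fF p + 1) (by omega)) h1
  rw [h.d_eq, Hlay_eq]
  exact arr_hPass (h.rho_lt hρ) h2 (arr_hPass (h.pos_lt hρ (by omega)) h1
    (arr_hPass (h.pos_lt hρ (by omega)) h0 (arr_fastL hpb h hρ hl)))

end Correct

end Crest.Agent.X326.B3
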