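import Crest.Agent.X326.FB.PolyDefs
import Crest.Agent.X326.M4.Defs
import Crest.Agent.X326.TC.IntLin
import Crest.Agent.X326.TC.Zip
import Crest.Agent.X326.FB.PolyWd
import Crest.Agent.X326.TC.MergeSpec
import Crest.Agent.X326.B3.LayerPure
import Crest.Agent.X326.B3.BaseTC
import Crest.Agent.X326.M4.TwPT
import Crest.Agent.Lib.PT.ListFns2
import Crest.Agent.X326.M4.Main

-- ▼ part X326/FB/MidTC
section

/-!
# Row 326, filter bank: the middle product of two integer lists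

`mid f col` is computed by four convolutions of lists of naturals (positive and negative parts).
-/

set_option autoImplicit false

namespace Crest.Agent.X326.FB

open Crest.Agent.Lib.PT Finset

namespace MidTC

/-- positive parts -/
def pos (l : List ℤ) : List ℕ := l.map Int.toNat

/-- negative parts -/
def neg (l : List ℤ) : List ℕ := l.map fun z => (-z).toNat

/-- the window of `n` entries starting at `n - 1` -/
def win (n : ℕ) (c : List ℕ) : List ℕ := List.takeD n (c.drop (n - 1)) 0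

theorem win_eq (n : ℕ) (c : List ℕ) : win n c = tab n fun t => c.getD (n - 1 + t) 0 := by
  have key : ∀ (m : ℕ) (l : List ℕ), List.takeD m l 0 = tab m fun t => l.getD t 0 := by
    intro m
    induction m with
    | zero => intro l; rfl
    | succ m ih =>
      intro l
      cases l with
      | nil => simp [replicate_eq_tab, tab_succ]
      | cons a l => rw [List.takeD_succ, tab_succ]; simp [ih]
  rw [win, key]
  refine tab_congr fun t _ => ?_
  simp [List.getD_eq_getElem?_getD]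

theorem getD_pos (l : List ℤ) (i : ℕ) : (pos l).getD i 0 = (l.getD i 0).toNat := by
  simp only [pos, List.getD_eq_getElem?_getD, List.getElem?_map]
  cases l[i]? <;> rfl

theorem getD_neg (l : List ℤ) (i : ℕ) : (neg l).getD i 0 = (-(l.getD i 0)).toNat := by
  simp only [neg, List.getD_eq_getElem?_getD, List.getElem?_map]
  cases l[i]? <;> rfl

theorem mid_eq {conv : List ℕ → List ℕ → List ℕ} (hc : M4.IsConv conv) (f col : List ℤ) :
    mid f col = List.zipWith (fun x y : ℕ => (x : ℤ) - (y : ℤ))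
      (List.zipWith (· + ·) (win f.length (conv (pos f) (pos col)))
        (win f.length (conv (neg f) (neg col))))
      (List.zipWith (· + ·) (win f.length (conv (pos f) (neg col)))
        (win f.length (conv (neg f) (pos col)))) := by
  simp only [win_eq, zipWith_tab, mid]
  refine tab_congr fun t ht => ?_
  simp only [hc _ _ _, getD_pos, getD_neg]
  push_cast
  rw [← sum_add_distrib, ← sum_add_distrib, ← sum_sub_distrib]
  have hsub : range f.length ⊆ range (f.length - 1 + t + 1) := by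
    intro i hi
    simp only [mem_range] at hi ⊢
    omega
  rw [sum_subset hsub]
  · refine sum_congr rfl fun i _ => ?_
    generalize f.getD i 0 = a
    generalize col.getD (f.length - 1 + t - i) 0 = b
    have ha := Int.toNat_sub_toNat_neg a
    have hb := Int.toNat_sub_toNat_neg b
    generalize ((a.toNat : ℕ) : ℤ) = a1 at ha ⊢
    generalize (((-a).toNat : ℕ) : ℤ) = a2 at ha ⊢
    generalize ((b.toNat : ℕ) : ℤ) = b1 at hb ⊢
    generalize (((-b).toNat : ℕ) : ℤ) = b2 at hb ⊢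
    subst ha hb
    ring
  · intro i _ hi
    rw [List.getD_eq_default _ _ (by simpa using hi), zero_mul]

theorem pos_lt {w : ℕ} {l : List ℤ} (h : Wd w l) : ∀ c ∈ pos l, c < 2 ^ w := by
  intro c hc
  obtain ⟨z, hz, rfl⟩ := List.mem_map.1 hc
  have h1 := abs_lt.1 (h z hz)
  have h2 : (0 : ℤ) < 2 ^ w := by positivity
  zify
  omega

theorem neg_lt {w : ℕ} {l : List ℤ} (h : Wd w l) : ∀ c ∈ neg l, c < 2 ^ w := by
  intro c hc
  obtain ⟨z, hz, rfl⟩ := List.mem_map.1 hc
  have h1 := abs_lt.1 (h z hz)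
  have h2 : (0 : ℤ) < 2 ^ w := by positivity
  zify
  omega

section tc

variable {ι : Type} [PTCode ι] {D : ι → Prop} {T : ι → ℕ}

theorem tc_pos {l : ι → List ℤ} (hl : TC D T l) : TC D T (fun x => pos (l x)) :=
  TC.map (TC.intToNat TC.id) hl

theorem tc_neg {l : ι → List ℤ} (hl : TC D T l) : TC D T (fun x => neg (l x)) :=
  TC.map (TC.intToNat (TC.intNeg TC.id)) hl

theorem tc_win {n : ι → ℕ} {c : ι → List ℕ} (hn : TU D T n) (hc : TC D T c) :
    TC D T (fun x => win (n x) (c x)) :=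
  TC.takeD hn (TC.drop (hn.sub (TU.const 1)) hc) (TC.const 0)
    ((Bud.const 0).mono fun x _ => by simp [sz_nat])

end tc

end MidTC

open MidTC

/-- **the middle product** from the convolution of lists of naturals; general length bound -/
theorem tc_mid' {μ : ℕ → ℕ → ℕ} (h : M4.SpecConv μ) :
    ∃ S : List ℤ × List ℤ → ℕ, TC (fun _ => True) S (fun q => mid q.1 q.2) ∧
      ∀ (r w : ℕ) (f col : List ℤ), f.length ≤ r → col.length ≤ r → Wd w f → Wd w col →
        S (f, col) ≤ μ r w := by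
  obtain ⟨conv, T, hc, hT, hμ⟩ := h
  refine ⟨fun q => max (max (T (pos q.1, pos q.2)) (T (neg q.1, neg q.2)))
    (max (T (pos q.1, neg q.2)) (T (neg q.1, pos q.2))), ?_, ?_⟩
  · have hn : ∀ S : List ℤ × List ℤ → ℕ, TU (fun _ => True) S (fun q => q.1.length) :=
      fun S => TU.length TC.id.fst
    have key : ∀ (S : List ℤ × List ℤ → ℕ) (a b : List ℤ × List ℤ → List ℕ),
        TC (fun _ => True) S a → TC (fun _ => True) S b → (∀ q, T (a q, b q) ≤ S q) →
        TC (fun _ => True) S (fun q => win q.1.length (conv (a q) (b q))) :=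
      fun S a b ha hb hS => tc_win (hn S) (TC.comp (f := fun q => (a q, b q)) hT (ha.prodMk hb)
        (fun _ _ => trivial) (Bud.self.mono fun q _ => hS q))
    refine (TC.zipWith (f := fun x y : ℕ => (x : ℤ) - (y : ℤ))
      (TC.intSub TC.id.fst.intNatCast TC.id.snd.intNatCast)
      (TC.zipWith (f := fun x y : ℕ => x + y) (TC.natAdd TC.id.fst TC.id.snd)
        (key _ _ _ (tc_pos TC.id.fst) (tc_pos TC.id.snd) ?_)
        (key _ _ _ (tc_neg TC.id.fst) (tc_neg TC.id.snd) ?_))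
      (TC.zipWith (f := fun x y : ℕ => x + y) (TC.natAdd TC.id.fst TC.id.snd)
        (key _ _ _ (tc_pos TC.id.fst) (tc_neg TC.id.snd) ?_)
        (key _ _ _ (tc_neg TC.id.fst) (tc_pos TC.id.snd) ?_))).of_eq
      (fun q => (mid_eq hc q.1 q.2).symm) <;> intro q <;> omega
  · intro r w f col hf hcol wf wc
    have h1 := hμ r w (pos f) (pos col) (by simpa [pos] using hf) (by simpa [pos] using hcol)
      (pos_lt wf) (pos_lt wc)
    have h2 := hμ r w (neg f) (neg col) (by simpa [neg] using hf) (by simpa [neg] using hcol)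
      (neg_lt wf) (neg_lt wc)
    have h3 := hμ r w (pos f) (neg col) (by simpa [pos] using hf) (by simpa [neg] using hcol)
      (pos_lt wf) (neg_lt wc)
    have h4 := hμ r w (neg f) (pos col) (by simpa [neg] using hf) (by simpa [pos] using hcol)
      (neg_lt wf) (pos_lt wc)
    simp only
    omega


end Crest.Agent.X326.FB
end

-- ▼ part X326/FB/PolyTC
section

/-!
# Row 326, filter bank: running time of one level on lists
-/

set_option autoImplicit false

namespace Crest.Agent.X326.FB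

open Crest.Agent.Lib.PT Finset

namespace PolyTC

section lin

variable {α : Type} [PTCode α]

theorem lin_glueCols : Lin (fun q : List (List α) × List (List α) => glueCols q.1 q.2) :=
  TC.zipWith (f := fun a b : List α => a ++ b) (TC.append TC.id.fst TC.id.snd) TC.id.fst TC.id.snd

theorem lin_pairUp : Lin (pairUp (α := α)) :=
  TC.map (TC.comp₂ lin_glueCols (TC.headD TC.id (TC.const [])) (TC.headD TC.id.tail (TC.const [])))
    (TC.chunks (TU.const 2) TC.id)

theorem lin_halve : Lin (halve (α := α)) := by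
  have h2 : LinU (fun c : List α => c.length / 2) := TU.div (TU.length TC.id) (TU.const 2)
  exact TC.flatMap (TC.listCons (TC.map (TC.take h2 TC.id) TC.id)
    (TC.listCons (TC.map (TC.drop h2 TC.id) TC.id) (TC.const []))) TC.id

theorem sz_tab3 {n X c s : ℕ} (hX : 0 < X) (hc : 0 < c) {f : ℕ → ℕ → ℕ → α}
    (h : ∀ i x j, sz (f i x j) ≤ s) :
    sz (tab n fun i => tab X fun x => tab c (f i x)) ≤ n * c * X * (8 * s + 7) := by
  refine (sz_tab_le (s := X * (2 * (c * (2 * s + 1)) + 1)) fun i _ =>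
    sz_tab_le (s := c * (2 * s + 1)) fun x _ => sz_tab_le fun j _ => h i x j).trans ?_
  obtain ⟨X, rfl⟩ : ∃ k, X = k + 1 := ⟨X - 1, by omega⟩
  obtain ⟨c, rfl⟩ : ∃ k, c = k + 1 := ⟨c - 1, by omega⟩
  rw [mul_assoc, mul_assoc]
  refine Nat.mul_le_mul_left n ?_
  nlinarith [Nat.zero_le (c * X), Nat.zero_le (c * X * s), Nat.zero_le (c * s), Nat.zero_le (X * s)]

theorem sz_tab2 {n c s : ℕ} (hc : 0 < c) {f : ℕ → ℕ → α} (h : ∀ i j, sz (f i j) ≤ s) :
    sz (tab n fun i => tab c (f i)) ≤ n * c * (4 * s + 3) := by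
  refine (sz_tab_le (s := c * (2 * s + 1)) fun i _ => sz_tab_le fun j _ => h i j).trans ?_
  obtain ⟨c, rfl⟩ : ∃ k, c = k + 1 := ⟨c - 1, by omega⟩
  rw [mul_assoc]
  refine Nat.mul_le_mul_left n ?_
  nlinarith [Nat.zero_le (c * s)]

end lin

/-- normal form of the inputs of `core`; `N` bounds the number of entries -/
def CoreOk (Z β w N : ℕ) (tb up : List (List ℤ)) : Prop :=
  ∃ (n P : ℕ) (F U : ℕ → ℕ → ℤ), 0 < n ∧ 0 < P ∧ 0 < Z ∧
    tb = (tab P fun ρ => tab (2 ^ β) (F ρ)) ∧ up = (tab (n * 2 ^ β) fun i => tab (P * Z) (U i)) ∧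
    (∀ ρ m, |F ρ m| < 2 ^ w) ∧ (∀ i x, |U i x| < 2 ^ w) ∧ n * 2 ^ β * (P * Z) ≤ N

theorem CoreOk.sz_pairUp {Z β w N : ℕ} {tb up : List (List ℤ)} (h : CoreOk Z β w N tb up)
    {i : ℕ} (hi : i ≤ β) :
    sz (pairUp^[i] (up.map (List.map fun v => [v]))) ≤ N * (8 * (w + 3) + 7) := by
  obtain ⟨n, P, F, U, -, hP, hZ, -, rfl, -, hU, hN⟩ := h
  obtain ⟨j, rfl⟩ : ∃ j, β = j + i := ⟨β - i, by omega⟩
  have e : (tab (n * 2 ^ (j + i)) fun i => tab (P * Z) (U i)).map (List.map fun v => [v]) =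
      tab (n * 2 ^ j * 2 ^ i) fun k => tab (P * Z) fun x => tab 1 fun t => U (k * 1 + t) x := by
    rw [map_tab]
    refine tab_congr' (by ring) fun k _ => ?_
    rw [map_tab]
    exact tab_congr fun x _ => by simp [tab_one]
  rw [e, pairUp_iter]
  refine (sz_tab3 (Nat.mul_pos hP hZ) (by positivity)
    fun _ _ _ => sz_int_le_of_abs_lt (hU _ _)).trans (Nat.mul_le_mul_right _ (le_trans ?_ hN))
  exact le_of_eq (by ring)

theorem CoreOk.sz_halve {Z β w N : ℕ} {tb up : List (List ℤ)} (h : CoreOk Z β w N tb up)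
    {i : ℕ} (hi : i ≤ β) :
    sz (halve^[i] (filtered Z β tb up)) ≤ N * (8 * (w + w + β + 3) + 7) := by
  obtain ⟨n, P, F, U, -, hP, hZ, rfl, rfl, hF, hU, hN⟩ := h
  have hc := fun N x => abs_corr_lt (L := n * 2 ^ β) (β := β) (Z := Z) hF hU N x
  rw [filtered_tab]
  generalize corr (n * 2 ^ β) (2 ^ β) Z F U = G at hc
  have e : 2 ^ β = 2 ^ (β - i) * 2 ^ i := by rw [← pow_add, Nat.sub_add_cancel hi]
  rw [e] at hN ⊢
  rw [halve_iter]
  refine (sz_tab3 (Nat.mul_pos hP hZ) (by positivity)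
    fun _ _ _ => sz_int_le_of_abs_lt (hc _ _)).trans (Nat.mul_le_mul_right _ (le_trans ?_ hN))
  exact le_of_eq (by ring)

theorem flatMap_replicate_tab (P Z B : ℕ) (F : ℕ → ℕ → ℤ) :
    (tab P fun ρ => tab B (F ρ)).flatMap (List.replicate Z) =
      tab (P * Z) fun x => tab B (F (x / Z)) :=
  flatMap_tab P Z _ _ (fun ρ _ => tab B (F ρ)) (fun _ _ => replicate_eq_tab _ _)

theorem CoreOk.sz_tb {Z β w N : ℕ} {tb up : List (List ℤ)} (h : CoreOk Z β w N tb up) :
    Z * sz tb ≤ N * (4 * (w + 3) + 3) ∧ tb.length * Z ≤ N := by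
  obtain ⟨n, P, F, U, hn, hP, hZ, rfl, -, hF, -, hN⟩ := h
  have h1 := sz_tab2 (n := P) (c := 2 ^ β) (f := F) (by positivity)
    fun _ _ => sz_int_le_of_abs_lt (hF _ _)
  have h2 : 1 * 2 ^ β * (P * Z) ≤ N :=
    le_trans (Nat.mul_le_mul_right _ (Nat.mul_le_mul_right _ hn)) hN
  refine ⟨(Nat.mul_le_mul_left Z h1).trans ?_, ?_⟩
  · rw [← mul_assoc]
    exact Nat.mul_le_mul_right _ (le_trans (le_of_eq (by ring)) h2)
  · rw [length_tab]
    refine le_trans ?_ h2
    exact Nat.le_mul_of_pos_left _ (by positivity)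

/-- the blocks glued with their successors -/
def doubled (β : ℕ) (up : List (List ℤ)) : List (List (List ℤ)) :=
  List.zipWith glueCols (blocksOf β up) ((blocksOf β up).rotate 1)

theorem CoreOk.sz_ctx {Z β w N : ℕ} {tb up : List (List ℤ)} (h : CoreOk Z β w N tb up) :
    (doubled β up).length * sz (tb.flatMap (List.replicate Z)) ≤ N * (4 * (w + 3) + 3) := by
  obtain ⟨n, P, F, U, hn, hP, hZ, rfl, rfl, hF, -, hN⟩ := h
  rw [doubled, doubled_tab, length_tab, flatMap_replicate_tab]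
  have h1 := sz_tab2 (n := P * Z) (c := 2 ^ β) (f := fun x => F (x / Z)) (by positivity)
    fun _ _ => sz_int_le_of_abs_lt (hF _ _)
  refine (Nat.mul_le_mul_left n h1).trans ?_
  rw [← mul_assoc]
  exact Nat.mul_le_mul_right _ (le_trans (le_of_eq (by ring)) hN)

theorem wd_tab {w n : ℕ} {f : ℕ → ℤ} (h : ∀ i, |f i| < 2 ^ w) : Wd w (tab n f) :=
  forall_mem_tab.2 fun i _ => h i

theorem CoreOk.sum_mid {Z β w N : ℕ} {tb up : List (List ℤ)} (h : CoreOk Z β w N tb up)
    {S : List ℤ × List ℤ → ℕ} {m : ℕ}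
    (hS : ∀ f col : List ℤ, f.length ≤ 2 ^ (β + 1) → col.length ≤ 2 ^ (β + 1) → Wd w f →
      Wd w col → S (f, col) ≤ m) :
    ((doubled β up).map fun b => (((tb.flatMap (List.replicate Z)).zip b).map S).sum).sum ≤
      N / 2 ^ β * m := by
  obtain ⟨n, P, F, U, hn, hP, hZ, rfl, rfl, hF, hU, hN⟩ := h
  rw [doubled, doubled_tab, flatMap_replicate_tab, map_tab, sum_tab]
  have h1 : n * (P * Z) ≤ N / 2 ^ β :=
    (Nat.le_div_iff_mul_le (by positivity)).2 (le_trans (le_of_eq (by ring)) hN)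
  refine le_trans (sum_le_card_nsmul _ _ (P * Z * m) fun b _ => ?_) ?_
  · rw [zip_tab, map_tab, sum_tab]
    refine le_trans (sum_le_card_nsmul _ _ m fun x _ => hS _ _ ?_ ?_ (wd_tab fun _ => hF _ _)
      (wd_tab fun _ => hU _ _)) (by simp)
    · rw [length_tab, pow_succ]; omega
    · rw [length_tab, pow_succ]; omega
  · rw [card_range, smul_eq_mul, ← mul_assoc]
    exact Nat.mul_le_mul_right _ h1

section tc

variable {ι : Type} [PTCode ι] {D : ι → Prop} {T : ι → ℕ} {μ : ℕ → ℕ → ℕ}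

theorem bud_lin {N β w : ι → ℕ} (hB : Bud D T (fun a => bandCost μ (N a) (β a) (w a))) :
    Bud D T (fun a => (β a + 1) * (N a * (31 * (w a + β a + 1)))) :=
  (hB.const_mul 31).mono fun a _ => by
    unfold bandCost
    refine le_trans ?_ (Nat.mul_le_mul_left 31 (Nat.le_add_right _ _))
    exact le_of_eq (by ring)

theorem bud_one {N β w g : ι → ℕ} (hB : Bud D T (fun a => bandCost μ (N a) (β a) (w a)))
    (h : ∀ a, D a → g a ≤ N a * (31 * (w a + β a + 1))) : Bud D T g :=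
  (bud_lin hB).mono fun a ha => (h a ha).trans (Nat.le_mul_of_pos_left _ (Nat.succ_pos _))

theorem tc_upRows {ai : ι → ℕ} {rows : ι → List (List ℤ)} (hai : TU D T ai) (hr : TC D T rows)
    (hB : Bud D T (fun a => ai a * ((rows a).length + (rows a).flatten.length))) :
    TC D T (fun a => upRows (ai a) (rows a)) := by
  have h0 : TC (fun _ => True) (fun q : Un × List ℤ => q.1.val * q.2.length)
      (fun q => q.2 :: List.replicate q.1.val (q.2.map fun _ => (0 : ℤ))) := by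
    refine TC.listCons TC.id.snd (TC.replicate (TU.val TC.id.fst)
      (TC.map (TC.const 0) TC.id.snd) ((Bud.self.mul_const (2 * sz (0 : ℤ) + 1)).mono
        fun q _ => ?_))
    rw [List.map_const', sz_replicate, mul_assoc]
  refine TC.flatMapCtx (c := fun a => Un.mk (ai a - 1))
    (f := fun k r => r :: List.replicate k.val (r.map fun _ => (0 : ℤ))) h0
    (hai.sub (TU.const 1)) hr (fun _ _ _ _ => trivial) (hB.mono fun a _ => ?_)
    (hB.mono fun a _ => ?_)
  · simp only [List.sum_map_mul_left, ← List.length_flatten]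
    exact Nat.mul_le_mul (Nat.sub_le _ _) (Nat.le_add_left _ _)
  · rw [sz_un, mul_comm]
    exact Nat.mul_le_mul (Nat.sub_le _ _) (Nat.le_add_right _ _)

theorem tc_downRows {α : Type} [PTCode α] {ao : ι → ℕ} {rows : ι → List (List α)}
    (hao : TU D T ao) (hr : TC D T rows) : TC D T (fun a => downRows (ao a) (rows a)) :=
  TC.map (TC.headD TC.id (TC.const [])) (TC.chunks hao hr)

theorem tc_core (hμ : M4.SpecConv μ) {Z ao β w N : ι → ℕ} {tb up : ι → List (List ℤ)}
    (hZ : TU D T Z) (hao : TU D T ao) (hβ : TU D T β) (htb : TC D T tb) (hup : TC D T up)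
    (hok : ∀ a, D a → CoreOk (Z a) (β a) (w a) (N a) (tb a) (up a))
    (hB : Bud D T (fun a => bandCost μ (N a) (β a) (w a))) :
    TC D T (fun a => core (Z a) (ao a) (β a) (tb a) (up a)) := by
  obtain ⟨S, hS, hSb⟩ := tc_mid' hμ
  have hblk : TC D T (fun a => blocksOf (β a) (up a)) := by
    refine TC.iterate_le lin_pairUp hβ (TC.map (TC.map (TC.singleton TC.id) TC.id) hup)
      (fun a => N a * (31 * (w a + β a + 1))) (fun a ha i hi => ⟨trivial, ?_⟩)
      ((bud_lin hB).mono fun a _ => Nat.mul_le_mul_right _ (Nat.le_succ _))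
    rw [Nat.zero_add]
    exact ((hok a ha).sz_pairUp hi.le).trans (Nat.mul_le_mul_left _ (by omega))
  have hdbl : TC D T (fun a => doubled (β a) (up a)) :=
    TC.zipWith lin_glueCols hblk (TC.rotate_of_mod hblk (TU.mod (TU.const 1) (TU.length hblk)))
  have hctx : TC D T (fun a => (tb a).flatMap (List.replicate (Z a))) := by
    refine TC.flatMapCtx (c := fun a => Un.mk (Z a)) (f := fun k r => List.replicate k.val r)
      TC.replicateU hZ htb (fun _ _ _ _ => trivial) (bud_one hB fun a ha => ?_)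
      (bud_one hB fun a ha => ?_)
    · obtain ⟨h1, h2⟩ := (hok a ha).sz_tb
      have h3 := Nat.mul_le_mul_left (Z a) (sum_map_sz_le (tb a))
      simp only [List.sum_map_mul_left]
      rw [sum_map_add_const, mul_add, mul_one, mul_comm (Z a) (tb a).length]
      refine (Nat.add_le_add (h3.trans h1) h2).trans ?_
      rw [← mul_add_one]
      exact Nat.mul_le_mul_left _ (by omega)
    · rw [sz_un]
      exact (hok a ha).sz_tb.2.trans (Nat.le_mul_of_pos_right _ (by omega))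
  have hzip : TC (fun _ => True) (fun q : List (List ℤ) × List (List ℤ) => ((q.1.zip q.2).map S).sum)
      (fun q => List.zipWith mid q.1 q.2) :=
    TC.zipWith' hS TC.id.fst TC.id.snd (fun _ _ _ _ => trivial) Bud.self
  have hfil : TC D T (fun a => filtered (Z a) (β a) (tb a) (up a)) := by
    refine TC.mapCtx (f := fun c m => List.zipWith mid c m) hzip hctx hdbl (fun _ _ _ _ => trivial)
      (hB.mono fun a ha => ?_) (bud_one hB fun a ha => ?_)
    · exact ((hok a ha).sum_mid (hSb (2 ^ (β a + 1)) (w a))).trans (Nat.le_add_left _ _)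
    · exact (hok a ha).sz_ctx.trans (Nat.mul_le_mul_left _ (by omega))
  have hhalf : TC D T (fun a => halve^[β a] (filtered (Z a) (β a) (tb a) (up a))) := by
    refine TC.iterate_le lin_halve hβ hfil
      (fun a => N a * (31 * (w a + β a + 1))) (fun a ha i hi => ⟨trivial, ?_⟩)
      ((bud_lin hB).mono fun a _ => Nat.mul_le_mul_right _ (Nat.le_succ _))
    rw [Nat.zero_add]
    exact ((hok a ha).sz_halve hi.le).trans (Nat.mul_le_mul_left _ (by omega))
  exact (tc_downRows hao (TC.map Lin.flatten hhalf)).flatten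

theorem coreOk_level {Z ν ai β w : ℕ} {tb : List (List ℤ)} {x : List ℤ} (hai : 0 < ai)
    (hν : ai ≤ ν) (h : LevelOk Z ν ai β tb x) (ht : ∀ r ∈ tb, Wd w r) (hx : Wd w x) (s : ℕ) :
    CoreOk Z β w (ν * x.length) tb ((upRows ai (chunks (tb.length * Z) x)).rotate s) := by
  obtain ⟨R, hR, hl, n, hn⟩ := h.shape
  have hn0 : 0 < n := by
    rcases Nat.eq_zero_or_pos n with rfl | h0
    · exact absurd hn (Nat.mul_pos hR hai).ne'
    · exact h0
  refine ⟨n, tb.length, fun ρ m => (tb.getD ρ []).getD m 0,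
    upFun (tb.length * Z) ai (n * 2 ^ β) s x, hn0, h.tb_pos, h.Z_pos, eq_tab_tab h.row_len, ?_,
    abs_getD_getD_lt ht, abs_upFun_lt hx _ _ _ _, ?_⟩
  · rw [up_eq_tab (R := R) (Nat.mul_pos h.tb_pos h.Z_pos) hai (by rw [hl, mul_assoc]) s, hn,
      Nat.mul_comm (2 ^ β) n]
  · rw [Nat.mul_comm n, ← hn, hl]
    exact le_trans (le_of_eq (by ring)) (Nat.mul_le_mul_right _ hν)

theorem tc_up {Z ν ai β w : ι → ℕ} {tb : ι → List (List ℤ)} {x : ι → List ℤ}
    (hZ : TU D T Z) (hai : TU D T ai) (htb : TC D T tb) (hx : TC D T x)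
    (hν : ∀ a, ai a ≤ ν a) (hok : ∀ a, D a → LevelOk (Z a) (ν a) (ai a) (β a) (tb a) (x a))
    (hB : Bud D T (fun a => bandCost μ (ν a * (x a).length) (β a) (w a))) :
    TC D T (fun a => upRows (ai a) (chunks ((tb a).length * Z a) (x a))) := by
  have hX : TU D T (fun a => (tb a).length * Z a) := by
    refine TU.mul (TU.length htb) hZ ((TC.bud_length hx).mono fun a ha => ?_)
    obtain ⟨R, hR, hl, -⟩ := (hok a ha).shape
    rw [hl, mul_assoc]
    exact Nat.le_mul_of_pos_left _ hR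
  refine tc_upRows hai (TC.chunks hX hx) (bud_one hB fun a ha => ?_)
  rw [flatten_chunks (Nat.mul_pos (hok a ha).tb_pos (hok a ha).Z_pos), mul_assoc]
  refine Nat.mul_le_mul (hν a) ?_
  have h1 := length_chunks_le ((tb a).length * Z a) (x a)
  have h2 : (x a).length * 2 ≤ (x a).length * (31 * (w a + β a + 1)) :=
    Nat.mul_le_mul_left _ (by omega)
  omega

end tc

end PolyTC

open PolyTC

/-- **time of one analysis level** -/
theorem anaLTC {μ : ℕ → ℕ → ℕ} (hμ : M4.SpecConv μ) : AnaLTC μ := by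
  intro ι _ D T Z ν β w tb x hZ hν hβ htb hx hok hB
  have hup := tc_up hZ hν htb hx (fun _ => le_rfl) (fun a ha => (hok a ha).1) hB
  refine tc_core hμ hZ (hν.sub (TU.const 1)) hβ htb
    (TC.rotate_of_mod hup (TU.mod (((TU.length hup).add (TU.const 1)).sub hν) (TU.length hup)))
    (fun a ha => coreOk_level ?_ le_rfl (hok a ha).1 (hok a ha).2.1 (hok a ha).2.2 _) hB
  have := (hok a ha).1.two_le
  omega

/-- **time of one synthesis level** -/
theorem synLTC {μ : ℕ → ℕ → ℕ} (hμ : M4.SpecConv μ) : SynLTC μ := by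
  intro ι _ D T Z ν β w tb x hZ hν hβ htb hx hok hB
  have hup := tc_up hZ (hν.sub (TU.const 1)) htb hx (fun _ => Nat.sub_le _ _)
    (fun a ha => (hok a ha).1) hB
  have h2 : TU D T (fun a => 2 ^ β a) := by
    refine TU.twoPow hβ (bud_one hB fun a ha => ?_)
    obtain ⟨R, hR, hl, hd⟩ := (hok a ha).1.shape
    have h1 := (hok a ha).1.two_le
    have h3 : R ≤ (x a).length := by
      rw [hl, mul_assoc]
      exact Nat.le_mul_of_pos_right _ (Nat.mul_pos (hok a ha).1.tb_pos (hok a ha).1.Z_pos)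
    refine (Nat.le_of_dvd (Nat.mul_pos hR (by omega)) hd).trans ?_
    rw [mul_comm]
    exact (Nat.mul_le_mul (Nat.sub_le _ _) h3).trans (Nat.le_mul_of_pos_right _ (by omega))
  refine tc_core hμ hZ hν hβ htb
    (TC.rotate_of_mod hup (TU.mod (((TU.length hup).add hν).sub h2) (TU.length hup)))
    (fun a ha => coreOk_level ?_ (Nat.sub_le _ _) (hok a ha).1 (hok a ha).2.1 (hok a ha).2.2 _) hB
  have := (hok a ha).1.two_le
  omega

end Crest.Agent.X326.FB
end

-- ▼ part X326/B3/LayerPT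
section

/-!
Row 326 (S0503), part M3: the address functions of the layer are polynomial time.
-/

set_option autoImplicit false

namespace Crest.Agent.X326.B3

open Crest.Agent.Lib.PT M4

variable {α : Type} [PTCode α]

theorem ptf_inbStep {s : α → ℕ × Bool} {q : α → ℕ × ℕ} (hs : PTF s) (hq : PTF q) :
    PTF (fun a => inbStep (s a) (q a)) := by
  have h1 := PTF.comp PTF.fst hs
  have h2 := PTF.comp PTF.snd hs
  have h3 := PTF.comp PTF.fst hq
  have h4 := PTF.comp PTF.snd hq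
  exact PTF.prodMk (PTF.natDiv h1 h4) (PTF.and h2 (PTPred.natLt (PTF.natMod h1 h4) h3).toPTF)

theorem ptf_inb {S : α → List (ℕ × ℕ)} {H y : α → ℕ} (hS : PTF S) (hH : PTF H) (hy : PTF y) :
    PTF (fun a => inb (S a) (H a) (y a)) := by
  have h : PTF (fun a => (S a).foldl inbStep (y a, true)) :=
    PTF.foldl_add (f := fun _ s q => inbStep s q) hS
      (ptf_inbStep (PTF.comp PTF.fst PTF.snd) (PTF.comp PTF.snd PTF.snd))
      (PTF.prodMk hy (PTF.const true)) (PB.const 0) (fun _ s q _ => by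
        have := Nat.size_le_size (Nat.div_le_self s.1 q.2)
        simp only [inbStep, sz_prod, sz_nat, sz_bool]
        omega)
  have h1 := PTF.comp PTF.fst h
  have h2 := PTF.comp PTF.snd h
  exact PTF.and h2 (PTPred.natLt h1 hH).toPTF

theorem ptf_shape {L0 L : α → Lay} (h0 : PTF L0) (h : PTF L) :
    PTF (fun a => shape (L0 a) (L a)) :=
  PTF.listCons (PTF.prodMk (Bf.ptf_Z h0) (Bf.ptf_Z h))
    (PTF.append (PTF.replicate (Bf.ptu_F h0) (PTF.prodMk (Bf.ptf_g h0) (Bf.ptf_g h)))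
      (PTF.listCons (PTF.prodMk (Bf.ptf_G2 h0) (Bf.ptf_G2 h))
        (PTF.replicate (Bf.ptu_F h0) (PTF.prodMk (Bf.ptf_R h0) (Bf.ptf_R h)))))

variable {p : α → Par} {ρ : α → ℕ}

theorem ptu_fF (hp : PTF p) : PTU (fun a => fF (p a)) := (ptu_d hp).sub (PTU.const 3)

theorem ptu_fq (hp : PTF p) : PTU (fun a => fq (p a)) := (ptu_fF hp).toPTF.natSizeUn

theorem ptf_layPre (hp : PTF p) (hρ : PTU ρ) :
    PTF (fun a => 2 ^ (2 * (p a).k - ρ a - fq (p a) * fF (p a))) :=
  PTF.natTwoPow ((((PTU.const 2).mul (ptu_k hp)).sub hρ).sub ((ptu_fq hp).mul (ptu_fF hp)))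

theorem ptf_layZ (hp : PTF p) (hρ : PTU ρ) :
    PTF (fun a => 2 ^ ((p a).k + ρ a - fq (p a) * fF (p a))) :=
  PTF.natTwoPow (((ptu_k hp).add hρ).sub ((ptu_fq hp).mul (ptu_fF hp)))

theorem ptf_lay0 (hp : PTF p) (hρ : PTU ρ) : PTF (fun a => lay0 (p a) (ρ a)) :=
  Bf.ptf_layMk (ptf_layPre hp hρ) (PTF.natTwoPow (ptu_fq hp)) (ptu_fF hp) (PTF.const 1)
    (PTF.natTwoPow (ptu_k hp)) (PTF.const 1) (ptf_layZ hp hρ)

theorem ptf_lay1 (hp : PTF p) (hρ : PTU ρ) : PTF (fun a => lay1 (p a) (ρ a)) :=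
  Bf.ptf_layMk (ptf_layPre hp hρ) (PTF.natAdd (PTF.natTwoPow (ptu_fq hp)) (PTF.const 1))
    (ptu_fF hp) (PTF.const 1)
    (PTF.natAdd (PTF.natTwoPow (ptu_k hp))
      (PTF.natMul (PTF.const 2) (PTF.natAdd (PTF.natTwoPow (ptu_fq hp)) (PTF.const 1))))
    (PTF.const 1) (ptf_layZ hp hρ)

/-- the flag of address `y` -/
def lflag (c : Par × Un) (y : ℕ) : Bool :=
  inb (shape (lay0 c.1 c.2.val) (lay1 c.1 c.2.val)) (2 ^ (2 * c.1.k - c.2.val)) y

theorem ptf_lflag : PTF (fun q : (Par × Un) × ℕ => lflag q.1 q.2) := by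
  have hp : PTF (fun q : (Par × Un) × ℕ => q.1.1) := PTF.comp PTF.fst PTF.fst
  have hρ : PTU (fun q : (Par × Un) × ℕ => q.1.2.val) :=
    PTU.val (f := fun q : (Par × Un) × ℕ => q.1.2) (PTF.comp PTF.snd PTF.fst)
  exact ptf_inb (ptf_shape (ptf_lay0 hp hρ) (ptf_lay1 hp hρ))
    (PTF.natTwoPow (((PTU.const 2).mul (ptu_k hp)).sub hρ)) PTF.snd

theorem ptf_sexp {a k F x : α → ℕ} (ha : PTF a) (hk : PTF k) (hF : PTU F) (hx : PTF x) :
    PTF (fun z => sexp (2 ^ a z) (2 ^ k z) (F z) (x z)) := by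
  have h : PTF (fun z => ∑ j ∈ Finset.range (F z), (x z >>> (a z + k z * j)) % 2) :=
    PTF.natSumRange hF (f := fun z j => (x z >>> (a z + k z * j)) % 2)
      (PTF.natMod (PTF.natShiftRight (PTF.comp hx PTF.fst)
        (PTF.natAdd (PTF.comp ha PTF.fst) (PTF.natMul (PTF.comp hk PTF.fst) PTF.snd)))
        (PTF.const 2))
  refine h.of_eq (fun z => ?_)
  unfold sexp
  rw [show ∀ f : ℕ → ℕ, ((List.range (F z)).map f).sum = ∑ j ∈ Finset.range (F z), f j from
    fun _ => rfl]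
  refine Finset.sum_congr rfl (fun j _ => ?_)
  rw [Nat.shiftRight_eq_div_pow, pow_add, pow_mul]

theorem ptf_sE {x : α → ℕ} (hp : PTF p) (hρ : PTU ρ) (hx : PTF x) :
    PTF (fun a => sE (p a) (ρ a) (x a)) :=
  PTF.natMod (PTF.natMul (PTF.natDiv (ptf_r hp) (PTF.const 2))
    (ptf_sexp ((ptu_k hp).add hρ).toPTF (ptu_k hp).toPTF (ptu_fF hp) hx))
    (PTF.natMul (PTF.const 2) (ptf_r hp))

end Crest.Agent.X326.B3
end

-- ▼ part X326/B3/Layer

/-!
Row 326 (S0503), part M3: the cost of the layer; `SpecLayer` from part B.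
-/

set_option autoImplicit false

namespace Crest.Agent.X326.B3

open Crest.Agent.Lib.PT M4

/-- the cost of a layer -/
noncomputable def TLay (τ : ℝ) (m : ℕ) (p : Par) : ℕ :=
  p.vol * ((Nat.log m (p.d - 3) + 1) * pw τ ((p.d - 3) * (Nat.size (p.d - 3) + 2)))

namespace Ly

variable {ι : Type} [PTCode ι] {D : Dom ι} {T : Cost ι} {w m : ℕ} {p : ι → Par} {ρ : ι → ℕ}

/-- the standing assumptions -/
structure Ctx (D : Dom ι) (T : Cost ι) (w m : ℕ) (p : ι → Par) (ρ : ι → ℕ) : Prop where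
  hp : TC D T p
  hρ : TU D T ρ
  facts : ∀ x, D x → LFacts w m (p x)
  lt : ∀ x, D x → ρ x < (p x).k
  vol : Bud D T (fun x => (p x).vol)

theorem N_mul_pow_le (c k : ℕ) : ∃ C, ∀ q : Par, q.Ok → q.N * (c * Mn.U q) ^ k ≤ C * q.vol := by
  obtain ⟨C, hC⟩ := Mn.pow_U_le c k
  refine ⟨C, fun q hq => ?_⟩
  calc q.N * (c * Mn.U q) ^ k ≤ q.N * (C * q.r) := Nat.mul_le_mul_left _ (hC q)
    _ = C * (q.N * q.r) := by ring
    _ ≤ C * q.vol := Nat.mul_le_mul_left _ (Mn.N_mul_r_le hq)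

theorem N_le_vol {q : Par} (hq : q.Ok) : q.N ≤ q.vol :=
  (Nat.le_mul_of_pos_right _ q.r_pos).trans (Mn.N_mul_r_le hq)

theorem size_N (q : Par) : q.N.size = q.k * q.d + 1 := by rw [Par.N, Nat.size_pow]

theorem size_M_le (q : Par) : q.M.size ≤ q.P := by
  have := Mn.sz_M_le q
  rwa [sz_nat] at this

theorem size_r (q : Par) : q.r.size = q.lr + 1 := by rw [Par.r, Nat.size_pow]

theorem size_g {q : Par} (h : LFacts w m q) : (2 ^ fq q + 1).size = fq q + 1 := by
  have h1 : 0 < fq q := Nat.size_pos.2 h.pos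
  have h2 : 2 ^ 1 ≤ 2 ^ fq q := Nat.pow_le_pow_right (by norm_num) h1
  apply le_antisymm
  · rw [Nat.size_le, pow_succ]; omega
  · exact Nat.lt_size.2 (Nat.le_succ _)

theorem sz_lay1_le {q : Par} (h : LFacts w m q) {ρ : ℕ} (hρ : ρ < q.k) :
    sz (lay1 q ρ) ≤ 40 * Mn.U q := by
  have h1 := Mn.le_U h.ok
  have h2 := h.room
  have h3 := h.d_eq
  have h4 : (2 ^ q.k + 2 * (2 ^ fq q + 1)).size ≤ q.k + 1 := by
    have h5 : 2 ^ (fq q + 3) ≤ 2 ^ q.k := Nat.pow_le_pow_right (by norm_num) (by omega)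
    have h6 : 0 < 2 ^ fq q := Nat.two_pow_pos _
    rw [Nat.size_le, pow_succ]
    rw [pow_add] at h5
    omega
  rw [sz_lay]
  simp only [lay1, Nat.size_pow, size_g h, Nat.size_one]
  omega

theorem size_lay1_N_le {q : Par} (h : LFacts w m q) {ρ : ℕ} (hρ : ρ < q.k) :
    (lay1 q ρ).N.size ≤ 7 * Mn.U q := by
  have h1 := Mn.le_U h.ok
  have h2 := lay1_N_le h hρ
  have h3 : (lay1 q ρ).N.size ≤ q.k * q.d + 5 := by
    have h4 : 0 < q.N := q.N_pos
    rw [Nat.size_le, pow_add]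
    rw [Par.N] at h2 h4
    omega
  omega

namespace Ctx

theorem budN (h : Ctx D T w m p ρ) (c k : ℕ) :
    Bud D T (fun x => (p x).N * (c * Mn.U (p x)) ^ k) := by
  obtain ⟨C, hC⟩ := N_mul_pow_le c k
  exact (h.vol.const_mul C).mono (fun x hx => hC _ (h.facts x hx).ok)

theorem budN' (h : Ctx D T w m p ρ) (c k : ℕ) :
    Bud D T (fun x => (p x).N * (c * Mn.U (p x) + 1) ^ k) :=
  (h.budN (c + 1) k).mono (fun x hx => Nat.mul_le_mul_left _ (Nat.pow_le_pow_left (by
    have := (Mn.le_U (h.facts x hx).ok).1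
    rw [add_mul]; omega) k))

theorem ctx (h : Ctx D T w m p ρ) : TC D T (fun x => (p x, Un.mk (ρ x))) := h.hp.prodMk h.hρ

theorem sz_ctx (h : Ctx D T w m p ρ) (x : ι) (hx : D x) :
    sz (p x, Un.mk (ρ x)) ≤ 22 * Mn.U (p x) := by
  have h1 := Mn.sz_par_le (h.facts x hx).ok
  have h2 := Mn.le_U (h.facts x hx).ok
  have h3 := h.lt x hx
  rw [sz_prod, sz_un]
  simp only
  omega

theorem small (h : Ctx D T w m p ρ) : Small D T (fun x => sz (p x, Un.mk (ρ x))) := fun k =>
  (h.budN' 22 k).mono (fun x hx => (Nat.pow_le_pow_left (Nat.succ_le_succ (h.sz_ctx x hx)) k).trans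
    (Nat.le_mul_of_pos_left _ (p x).N_pos))

theorem ptf (h : Ctx D T w m p ρ) {β : Type} [PTCode β] {g : Par → ℕ → β}
    (hg : PTF (fun q : Par × Un => g q.1 q.2.val)) : TC D T (fun x => g (p x) (ρ x)) :=
  TC.ptf hg h.ctx h.small

theorem tc_M (h : Ctx D T w m p ρ) : TC D T (fun x => (p x).M) :=
  h.ptf (g := fun q _ => q.M) (ptf_M PTF.fst)

theorem tc_r (h : Ctx D T w m p ρ) : TC D T (fun x => (p x).r) :=
  h.ptf (g := fun q _ => q.r) (ptf_r PTF.fst)

theorem tu_r (h : Ctx D T w m p ρ) : TU D T (fun x => (p x).r) :=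
  TU.ofNat h.tc_r (h.vol.mono (fun x hx => Mn.r_le_vol (h.facts x hx).ok))

theorem tu_fF (h : Ctx D T w m p ρ) : TU D T (fun x => fF (p x)) :=
  (Mn.tu_d h.hp).sub (TU.const 3)

theorem tc_lay1 (h : Ctx D T w m p ρ) : TC D T (fun x => lay1 (p x) (ρ x)) :=
  h.ptf (g := lay1) (ptf_lay1 PTF.fst (PTU.val PTF.snd))

theorem bud_N1 (h : Ctx D T w m p ρ) {g : ι → ℕ} (hg : Bud D T (fun x => (p x).N * g x)) :
    Bud D T (fun x => (lay1 (p x) (ρ x)).N * g x) :=
  (hg.const_mul 27).mono (fun x hx => by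
    rw [← mul_assoc]
    exact Nat.mul_le_mul_right _ (lay1_N_le (h.facts x hx) (h.lt x hx)))

theorem tu_N1 (h : Ctx D T w m p ρ) : TU D T (fun x => (lay1 (p x) (ρ x)).N) :=
  TU.ofNat (h.ptf (g := fun q r => (lay1 q r).N) (Bf.ptf_layN (ptf_lay1 PTF.fst (PTU.val PTF.snd))))
    ((h.vol.const_mul 27).mono (fun x hx => (lay1_N_le (h.facts x hx) (h.lt x hx)).trans
      (Nat.mul_le_mul_left _ (N_le_vol (h.facts x hx).ok))))

theorem tc_lflags (h : Ctx D T w m p ρ) : TC D T (fun x => lflags (p x) (ρ x)) := by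
  have h0 := TC.mapRange_ptf (f := lflag) ptf_lflag h.ctx h.tu_N1 (fun x => 29 * Mn.U (p x))
    (fun x hx => by
      have h1 := h.sz_ctx x hx
      have h2 := size_lay1_N_le (h.facts x hx) (h.lt x hx)
      omega)
    (fun k => h.bud_N1 (h.budN' 29 k))
  refine h0.of_eq (fun x => ?_)
  unfold lflags flags
  exact List.map_congr_left (fun y _ => by rw [lflag])

theorem tc_stw (h : Ctx D T w m p ρ) {l : ι → RL} (hl : TC D T l)
    (hw : ∀ x, D x → (p x).WF (l x)) :
    TC D T (fun x => stw (p x).M (sE (p x) (ρ x)) (l x)) := by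
  have he : PTF (fun q : (Par × Un) × ℕ => (q.1.1.M, sE q.1.1 q.1.2.val q.2)) :=
    PTF.prodMk (ptf_M (PTF.comp PTF.fst PTF.fst)) (ptf_sE (PTF.comp PTF.fst PTF.fst)
      (PTU.val (f := fun q : (Par × Un) × ℕ => q.1.2) (PTF.comp PTF.snd PTF.fst)) PTF.snd)
  refine TC.idxOp (op := rotOp) (e := fun (c : Par × Un) (n : ℕ) => (c.1.M, sE c.1 c.2.val n))
    Mn.tc_rot he h.ctx hl (fun x => 24 * Mn.U (p x)) (fun x => (p x).r * (p x).P) 0
    (fun x hx => ?_) (fun k => (h.budN' 24 k).mono (fun x hx => by rw [(hw x hx).1]))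
    (fun x hx j hj => ?_) (h.vol.mono (fun x hx => ?_))
  · have h1 := h.sz_ctx x hx
    have h2 := Mn.le_U (h.facts x hx).ok
    rw [(hw x hx).1, size_N]
    omega
  · have hr := ((hw x hx).2 _ (List.getElem_mem hj)).1
    simp only [hr, zero_mul, add_zero]
    exact ⟨sE_le _ _ _, Nat.mul_le_mul_left _ (Mn.sz_M_le _)⟩
  · rw [(hw x hx).1, Par.vol, mul_assoc]

theorem tc_shiftL (h : Ctx D T w m p ρ) {l : ι → RL} (hl : TC D T l)
    (hw : ∀ x, D x → (p x).WF (l x)) :
    TC D T (fun x => (l x).map (recShift (p x).P (fF (p x) / 2))) := by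
  have hsz : ∀ x, D x → sz (Un.mk (p x).P, Un.mk (fF (p x) / 2)) ≤ 4 * (p x).P := fun x hx => by
    have h1 := (h.facts x hx).F_le
    have h2 := (h.facts x hx).ok.P_ge
    simp only [sz_prod, sz_un]
    omega
  refine TC.mapCtx_le (f := fun (c : Un × Un) (a : List ℕ) => recShift c.1.val c.2.val a)
    (c := fun x => (Un.mk (p x).P, Un.mk (fF (p x) / 2))) Mn.tc_shift
    (TC.prodMk (Mn.tu_P h.hp) (h.tu_fF.div (TU.const 2))) hl
    (fun x => (p x).r * (4 * (p x).P)) 0 (fun x hx a ha => ⟨trivial, ?_⟩)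
    ((h.vol.const_mul 4).mono (fun x hx => ?_)) ((h.vol.const_mul 4).mono (fun x hx => ?_))
  · simp only [((hw x hx).2 a ha).1, zero_mul, add_zero]
    exact Nat.mul_le_mul_left _ (hsz x hx)
  · rw [(hw x hx).1, Par.vol]; exact le_of_eq (by ring)
  · have h1 := Mn.N_mul_P_le (p x)
    have h2 := Nat.mul_le_mul_left (p x).N (hsz x hx)
    rw [(hw x hx).1]
    nlinarith

theorem tc_hRec : TC (fun _ : (ℕ × Bool) × List ℕ × List ℕ => True)
    (fun q => (q.2.1.length + q.2.2.length) * sz q.1.1) (fun q => hRec q.1 q.2) :=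
  TC.cond TC.id.fst.snd
    (Bf.tc_recSub TC.id.fst.fst TC.id.snd.snd TC.id.snd.fst
      (Bud.self.mono fun _ _ => Nat.mul_le_mul_right _ (Nat.le_add_left _ _)))
    (St.tc_recAdd TC.id.fst.fst TC.id.snd.fst TC.id.snd.snd
      (Bud.self.mono fun _ _ => Nat.mul_le_mul_right _ (Nat.le_add_right _ _)))

theorem tc_hPass (h : Ctx D T w m p ρ) {j : ι → ℕ} (hj : TU D T j)
    (hlt : ∀ x, D x → j x < (p x).k * (p x).d) {l : ι → RL} (hl : TC D T l)
    (hw : ∀ x, D x → (p x).WF (l x)) :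
    TC D T (fun x => hPass (p x).M (j x) (l x)) := by
  have he : PTF (fun q : (ℕ × Un) × ℕ => (q.1.1, q.2.testBit q.1.2.val)) :=
    PTF.prodMk (PTF.comp PTF.fst PTF.fst) (PTF.natTestBit PTF.snd
      (PTU.val (f := fun q : (ℕ × Un) × ℕ => q.1.2) (PTF.comp PTF.snd PTF.fst)).toPTF)
  have h2 : TU D T (fun x => 2 ^ j x) := TU.twoPow hj (h.vol.mono (fun x hx =>
    (Nat.pow_le_pow_right (by norm_num) (hlt x hx).le).trans (N_le_vol (h.facts x hx).ok)))
  have hlen : ∀ x, D x → ((l x).zip (partner (2 ^ j x) (l x))).length ≤ (p x).N := fun x hx => by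
    rw [List.length_zip, ← (hw x hx).1]; exact min_le_left _ _
  refine TC.idxOp (op := hRec) (e := fun (c : ℕ × Un) (n : ℕ) => (c.1, n.testBit c.2.val))
    (c := fun x => ((p x).M, Un.mk (j x))) tc_hRec he (h.tc_M.prodMk hj)
    (hl.zip (tc_partner h2 hl)) (fun x => 6 * Mn.U (p x)) (fun x => 2 * (p x).r * (p x).P) 0
    (fun x hx => ?_)
    (fun k => (h.budN' 6 k).mono (fun x hx => Nat.mul_le_mul_right _ (hlen x hx)))
    (fun x hx i hi => ⟨trivial, ?_⟩) ((h.vol.const_mul 2).mono (fun x hx => ?_))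
  · have h1 := Mn.le_U (h.facts x hx).ok
    have h3 := Nat.size_le_size (hlen x hx)
    have h4 := size_M_le (p x)
    have h5 := hlt x hx
    rw [size_N] at h3
    simp only [sz_prod, sz_un, sz_nat]
    omega
  · have hm0 := List.getElem_mem hi
    generalize ((l x).zip (partner (2 ^ j x) (l x)))[i] = q at hm0 ⊢
    have hm := List.of_mem_zip (a := q.1) (b := q.2) hm0
    have h1 := ((hw x hx).2 _ hm.1).1
    have h3 := ((hw x hx).2 _ (mem_of_mem_partner hm.2)).1
    simp only [h1, h3, zero_mul, add_zero]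
    rw [← two_mul]
    exact Nat.mul_le_mul_left _ (Mn.sz_M_le _)
  · calc _ ≤ (p x).N * (2 * (p x).r * (p x).P) := Nat.mul_le_mul_right _ (hlen x hx)
      _ = 2 * (p x).vol := by rw [Par.vol]; ring

theorem tc_pbIn (h : Ctx D T w m p ρ) {l : ι → RL} (hl : TC D T l)
    (hw : ∀ x, D x → (p x).WF (l x)) : TC D T (fun x => pbIn m (p x) (ρ x) (l x)) := by
  have h1 := h.tc_stw hl hw
  have h2 : TU D T (fun x => Nat.log m (fF (p x))) :=
    TU.ofNat (TU.pt (g := fun n => Nat.log m n) (PTF.natLog (PTF.const m) PTF.id) h.tu_fF)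
      (h.tu_fF.bud.mono (fun x _ => Nat.log_le_self _ _))
  have h3 : TC D T (fun x => embL (lflags (p x) (ρ x)) (recZero (p x).r)
      (stw (p x).M (sE (p x) (ρ x)) (l x))) := by
    refine TC.mergeBy h.tc_lflags h1 (TC.replicate ((TU.length h.tc_lflags).sub (TU.length h1))
      (TC.replicate_const 0 h.tu_r) ((h.bud_N1 (g := fun x => (p x).r)
        (h.vol.mono (fun x hx => Mn.N_mul_r_le (h.facts x hx).ok))).mono (fun x _ => ?_)))
    refine Nat.mul_le_mul ?_ ?_
    · rw [lflags, length_flags]; exact Nat.sub_le _ _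
    · rw [recZero, sz_replicate, sz_nat]; simp
  exact (h.tc_M.prodMk h.tc_r).prodMk
    (h.tc_lay1.prodMk (((TC.const (Un.mk 0)).prodMk h2).prodMk h3))

end Ctx

theorem pass_le (k : ℕ) : ∃ C, ∀ (q : Par) (ρ : ℕ), LFacts w m q → ρ < q.k →
    pass k q.M q.r (lay1 q ρ) ≤ C * q.vol := by
  obtain ⟨C, hC⟩ := N_mul_pow_le 44 k
  refine ⟨27 * (4 + C), fun q ρ h hρ => ?_⟩
  have h1 := Mn.le_U h.ok
  have h2 := size_M_le q
  have h3 := sz_lay1_le h hρ
  have h4 : (q.M.size + q.r.size + sz (lay1 q ρ) + 1) ^ k ≤ (44 * Mn.U q) ^ k :=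
    Nat.pow_le_pow_left (by rw [size_r]; omega) k
  have h5 : (q.r + 1) * (q.M.size + 1) ≤ (2 * q.r) * (2 * q.P) :=
    Nat.mul_le_mul (by have := q.r_pos; omega) (by have := h.ok.P_ge; omega)
  calc pass k q.M q.r (lay1 q ρ)
      ≤ 27 * q.N * ((2 * q.r) * (2 * q.P) + (44 * Mn.U q) ^ k) :=
        Nat.mul_le_mul (lay1_N_le h hρ) (Nat.add_le_add h5 h4)
    _ = 27 * (4 * q.vol + q.N * (44 * Mn.U q) ^ k) := by rw [Par.vol]; ring
    _ ≤ 27 * (4 * q.vol + C * q.vol) :=
        Nat.mul_le_mul_left _ (Nat.add_le_add_left (hC q h.ok) _)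
    _ = _ := by ring

theorem vol_le_TLay (τ : ℝ) {q : Par} (h : LFacts w m q) : q.vol ≤ TLay τ m q := by
  refine Nat.le_mul_of_pos_right _ (Nat.mul_pos (Nat.succ_pos _) (one_le_pw τ ?_))
  exact Nat.mul_pos h.pos (Nat.succ_pos _)

end Ly

/-- **The layer**: what M4 consumes, from part B. -/
theorem specLayer_of_partB {w m : ℕ} {τ : ℝ} (hm : 8 ∣ m) (hm0 : 0 < m)
    (h : PartBStatement (2 ^ w) m τ) : SpecLayer (LayerOk w m) (TLay τ m) := by
  obtain ⟨pb, k, htc, hpb⟩ := h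
  refine ⟨fun x => layerL m pb x.1 x.2.1.val x.2.2, ?_, fun p ρ l hp hρ hl =>
    ⟨wf_layerL hpb (hp.facts hm hm0) hρ hl, arr_layerL hpb (hp.facts hm hm0) hρ hl⟩⟩
  have c : Ly.Ctx (fun x : Par × Un × List (List ℕ) =>
      LayerOk w m x.1 ∧ x.2.1.val < x.1.k ∧ x.1.WF x.2.2) (fun x => TLay τ m x.1) w m
      (fun x => x.1) (fun x => x.2.1.val) :=
    ⟨TC.id.fst, TU.val TC.id.snd.fst, fun x hx => hx.1.facts hm hm0, fun x hx => hx.2.1,
      Bud.self.mono (fun x hx => Ly.vol_le_TLay τ (hx.1.facts hm hm0))⟩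
  obtain ⟨C, hC⟩ := Ly.pass_le (w := w) (m := m) k
  have h1 := htc.comp (c.tc_pbIn TC.id.snd.snd (fun x hx => hx.2.2))
    (fun x hx => pbIn_dom (c.facts x hx) hx.2.1 hx.2.2) (Bud.of_le_mul C (fun x hx => by
      have hf := c.facts x hx
      have h2 := hC x.1 x.2.1.val hf hx.2.1
      simp only [pbIn, hf.pow_eq]
      have e : (lay1 x.1 x.2.1.val).g.size + 1 = (x.1.d - 3).size + 2 := by
        rw [show (lay1 x.1 x.2.1.val).g = 2 ^ fq x.1 + 1 from rfl, Ly.size_g hf]; rfl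
      rw [e, TLay, mul_assoc, ← mul_assoc C]
      exact Nat.mul_le_mul_right _ h2))
  have w1 := fun x hx => wf_filter_pb hpb (c.facts x hx) hx.2.1 hx.2.2
  have h2 := c.tc_shiftL (c.tc_stw (TC.filterBy c.tc_lflags h1) w1)
    (fun x hx => wfa_stw (w1 x hx) _)
  have hk := Mn.tu_k c.hp
  have hj : ∀ i, i < 3 → TU (fun x : Par × Un × List (List ℕ) =>
      LayerOk w m x.1 ∧ x.2.1.val < x.1.k ∧ x.1.WF x.2.2) (fun x => TLay τ m x.1)
      (fun x => x.1.k * (fF x.1 + i) + x.2.1.val) := fun i hi =>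
    (hk.mul (c.tu_fF.add (TU.const i)) ((Mn.tu_P c.hp).bud.mono (fun x hx => by
      have h3 := (c.facts x hx).pos_lt hx.2.1 (i := fF x.1 + i) (by omega)
      have h4 := (c.facts x hx).ok.kd_le
      omega))).add c.hρ
  have w2 := fun x hx => wf_fastL hpb (c.facts x hx) hx.2.1 hx.2.2
  have l2 := fun x hx => (c.facts x hx).pos_lt hx.2.1 (i := fF x.1 + 2) (by omega)
  have l1 := fun x hx => (c.facts x hx).pos_lt hx.2.1 (i := fF x.1 + 1) (by omega)
  have h3 := c.tc_hPass (hj 2 (by omega)) l2 h2 w2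
  have w3 := fun x hx => wf_hPass_par (l2 x hx) (w2 x hx)
  have h4 := c.tc_hPass (hj 1 (by omega)) l1 h3 w3
  exact c.tc_hPass c.hρ (fun x hx => (c.facts x hx).rho_lt hx.2.1) h4
    (fun x hx => wf_hPass_par (l1 x hx) (w3 x hx))

end Crest.Agent.X326.B3
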