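import Crest.Agent.X326.A.Perm
import Crest.Agent.X326.B3.Defs
import Crest.Agent.X326.A.GathTC
import Crest.Agent.X326.A.Spec
import Crest.Agent.X326.TC.Un

-- ▼ part X326/B3/GadgetIdx
section

/-!
Row 326 (S0503), part M3: address arithmetic of the xor gadget.

`dsum B n f` is the number with little-endian digits `f 0, …, f (n-1)` in base `B`.  The gadget
changes the digits `y i` (base `R`) of a target field into `y i xor z i` by four additions that use
the digits `b i` (base `g`) of an ancilla field; on safe addresses no carry occurs.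
-/

set_option autoImplicit false

namespace Crest.Agent.X326.B3.Gad

open Crest.Agent.X326.A Finset

/-- the number with the little-endian digits `f 0, …, f (n-1)` in base `B` -/
def dsum (B n : ℕ) (f : ℕ → ℕ) : ℕ := ∑ i ∈ range n, f i * B ^ i

section dsum

variable {B n x : ℕ} {f f' : ℕ → ℕ}

@[simp] theorem dsum_zero (B : ℕ) (f : ℕ → ℕ) : dsum B 0 f = 0 := by simp [dsum]

theorem dsum_succ (B n : ℕ) (f : ℕ → ℕ) : dsum B (n + 1) f = dsum B n f + f n * B ^ n := by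
  simp [dsum, sum_range_succ]

theorem dsum_congr (h : ∀ i < n, f i = f' i) : dsum B n f = dsum B n f' :=
  sum_congr rfl fun i hi => by rw [h i (mem_range.1 hi)]

theorem dsum_add (B n : ℕ) (f f' : ℕ → ℕ) :
    dsum B n (fun i => f i + f' i) = dsum B n f + dsum B n f' := by
  simp [dsum, add_mul, sum_add_distrib]


theorem dsum_lt (h : ∀ i < n, f i < B) : dsum B n f < B ^ n := by
  induction n with
  | zero => simp
  | succ n ih =>
    have h1 := ih fun i hi => h i (by omega)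
    have h2 : (f n + 1) * B ^ n ≤ B * B ^ n := Nat.mul_le_mul_right _ (h n (by omega))
    rw [dsum_succ, pow_succ']
    rw [add_mul, one_mul] at h2
    omega

theorem dsum_dig (B n x : ℕ) : dsum B n (fun i => dig (B ^ i) B x) = x % B ^ n := by
  induction n with
  | zero => simp [Nat.mod_one]
  | succ n ih => rw [dsum_succ, ih, pow_succ, Nat.mod_mul, dig, mul_comm]

theorem dig_dsum (h : ∀ i < n, f i < B) {i : ℕ} (hi : i < n) :
    dig (B ^ i) B (dsum B n f) = f i := by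
  induction n with
  | zero => omega
  | succ n ih =>
    have hB : 0 < B := by have := h 0 (by omega); omega
    have h1 : dsum B n f < B ^ n := dsum_lt fun i hi => h i (by omega)
    rw [dsum_succ]
    rcases Nat.lt_succ_iff_lt_or_eq.1 hi with hi | rfl
    · rw [← ih (fun i hi => h i (by omega)) hi]
      refine dig_eq_of_mod (w := B ^ n) (by rw [← pow_succ]; exact pow_dvd_pow _ hi) ?_
      rw [Nat.add_mul_mod_self_right]
    · rw [dig, Nat.add_mul_div_right _ _ (pow_pos hB i), Nat.div_eq_of_lt h1, zero_add,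
        Nat.mod_eq_of_lt (h i (by omega))]

/-- carry-free addition: the sum in split form -/
theorem add_dsum_eq (B n x : ℕ) (e : ℕ → ℕ) :
    x + dsum B n e = x / B ^ n * B ^ n + dsum B n (fun i => dig (B ^ i) B x + e i) := by
  rw [dsum_add, dsum_dig]
  have := Nat.div_add_mod x (B ^ n)
  rw [mul_comm] at this
  omega

/-- carry-free addition: the high part does not change -/
theorem add_dsum_div {e : ℕ → ℕ} (hB : 0 < B) (h : ∀ i < n, dig (B ^ i) B x + e i < B) :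
    (x + dsum B n e) / B ^ n = x / B ^ n := by
  rw [add_dsum_eq, mul_comm, Nat.mul_add_div (pow_pos hB n), Nat.div_eq_of_lt (dsum_lt h),
    add_zero]

/-- carry-free addition: the digits add -/
theorem dig_add_dsum {e : ℕ → ℕ} (h : ∀ i < n, dig (B ^ i) B x + e i < B) {i : ℕ} (hi : i < n) :
    dig (B ^ i) B (x + dsum B n e) = dig (B ^ i) B x + e i := by
  rw [← dig_dsum h hi, add_dsum_eq]
  refine dig_eq_of_mod (w := B ^ n) (by rw [← pow_succ]; exact pow_dvd_pow _ hi) ?_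
  rw [Nat.mul_add_mod_self_right]

theorem add_dsum_lt {e : ℕ → ℕ} {m : ℕ} (hB : 0 < B) (h : ∀ i < n, dig (B ^ i) B x + e i < B)
    (hnm : n ≤ m) (hx : x < B ^ m) : x + dsum B n e < B ^ m :=
  lt_of_div_eq (pow_dvd_pow B hnm) (add_dsum_div hB h) hx

end dsum

/-- the parity of a digit in an even base -/
theorem dig_two {R : ℕ} (hR : 2 ∣ R) (w x : ℕ) : dig w 2 x = dig w R x % 2 := by
  rw [dig, dig, Nat.mod_mod_of_dvd _ hR]

/-- `xb y z` is `y` with its last bit flipped when `z = 1` -/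
def xb (y z : ℕ) : ℕ := 2 * (y / 2) + (y + z) % 2

theorem xb_lt {R y z : ℕ} (hR : 2 ∣ R) (hy : y < R) : xb y z < R := by
  obtain ⟨c, rfl⟩ := hR
  unfold xb
  omega

@[simp] theorem xb_div (y z : ℕ) : xb y z / 2 = y / 2 := by unfold xb; omega

@[simp] theorem xb_mod (y z : ℕ) : xb y z % 2 = (y + z) % 2 := by unfold xb; omega

/-- the target field after the xor with the mask `z` -/
def xorFld (R n' : ℕ) (z : ℕ → ℕ) (y : ℕ) : ℕ := dsum R n' (fun i => xb (dig (R ^ i) R y) (z i))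

theorem xorFld_lt {R : ℕ} (hR : 2 ∣ R) (hR0 : 0 < R) (n' : ℕ) (z : ℕ → ℕ) (y : ℕ) :
    xorFld R n' z y < R ^ n' := dsum_lt fun _ _ => xb_lt hR (dig_lt hR0)

theorem dig_xorFld {R : ℕ} (hR : 2 ∣ R) (hR0 : 0 < R) {n' : ℕ} (z : ℕ → ℕ) (y : ℕ) {i : ℕ}
    (hi : i < n') : dig (R ^ i) R (xorFld R n' z y) = xb (dig (R ^ i) R y) (z i) :=
  dig_dsum (fun _ _ => xb_lt hR (dig_lt hR0)) hi

section flow

variable {g R n n' y b : ℕ} {z : ℕ → ℕ}

/-- first offset (added to the target field): `2 z_i b_i` -/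
def off1 (g R n' : ℕ) (z : ℕ → ℕ) (b : ℕ) : ℕ := dsum R n' (fun i => 2 * z i * dig (g ^ i) g b)

/-- second offset (added to the ancilla): the parities of the target digits -/
def off2 (g R n' y : ℕ) : ℕ := dsum g n' (fun i => dig (R ^ i) 2 y)

/-- third offset (added to the target field): `z_i (1 - 2 b_i)` -/
def off3 (g R n' : ℕ) (z : ℕ → ℕ) (b : ℕ) : ℕ := dsum R n' z + (R ^ n' - off1 g R n' z b)

/-- fourth offset (added to the ancilla): minus the old parities of the target digits -/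
def off4 (g R n n' : ℕ) (z : ℕ → ℕ) (y : ℕ) : ℕ :=
  g ^ n - dsum g n' (fun i => (dig (R ^ i) 2 y + z i) % 2)

/-- The four additions of the gadget: the target field is xored, the ancilla is restored. -/
theorem flow (hR : 2 ∣ R) (hn : n' ≤ n) (hz : ∀ i < n', z i ≤ 1) (hy : y < R ^ n')
    (hb : b < g ^ n) (hys : ∀ i < n', dig (R ^ i) R y + 2 * g ≤ R)
    (hbs : ∀ i < n', dig (g ^ i) g b + 2 ≤ g) (hg : 0 < g) (hR0 : 0 < R) {y1 b1 y2 b2 : ℕ}
    (e1 : y1 = (y + off1 g R n' z b) % R ^ n') (e2 : b1 = (b + off2 g R n' y1) % g ^ n)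
    (e3 : y2 = (y1 + off3 g R n' z b1) % R ^ n') (e4 : b2 = (b1 + off4 g R n n' z y2) % g ^ n) :
    y2 = xorFld R n' z y ∧ b2 = b := by
  -- step 1
  have c1 : ∀ i < n', dig (R ^ i) R y + 2 * z i * dig (g ^ i) g b < R := fun i hi => by
    have h1 := hz i hi
    have h2 := hys i hi
    have h3 := hbs i hi
    have : 2 * z i * dig (g ^ i) g b ≤ 2 * 1 * dig (g ^ i) g b := by gcongr
    omega
  have v1 : y1 = y + off1 g R n' z b := by
    rw [e1]; exact Nat.mod_eq_of_lt (add_dsum_lt hR0 c1 le_rfl hy)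
  have d1 : ∀ i < n', dig (R ^ i) R y1 = dig (R ^ i) R y + 2 * z i * dig (g ^ i) g b :=
    fun i hi => by rw [v1]; exact dig_add_dsum c1 hi
  have p1 : ∀ i < n', dig (R ^ i) 2 y1 = dig (R ^ i) R y % 2 := fun i hi => by
    rw [dig_two hR, d1 i hi, mul_assoc, Nat.add_mul_mod_self_left]
  -- step 2
  have c2 : ∀ i < n', dig (g ^ i) g b + dig (R ^ i) 2 y1 < g := fun i hi => by
    have h3 := hbs i hi
    rw [p1 i hi]
    omega
  have l2 : b + off2 g R n' y1 < g ^ n := add_dsum_lt hg c2 hn hb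
  have v2 : b1 = b + off2 g R n' y1 := by rw [e2]; exact Nat.mod_eq_of_lt l2
  have d2 : ∀ i < n', dig (g ^ i) g b1 = dig (g ^ i) g b + dig (R ^ i) R y % 2 :=
    fun i hi => by rw [v2, ← p1 i hi]; exact dig_add_dsum c2 hi
  -- step 3
  have l3 : off1 g R n' z b1 < R ^ n' := dsum_lt fun i hi => by
    have h1 := hz i hi
    have h2 := hys i hi
    have h3 : dig (g ^ i) g b1 < g := dig_lt hg
    have : 2 * z i * dig (g ^ i) g b1 ≤ 2 * 1 * dig (g ^ i) g b1 := by gcongr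
    omega
  have k3 : y1 + dsum R n' z = xorFld R n' z y + off1 g R n' z b1 := by
    have ey : dsum R n' (fun i => dig (R ^ i) R y) = y := by
      rw [dsum_dig, Nat.mod_eq_of_lt hy]
    have : y1 = dsum R n' (fun i => dig (R ^ i) R y) + off1 g R n' z b := by rw [v1, ey]
    rw [this, off1, off1, xorFld, ← dsum_add, ← dsum_add, ← dsum_add]
    refine dsum_congr fun i hi => ?_
    rw [d2 i hi, xb]
    have h1 := hz i hi
    rcases Nat.le_one_iff_eq_zero_or_eq_one.1 h1 with h | h <;> rw [h] <;> omega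
  have v3 : y2 = xorFld R n' z y := by
    have : y1 + off3 g R n' z b1 = xorFld R n' z y + R ^ n' := by unfold off3; omega
    rw [e3, this, Nat.add_mod_right, Nat.mod_eq_of_lt (xorFld_lt hR hR0 _ _ _)]
  refine ⟨v3, ?_⟩
  -- step 4
  have k4 : dsum g n' (fun i => (dig (R ^ i) 2 y2 + z i) % 2) = off2 g R n' y1 := by
    refine dsum_congr fun i hi => ?_
    rw [p1 i hi, dig_two hR, v3, dig_xorFld hR hR0 z y hi, xb_mod]
    omega
  have : b1 + off4 g R n n' z y2 = b + g ^ n := by unfold off4; rw [k4]; omega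
  rw [e4, this, Nat.add_mod_right, Nat.mod_eq_of_lt hb]

end flow

/-! ### the eight index maps -/

/-- rotation of the field of weight `w` and range `Q` by an offset read from the slower fields -/
def rotIdx (w Q : ℕ) (δ : ℕ → ℕ) (j : ℕ) : ℕ :=
  setDig w Q j ((dig w Q j + δ (j / (w * Q))) % Q)

theorem rotIdx_lt {w Q n j : ℕ} (δ : ℕ → ℕ) (hw : 0 < w) (hQ : 0 < Q) (h : w * Q ∣ n)
    (hj : j < n) : rotIdx w Q δ j < n := setDig_lt hw (Nat.mod_lt _ hQ) h hj

theorem step_lt {a A b B : ℕ} (h1 : a < A) (h2 : b < B) : a * B + b < A * B := by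
  have : (a + 1) * B ≤ A * B := Nat.mul_le_mul_right _ h1
  rw [Nat.add_mul, Nat.one_mul] at this
  omega

theorem step_div {a b B : ℕ} (h : b < B) : (a * B + b) / B = a := by
  rw [Nat.add_comm, Nat.add_mul_div_right _ _ (by omega), Nat.div_eq_of_lt h, Nat.zero_add]

theorem step_mod {a b B : ℕ} (h : b < B) : (a * B + b) % B = b := by
  rw [Nat.add_comm, Nat.add_mul_mod_self_right, Nat.mod_eq_of_lt h]

theorem dig_mk {w Q : ℕ} (p : ℕ) {y z : ℕ} (hy : y < Q) (hz : z < w) :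
    dig w Q ((p * Q + y) * w + z) = y := by rw [dig, step_div hz, step_mod hy]

theorem rotIdx_mk {w Q : ℕ} (δ : ℕ → ℕ) (p : ℕ) {y z : ℕ} (hy : y < Q) (hz : z < w) :
    rotIdx w Q δ ((p * Q + y) * w + z) = (p * Q + (y + δ p) % Q) * w + z := by
  have e : ((p * Q + y) * w + z) / (w * Q) = p := by
    rw [← Nat.div_div_eq_div_mul, step_div hz, step_div hy]
  rw [rotIdx, setDig, dig_mk p hy hz, e, step_mod hz]
  ring

/-- the flat index of the address `(p, a, g1, y, g2, b, z)` in the layout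
`[P] × [QA] × [G1] × [QY] × [G2] × [QA] × [Z]` -/
def h7 (QA G1 QY G2 Z p a g1 y g2 b z : ℕ) : ℕ :=
  (((((p * QA + a) * G1 + g1) * QY + y) * G2 + g2) * QA + b) * Z + z

section h7

variable {QA G1 QY G2 Z : ℕ} (p : ℕ) {a g1 y g2 b z : ℕ}

theorem swap_h7 (ha : a < QA) (h1 : g1 < G1) (hy : y < QY) (h2 : g2 < G2) (hb : b < QA)
    (hz : z < Z) :
    swapIdx QA (Z * QA * G2 * QY * G1) Z (h7 QA G1 QY G2 Z p a g1 y g2 b z) =
      h7 QA G1 QY G2 Z p b g1 y g2 a z := by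
  have h := swapIdx_mk p ha (step_lt (step_lt h1 hy) h2) hb hz
  have e : ∀ a b, h7 QA G1 QY G2 Z p a g1 y g2 b z =
      (((p * QA + a) * (G1 * QY * G2) + ((g1 * QY + y) * G2 + g2)) * QA + b) * Z + z :=
    fun a b => by unfold h7; ring
  rw [e, e, ← h]
  congr 1
  ring

theorem rotY_h7 (δ : ℕ → ℕ) (hy : y < QY) (h2 : g2 < G2) (hb : b < QA) (hz : z < Z) :
    rotIdx (Z * QA * G2) QY δ (h7 QA G1 QY G2 Z p a g1 y g2 b z) =
      h7 QA G1 QY G2 Z p a g1 ((y + δ ((p * QA + a) * G1 + g1)) % QY) g2 b z := by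
  have hw : (g2 * QA + b) * Z + z < Z * QA * G2 := by
    have := step_lt (step_lt h2 hb) hz
    rwa [show G2 * QA * Z = Z * QA * G2 by ring] at this
  have e : ∀ y, h7 QA G1 QY G2 Z p a g1 y g2 b z =
      (((p * QA + a) * G1 + g1) * QY + y) * (Z * QA * G2) + ((g2 * QA + b) * Z + z) :=
    fun y => by unfold h7; ring
  rw [e, e, rotIdx_mk δ _ hy hw]

theorem rotB_h7 (δ : ℕ → ℕ) (hb : b < QA) (hz : z < Z) :
    rotIdx Z QA δ (h7 QA G1 QY G2 Z p a g1 y g2 b z) =
      h7 QA G1 QY G2 Z p a g1 y g2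
        ((b + δ ((((p * QA + a) * G1 + g1) * QY + y) * G2 + g2)) % QA) z :=
  rotIdx_mk δ _ hb hz

end h7

/-- offset of the first rotation, read from the prefix of the target field -/
def d1 (g R n G1 : ℕ) (zf : ℕ → ℕ → ℕ) (pre : ℕ) : ℕ :=
  off1 g R n (zf (pre % G1)) (dig G1 (g ^ n) pre)

/-- offset of the second rotation, read from the prefix of the lower ancilla -/
def d2 (g R n G2 : ℕ) (pre : ℕ) : ℕ := off2 g R n (dig G2 (R ^ n) pre)

/-- offset of the third rotation -/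
def d3 (g R n G1 : ℕ) (zf : ℕ → ℕ → ℕ) (pre : ℕ) : ℕ :=
  off3 g R n (zf (pre % G1)) (dig G1 (g ^ n) pre)

/-- offset of the fourth rotation -/
def d4 (g R n G1 G2 : ℕ) (zf : ℕ → ℕ → ℕ) (pre : ℕ) : ℕ :=
  off4 g R n n (zf (dig (G2 * R ^ n) G1 pre)) (dig G2 (R ^ n) pre)

/-- the index map of the gadget; the mask `zf g1` is read from the field `G1` -/
def gadIdx (g R n G1 G2 Z : ℕ) (zf : ℕ → ℕ → ℕ) (j : ℕ) : ℕ :=
  rotIdx Z (g ^ n) (d4 g R n G1 G2 zf) <|
  swapIdx (g ^ n) (Z * g ^ n * G2 * R ^ n * G1) Z <|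
  rotIdx (Z * g ^ n * G2) (R ^ n) (d3 g R n G1 zf) <|
  swapIdx (g ^ n) (Z * g ^ n * G2 * R ^ n * G1) Z <|
  rotIdx Z (g ^ n) (d2 g R n G2) <|
  swapIdx (g ^ n) (Z * g ^ n * G2 * R ^ n * G1) Z <|
  rotIdx (Z * g ^ n * G2) (R ^ n) (d1 g R n G1 zf) <|
  swapIdx (g ^ n) (Z * g ^ n * G2 * R ^ n * G1) Z j

/-- On safe addresses the gadget xors the target field with the mask. -/
theorem gadIdx_h7 {g R n G1 G2 Z : ℕ} (zf : ℕ → ℕ → ℕ) (p : ℕ) {a g1 y g2 b z : ℕ} (hR : 2 ∣ R)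
    (hg : 0 < g) (hR0 : 0 < R) (ha : a < g ^ n) (h1 : g1 < G1) (hy : y < R ^ n) (h2 : g2 < G2)
    (hb : b < g ^ n) (hz : z < Z) (hzf : ∀ i < n, zf g1 i ≤ 1)
    (hys : ∀ i < n, dig (R ^ i) R y + 2 * g ≤ R) (hbs : ∀ i < n, dig (g ^ i) g b + 2 ≤ g) :
    gadIdx g R n G1 G2 Z zf (h7 (g ^ n) G1 (R ^ n) G2 Z p a g1 y g2 b z) =
      h7 (g ^ n) G1 (R ^ n) G2 Z p a g1 (xorFld R n (zf g1) y) g2 b z := by
  have hA : 0 < g ^ n := pow_pos hg n
  have hY : 0 < R ^ n := pow_pos hR0 n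
  have o1 : ∀ c < g ^ n, d1 g R n G1 zf ((p * g ^ n + c) * G1 + g1) = off1 g R n (zf g1) c :=
    fun c hc => by rw [d1, step_mod h1, dig_mk _ hc h1]
  have o3 : ∀ c < g ^ n, d3 g R n G1 zf ((p * g ^ n + c) * G1 + g1) = off3 g R n (zf g1) c :=
    fun c hc => by rw [d3, step_mod h1, dig_mk _ hc h1]
  have o2 : ∀ q, ∀ c < R ^ n, d2 g R n G2 ((q * R ^ n + c) * G2 + g2) = off2 g R n c :=
    fun q c hc => by rw [d2, dig_mk _ hc h2]
  have o4 : ∀ q, ∀ c < R ^ n, d4 g R n G1 G2 zf (((q * G1 + g1) * R ^ n + c) * G2 + g2) =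
      off4 g R n n (zf g1) c := fun q c hc => by
    rw [d4, dig_mk _ hc h2, dig, ← Nat.div_div_eq_div_mul, step_div h2, step_div hc, step_mod h1]
  obtain ⟨e1, e2⟩ := flow hR le_rfl hzf hy hb hys hbs hg hR0 rfl rfl rfl rfl
  rw [gadIdx, swap_h7 p ha h1 hy h2 hb hz, rotY_h7 p _ hy h2 ha hz, o1 b hb,
    swap_h7 p hb h1 (Nat.mod_lt _ hY) h2 ha hz, rotB_h7 p _ hb hz, o2 _ _ (Nat.mod_lt _ hY),
    swap_h7 p ha h1 (Nat.mod_lt _ hY) h2 (Nat.mod_lt _ hA) hz,
    rotY_h7 p _ (Nat.mod_lt _ hY) h2 ha hz, o3 _ (Nat.mod_lt _ hA),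
    swap_h7 p (Nat.mod_lt _ hA) h1 (Nat.mod_lt _ hY) h2 ha hz,
    rotB_h7 p _ (Nat.mod_lt _ hA) hz, o4 _ _ (Nat.mod_lt _ hY), e2, e1]

end Crest.Agent.X326.B3.Gad
end

-- ▼ part X326/B3/Gadget
section

/-!
Row 326 (S0503), part M3: the xor gadget on flat lists.

`xorL d L t s len l` and `flipL d L t len l` pull the list `l` back along the index map of the
gadget; on safe addresses this is the pull-back along `xorMap t s len`, resp. `flipMap t len`.
-/

set_option autoImplicit false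

namespace Crest.Agent.X326.B3

open Crest.Agent.X326.A Gad

namespace Gad

/-- the mask of a xor: bit `i` is the last bit of chunk `c + i` of the field above the target -/
def zx (R c : ℕ) (g1 i : ℕ) : ℕ := dig (R ^ (c + i)) 2 g1

/-- the mask of a flip -/
def zone (_g1 _i : ℕ) : ℕ := 1

/-- range of the field between the upper ancilla and the target -/
def G1' (L : Lay) (t len : ℕ) : ℕ := L.R ^ (L.F - t - len) * L.G1

/-- range of the field between the target and the lower ancilla -/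
def G2' (L : Lay) (t len : ℕ) : ℕ := L.g ^ (L.F - len) * L.G2 * L.R ^ t

/-- the index map of the gadget for the target chunks `t, …, t + len - 1` -/
def layIdx (L : Lay) (t len : ℕ) (zf : ℕ → ℕ → ℕ) : ℕ → ℕ :=
  gadIdx L.g L.R len (G1' L t len) (G2' L t len) L.Z zf

end Gad

/-- the bits of the chunks `t, …, t + len - 1` receive those of the chunks `s, …, s + len - 1` -/
def xorL {α : Type} (d : α) (L : Lay) (t s len : ℕ) (l : List α) : List α :=
  perm d (layIdx L t len (zx L.R (s - t - len))) l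

/-- the bits of the chunks `t, …, t + len - 1` are flipped -/
def flipL {α : Type} (d : α) (L : Lay) (t len : ℕ) (l : List α) : List α :=
  perm d (layIdx L t len zone) l

namespace Gad


theorem dsum_split (B m n : ℕ) (f : ℕ → ℕ) :
    dsum B (m + n) f = dsum B n (fun j => f (m + j)) * B ^ m + dsum B m f := by
  induction n with
  | zero => simp
  | succ n ih => rw [← add_assoc, dsum_succ, dsum_succ, ih, pow_add]; ring

theorem gadIdx_lt {g R n G1 G2 Z N j : ℕ} (zf : ℕ → ℕ → ℕ)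
    (h : Z * g ^ n * G2 * R ^ n * G1 * g ^ n ∣ N) (hj : j < N) :
    gadIdx g R n G1 G2 Z zf j < N := by
  have hN : 0 < N := by omega
  have h0 := Nat.pos_of_dvd_of_pos h hN
  have hA : 0 < g ^ n := Nat.pos_of_mul_pos_left h0
  have hH : 0 < Z * g ^ n * G2 * R ^ n * G1 := Nat.pos_of_mul_pos_right h0
  have h1 : 0 < Z * g ^ n * G2 * R ^ n := Nat.pos_of_mul_pos_right hH
  have hY : 0 < R ^ n := Nat.pos_of_mul_pos_left h1
  have hw : 0 < Z * g ^ n * G2 := Nat.pos_of_mul_pos_right h1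
  have hZ : 0 < Z := Nat.pos_of_mul_pos_right (Nat.pos_of_mul_pos_right hw)
  have d1 : Z * g ^ n ∣ Z * g ^ n * G2 * R ^ n * G1 := ⟨G2 * R ^ n * G1, by ring⟩
  have d2 : Z * g ^ n * G2 * R ^ n ∣ N := Dvd.dvd.trans ⟨G1 * g ^ n, by ring⟩ h
  have d3 : Z * g ^ n ∣ N := Dvd.dvd.trans (d1.mul_right _) h
  have s : ∀ j < N, swapIdx (g ^ n) (Z * g ^ n * G2 * R ^ n * G1) Z j < N :=
    fun j hj => swapIdx_lt hA hZ hH d1 h hj
  exact rotIdx_lt _ hZ hA d3 <| s _ <| rotIdx_lt _ hw hY d2 <| s _ <| rotIdx_lt _ hZ hA d3 <|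
    s _ <| rotIdx_lt _ hw hY d2 <| s _ hj

theorem lay_N (L : Lay) {t len : ℕ} (h : t + len ≤ L.F) :
    L.N = L.Z * L.g ^ len * G2' L t len * L.R ^ len * G1' L t len * L.g ^ len *
      (L.g ^ (L.F - len) * L.Pre) := by
  obtain ⟨u, hu⟩ := Nat.exists_eq_add_of_le h
  have e1 : L.F - t - len = u := by omega
  have e2 : L.F - len = t + u := by omega
  unfold Lay.N Lay.wh Lay.wy G1' G2'
  rw [e1, e2, hu]
  ring

theorem lay_dvd (L : Lay) {t len : ℕ} (h : t + len ≤ L.F) :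
    L.Z * L.g ^ len * G2' L t len * L.R ^ len * G1' L t len * L.g ^ len ∣ L.N :=
  ⟨_, lay_N L h⟩

theorem layIdx_lt (L : Lay) {t len j : ℕ} (zf : ℕ → ℕ → ℕ) (h : t + len ≤ L.F) (hj : j < L.N) :
    layIdx L t len zf j < L.N := gadIdx_lt zf (lay_dvd L h) hj

/-- the chunks of an address -/
def chunk (β : Base) (b : Bv) (j : ℕ) : ℕ := 2 * β.h j + (b j).val

/-- the content of the field between the upper ancilla and the target -/
def g1Of (L : Lay) (t len : ℕ) (β : Base) (b : Bv) : ℕ :=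
  β.hi % L.G1 * L.R ^ (L.F - t - len) +
    dsum L.R (L.F - t - len) (fun j => chunk β b (t + len + j))

/-- the content of the field between the target and the lower ancilla -/
def g2Of (L : Lay) (t len : ℕ) (β : Base) (b : Bv) : ℕ :=
  (dsum L.R t (chunk β b) * L.G2 + β.p) * L.g ^ (L.F - len) +
    dsum L.g (L.F - len) (fun j => β.a (len + j))

theorem addr_eq_h7 (L : Lay) {t len : ℕ} (h : t + len ≤ L.F) (β : Base) (b : Bv) :
    L.addr β b = h7 (L.g ^ len) (G1' L t len) (L.R ^ len) (G2' L t len) L.Z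
      (β.hi / L.G1 / L.g ^ len) (β.hi / L.G1 % L.g ^ len) (g1Of L t len β b)
      (dsum L.R len (fun j => chunk β b (t + j))) (g2Of L t len β b) (dsum L.g len β.a) β.z := by
  obtain ⟨u, hu⟩ := Nat.exists_eq_add_of_le h
  have e1 : L.F - t - len = u := by omega
  have e2 : L.F - len = t + u := by omega
  have a1 : dsum L.R L.F (chunk β b) = (dsum L.R u (fun j => chunk β b (t + len + j)) *
      L.R ^ len + dsum L.R len (fun j => chunk β b (t + j))) * L.R ^ t +
      dsum L.R t (chunk β b) := by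
    rw [hu, add_assoc, dsum_split, dsum_split]
    simp only [add_assoc]
  have a2 : dsum L.g L.F β.a =
      dsum L.g (t + u) (fun j => β.a (len + j)) * L.g ^ len + dsum L.g len β.a := by
    rw [show L.F = len + (t + u) by omega, dsum_split]
  have a3 : β.hi / L.G1 / L.g ^ len * L.g ^ len + β.hi / L.G1 % L.g ^ len = β.hi / L.G1 :=
    Nat.div_add_mod' _ _
  have a4 : β.hi = β.hi / L.G1 * L.G1 + β.hi % L.G1 := (Nat.div_add_mod' _ _).symm
  have a5 : L.addr β b = (β.hi * L.R ^ L.F + dsum L.R L.F (chunk β b)) * L.wy +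
      (β.p * L.g ^ L.F + dsum L.g L.F β.a) * L.Z + β.z := rfl
  rw [a5, h7, a3, a1, a2, g1Of, g2Of, G1', G2', Lay.wy, e1, e2]
  generalize β.hi / L.G1 = x at a4 ⊢
  generalize β.hi % L.G1 = x' at a4 ⊢
  rw [a4, hu]
  ring

section safe

variable {L : Lay} {β : Base}

theorem chunk_le (hβ : L.Safe β) (b : Bv) {j : ℕ} (hj : j < L.F) :
    chunk β b j + 2 * L.g + 1 ≤ L.R := by
  have h1 := hβ.h j hj
  have h2 : (b j).val < 2 := ZMod.val_lt _
  unfold chunk
  omega

theorem g1Of_lt (hβ : L.Safe β) {t len : ℕ} (h : t + len ≤ L.F) (b : Bv) :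
    g1Of L t len β b < G1' L t len := by
  have hG : 0 < L.G1 := by
    have h0 : 0 < L.G1 * L.g ^ L.F * L.Pre := Nat.lt_of_le_of_lt (Nat.zero_le _) hβ.hi
    exact Nat.pos_of_mul_pos_right (Nat.pos_of_mul_pos_right h0)
  rw [G1', mul_comm]
  refine step_lt (Nat.mod_lt _ hG) (dsum_lt fun j hj => ?_)
  have := chunk_le hβ b (j := t + len + j) (by omega)
  omega

theorem g2Of_lt (hβ : L.Safe β) {t len : ℕ} (h : t + len ≤ L.F) (b : Bv) :
    g2Of L t len β b < G2' L t len := by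
  rw [G2', show L.g ^ (L.F - len) * L.G2 * L.R ^ t = L.R ^ t * L.G2 * L.g ^ (L.F - len) by ring]
  refine step_lt (step_lt (dsum_lt fun j hj => ?_) hβ.p) (dsum_lt fun j hj => ?_)
  · have := chunk_le hβ b (j := j) (by omega)
    omega
  · have := hβ.a (len + j) (by omega)
    omega

/-- The gadget on a safe address: the selected bits of the target chunks change by the mask. -/
theorem layIdx_addr (hR : 2 ∣ L.R) (hβ : L.Safe β) {t len : ℕ} (h : t + len ≤ L.F)
    (zf : ℕ → ℕ → ℕ) (b b' : Bv) (hz : ∀ i < len, zf (g1Of L t len β b) i ≤ 1)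
    (h1 : ∀ k, ¬ (t ≤ k ∧ k < t + len) → b' k = b k)
    (h2 : ∀ i < len, b' (t + i) = b (t + i) + (zf (g1Of L t len β b) i : ZMod 2)) :
    layIdx L t len zf (L.addr β b) = L.addr β b' := by
  rcases Nat.eq_zero_or_pos len with rfl | hlen
  · have : b' = b := funext fun k => h1 k (by omega)
    subst this
    have hZ : β.z < L.Z := hβ.z
    rw [addr_eq_h7 L h, layIdx]
    unfold gadIdx
    simp only [pow_zero]
    have hy : dsum L.R 0 (fun j => chunk β b' (t + j)) < 1 := by simp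
    have hb : dsum L.g 0 β.a < 1 := by simp
    have ha : β.hi / L.G1 % 1 < 1 := Nat.mod_lt _ one_pos
    have e1 := g1Of_lt hβ h b'
    have e2 := g2Of_lt hβ h b'
    have m : ∀ x, x % 1 < 1 := fun x => Nat.mod_lt _ one_pos
    rw [swap_h7 _ ha e1 hy e2 hb hZ, rotY_h7 _ _ hy e2 ha hZ, swap_h7 _ hb e1 (m _) e2 ha hZ,
      rotB_h7 _ _ hb hZ, swap_h7 _ ha e1 (m _) e2 (m _) hZ, rotY_h7 _ _ (m _) e2 ha hZ,
      swap_h7 _ (m _) e1 (m _) e2 ha hZ, rotB_h7 _ _ (m _) hZ]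
    simp [Nat.mod_one]
  have hg : 0 < L.g := by have := hβ.a 0 (by omega); omega
  have hR0 : 0 < L.R := by have := chunk_le hβ b (j := 0) (by omega); omega
  have cy : ∀ i < len, chunk β b (t + i) < L.R := fun i hi => by
    have := chunk_le hβ b (j := t + i) (by omega); omega
  have ca : ∀ i < len, β.a i < L.g := fun i hi => by have := hβ.a i (by omega); omega
  have e1 : g1Of L t len β b' = g1Of L t len β b := by
    unfold g1Of chunk
    congr 1
    exact dsum_congr fun j _ => by rw [h1 _ (by omega)]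
  have e2 : g2Of L t len β b' = g2Of L t len β b := by
    have : dsum L.R t (chunk β b') = dsum L.R t (chunk β b) :=
      dsum_congr fun j hj => by unfold chunk; rw [h1 _ (by omega)]
    rw [g2Of, g2Of, this]
  rw [addr_eq_h7 L h, addr_eq_h7 L h β b', layIdx, e1, e2,
    gadIdx_h7 zf _ hR hg hR0 (Nat.mod_lt _ (pow_pos hg _)) (g1Of_lt hβ h b) (dsum_lt cy)
      (g2Of_lt hβ h b) (dsum_lt ca) hβ.z hz]
  · congr 1
    refine dsum_congr fun i hi => ?_
    rw [dig_dsum cy hi, xb, chunk, chunk, h2 i hi, ZMod.val_add, ZMod.val_natCast]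
    have : (b (t + i)).val < 2 := ZMod.val_lt _
    omega
  · intro i hi
    rw [dig_dsum cy hi]
    have := chunk_le hβ b (j := t + i) (by omega)
    omega
  · intro i hi
    rw [dig_dsum ca hi]
    have := hβ.a i (by omega)
    omega

theorem zx_g1Of (hR : 2 ∣ L.R) (hβ : L.Safe β) {t s len : ℕ} (hts : t + len ≤ s)
    (hs : s + len ≤ L.F) (b : Bv) {i : ℕ} (hi : i < len) :
    zx L.R (s - t - len) (g1Of L t len β b) i = (b (s + i)).val := by
  have hc : ∀ j < L.F - t - len, chunk β b (t + len + j) < L.R := fun j hj => by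
    have := chunk_le hβ b (j := t + len + j) (by omega); omega
  have hlt : s - t - len + i < L.F - t - len := by omega
  rw [zx, dig_two hR, g1Of, dig_eq_of_mod (w := L.R ^ (L.F - t - len))
    (by rw [← pow_succ]; exact pow_dvd_pow _ hlt) (Nat.mul_add_mod_self_right _ _ _),
    dig_dsum hc hlt, chunk, show t + len + (s - t - len + i) = s + i by omega]
  have : (b (s + i)).val < 2 := ZMod.val_lt _
  omega

end safe

end Gad

section spec

variable {α : Type} {L : Lay} {β : Base} {l : List α} {t s len : ℕ}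

@[simp] theorem length_xorL (d : α) (L : Lay) (t s len : ℕ) (l : List α) :
    (xorL d L t s len l).length = l.length := length_perm _ _ _

@[simp] theorem length_flipL (d : α) (L : Lay) (t len : ℕ) (l : List α) :
    (flipL d L t len l).length = l.length := length_perm _ _ _

/-- the gadget only permutes records (at all addresses) -/
theorem mem_xorL {d a : α} (hl : l.length = L.N) (ht : t + len ≤ L.F)
    (h : a ∈ xorL d L t s len l) : a ∈ l :=
  mem_perm (fun _ hj => by rw [hl] at hj ⊢; exact layIdx_lt L _ ht hj) h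

theorem mem_flipL {d a : α} (hl : l.length = L.N) (ht : t + len ≤ L.F)
    (h : a ∈ flipL d L t len l) : a ∈ l :=
  mem_perm (fun _ hj => by rw [hl] at hj ⊢; exact layIdx_lt L _ ht hj) h

theorem Gad.addr_lt (hβ : L.Safe β) (b : Bv) : L.addr β b < L.N := by
  have h1 : dsum L.R L.F (chunk β b) < L.R ^ L.F :=
    dsum_lt fun j hj => by have := chunk_le hβ b hj; omega
  have h2 : dsum L.g L.F β.a < L.g ^ L.F := dsum_lt fun j hj => by have := hβ.a j hj; omega
  have h3 := step_lt (step_lt (step_lt (step_lt hβ.hi h1) hβ.p) h2) hβ.z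
  have a5 : L.addr β b = (β.hi * L.R ^ L.F + dsum L.R L.F (chunk β b)) * L.wy +
      (β.p * L.g ^ L.F + dsum L.g L.F β.a) * L.Z + β.z := rfl
  rw [a5]
  unfold Lay.N Lay.wh Lay.wy
  convert h3 using 1 <;> ring

/-- specification of `xorL` on safe addresses -/
theorem getD_xorL (d d' : α) (hR : 2 ∣ L.R) (hl : l.length = L.N) (hts : t + len ≤ s)
    (hs : s + len ≤ L.F) (hβ : L.Safe β) (b : Bv) :
    (xorL d L t s len l).getD (L.addr β b) d' = l.getD (L.addr β (xorMap t s len b)) d := by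
  rw [xorL, getD_perm _ _ _ _ (by rw [hl]; exact Gad.addr_lt hβ b),
    layIdx_addr hR hβ (by omega) _ b (xorMap t s len b)]
  · intro i hi
    rw [zx_g1Of hR hβ hts hs b hi]
    have : (b (s + i)).val < 2 := ZMod.val_lt _
    omega
  · intro k hk
    rw [xorMap, if_neg hk]
  · intro i hi
    rw [zx_g1Of hR hβ hts hs b hi, xorMap, if_pos (by omega), ZMod.natCast_zmod_val,
      show t + i - t + s = s + i by omega]

/-- specification of `flipL` on safe addresses -/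
theorem getD_flipL (d d' : α) (hR : 2 ∣ L.R) (hl : l.length = L.N) (ht : t + len ≤ L.F)
    (hβ : L.Safe β) (b : Bv) :
    (flipL d L t len l).getD (L.addr β b) d' = l.getD (L.addr β (flipMap t len b)) d := by
  rw [flipL, getD_perm _ _ _ _ (by rw [hl]; exact Gad.addr_lt hβ b),
    layIdx_addr hR hβ ht _ b (flipMap t len b)]
  · intro i _
    exact le_rfl
  · intro k hk
    rw [flipMap, if_neg hk]
  · intro i hi
    rw [flipMap, if_pos (by omega), zone, Nat.cast_one]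

end spec

end Crest.Agent.X326.B3
end

-- ▼ part X326/B3/GadgetTC

/-!
Row 326 (S0503), part M3: the xor gadget in the time calculus (four interchanges by part A and
four controlled rotations).
-/

set_option autoImplicit false

namespace Crest.Agent.X326.B3

open Crest.Agent.Lib.PT Crest.Agent.X326.A

namespace Gad

section ptf

variable {γ : Type} [PTCode γ]

theorem ptf_dig {w q j : γ → ℕ} (hw : PTF w) (hq : PTF q) (hj : PTF j) :
    PTF (fun c => dig (w c) (q c) (j c)) := by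
  unfold dig
  fun_prop

theorem ptf_setDig {w q j v : γ → ℕ} (hw : PTF w) (hq : PTF q) (hj : PTF j) (hv : PTF v) :
    PTF (fun c => setDig (w c) (q c) (j c) (v c)) := by
  unfold setDig
  fun_prop

theorem ptf_dsum {B n : γ → ℕ} {f : γ → ℕ → ℕ} (hB : PTF B) (hn : PTU n)
    (hf : PTF (fun p : γ × Un => f p.1 p.2.val)) : PTF (fun c => dsum (B c) (n c) (f c)) := by
  have hm : PTU (fun p : γ × ℕ => min p.2 (n p.1)) := PTF.natMinUn PTF.snd (hn.comp PTF.fst)
  have h1 : PTF (fun p : γ × ℕ => f p.1 (min p.2 (n p.1))) :=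
    PTF.comp (f := fun p : γ × ℕ => (p.1, Un.mk (min p.2 (n p.1)))) hf (PTF.prodMk PTF.fst hm)
  have h2 : PTF (fun p : γ × ℕ => B p.1 ^ min p.2 (n p.1)) := PTF.natPow (hB.comp PTF.fst) hm
  refine (PTF.natSumRange (f := fun c i => f c (min i (n c)) * B c ^ min i (n c)) hn
    (PTF.natMul h1 h2)).of_eq fun c => ?_
  exact Finset.sum_congr rfl fun i hi => by rw [min_eq_left (Finset.mem_range.1 hi).le]

/-- digit `i` (unary) of a number -/
theorem ptf_digPow {B q y : γ → ℕ} (hB : PTF B) (hq : PTF q) (hy : PTF y) :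
    PTF (fun p : γ × Un => dig (B p.1 ^ p.2.val) (q p.1) (y p.1)) :=
  ptf_dig (PTF.natPow (hB.comp PTF.fst) (PTU.val PTF.snd)) (hq.comp PTF.fst) (hy.comp PTF.fst)

variable {g R n y b : γ → ℕ} {z : γ → ℕ → ℕ}

theorem ptf_off1 (hg : PTF g) (hR : PTF R) (hn : PTU n)
    (hz : PTF (fun p : γ × Un => z p.1 p.2.val)) (hb : PTF b) :
    PTF (fun c => off1 (g c) (R c) (n c) (z c) (b c)) :=
  ptf_dsum hR hn (PTF.natMul (PTF.natMul (PTF.const 2) hz) (ptf_digPow hg hg hb))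

theorem ptf_off2 (hg : PTF g) (hR : PTF R) (hn : PTU n) (hy : PTF y) :
    PTF (fun c => off2 (g c) (R c) (n c) (y c)) :=
  ptf_dsum hg hn (ptf_digPow hR (PTF.const 2) hy)

theorem ptf_off3 (hg : PTF g) (hR : PTF R) (hn : PTU n)
    (hz : PTF (fun p : γ × Un => z p.1 p.2.val)) (hb : PTF b) :
    PTF (fun c => off3 (g c) (R c) (n c) (z c) (b c)) :=
  PTF.natAdd (ptf_dsum hR hn hz) (PTF.natSub (PTF.natPow hR hn) (ptf_off1 hg hR hn hz hb))

theorem ptf_off4 (hg : PTF g) (hR : PTF R) (hn : PTU n)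
    (hz : PTF (fun p : γ × Un => z p.1 p.2.val)) (hy : PTF y) :
    PTF (fun c => off4 (g c) (R c) (n c) (n c) (z c) (y c)) :=
  PTF.natSub (PTF.natPow hg hn) (ptf_dsum hg hn
    (PTF.natMod (PTF.natAdd (ptf_digPow hR (PTF.const 2) hy) hz) (PTF.const 2)))

end ptf

/-- a controlled rotation with polynomial-time parameters -/
theorem tc_rot {γ : Type} [PTCode γ] {w Q : γ → ℕ} {δ : γ → ℕ → ℕ} (hw : PTF w) (hQ : PTF Q)
    (hδ : PTF₂ δ) : ∃ k : ℕ, ∀ {ι α : Type} [PTCode ι] [PTCode α] {P : ι → Prop} {T : ι → ℕ}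
      {c : ι → γ} (d : α) {l : ι → List α}, TC P T c → TC P T l →
      (∀ x, P x → 0 < w (c x) ∧ 0 < Q (c x) ∧ w (c x) * Q (c x) ∣ (l x).length) →
      Bud P T (fun x => ovh k (l x).length (sz (c x) + Nat.size (l x).length)) →
      TC P T (fun x => perm d (Gad.rotIdx (w (c x)) (Q (c x)) (δ (c x))) (l x)) := by
  have hw' : PTF (fun p : γ × ℕ => w p.1) := hw.comp PTF.fst
  have hQ' : PTF (fun p : γ × ℕ => Q p.1) := hQ.comp PTF.fst
  have h1 : PTF (fun p : γ × ℕ => δ p.1 (p.2 / (w p.1 * Q p.1))) :=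
    PTF.comp₂ hδ PTF.fst (PTF.natDiv PTF.snd (PTF.natMul hw' hQ'))
  have h2 : PTF (fun p : γ × ℕ => dig (w p.1) (Q p.1) p.2) := ptf_dig hw' hQ' PTF.snd
  have hsrc : PTF₂ (fun c j => A.rotIdx (w c) (Q c) (δ c) j) :=
    ptf_setDig hw' hQ' PTF.snd (PTF.natMod (PTF.natAdd h2 h1) hQ')
  have hcol : PTF₂ (fun c j =>
      addCol (w c) (Q c) (fun j => δ c (j / (w c * Q c))) (fun _ => 0) j) :=
    PTF.natAdd (PTF.const (2 * 0)) (PTF.natDiv (PTF.natAdd h2 (PTF.natMod h1 hQ')) hQ')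
  obtain ⟨k, hk⟩ := tc_perm hcol hsrc
  exact ⟨k, fun d _ hc hl h hB => hk 2 d hc hl (fun x hx =>
    ⟨colMono_rotIdx _ (h x hx).1 (h x hx).2.1,
      idxPerm_rotIdx _ (h x hx).1 (h x hx).2.1 (h x hx).2.2⟩) hB⟩

/-- positivity and divisibility facts of the seven-field layout -/
structure Geo7 (QA G1 QY G2 Z N : ℕ) : Prop where
  geo : Geo QA (Z * QA * G2 * QY * G1) Z N
  hw : 0 < Z * QA * G2
  hY : 0 < QY
  dY : Z * QA * G2 * QY ∣ N
  dB : Z * QA ∣ N

theorem geo7 {QA G1 QY G2 Z N : ℕ} (h : Z * QA * G2 * QY * G1 * QA ∣ N) (hN : 0 < N) :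
    Geo7 QA G1 QY G2 Z N := by
  have h0 := Nat.pos_of_dvd_of_pos h hN
  have hA : 0 < QA := Nat.pos_of_mul_pos_left h0
  have hH : 0 < Z * QA * G2 * QY * G1 := Nat.pos_of_mul_pos_right h0
  have h1 : 0 < Z * QA * G2 * QY := Nat.pos_of_mul_pos_right hH
  have hw : 0 < Z * QA * G2 := Nat.pos_of_mul_pos_right h1
  have d1 : Z * QA ∣ Z * QA * G2 * QY * G1 := ⟨G2 * QY * G1, by ring⟩
  exact ⟨⟨hA, Nat.pos_of_mul_pos_right (Nat.pos_of_mul_pos_right hw), hH, d1, h⟩, hw,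
    Nat.pos_of_mul_pos_left h1, Dvd.dvd.trans ⟨G1 * QA, by ring⟩ h,
    Dvd.dvd.trans (d1.mul_right _) h⟩

/-- the gadget as a composite of eight pull-backs -/
theorem perm_gadIdx {α : Type} (d : α) {g R n G1 G2 Z : ℕ} (zf : ℕ → ℕ → ℕ) (l : List α)
    (h : Geo7 (g ^ n) G1 (R ^ n) G2 Z l.length) :
    swapL d (g ^ n) (Z * g ^ n * G2 * R ^ n * G1) Z
      (perm d (Gad.rotIdx (Z * g ^ n * G2) (R ^ n) (d1 g R n G1 zf))
      (swapL d (g ^ n) (Z * g ^ n * G2 * R ^ n * G1) Z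
      (perm d (Gad.rotIdx Z (g ^ n) (d2 g R n G2))
      (swapL d (g ^ n) (Z * g ^ n * G2 * R ^ n * G1) Z
      (perm d (Gad.rotIdx (Z * g ^ n * G2) (R ^ n) (d3 g R n G1 zf))
      (swapL d (g ^ n) (Z * g ^ n * G2 * R ^ n * G1) Z
      (perm d (Gad.rotIdx Z (g ^ n) (d4 g R n G1 G2 zf)) l))))))) =
    perm d (gadIdx g R n G1 G2 Z zf) l := by
  have s : ∀ j < l.length, swapIdx (g ^ n) (Z * g ^ n * G2 * R ^ n * G1) Z j < l.length :=
    fun j hj => h.geo.swapIdx_lt hj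
  have rY : ∀ δ, ∀ j < l.length, Gad.rotIdx (Z * g ^ n * G2) (R ^ n) δ j < l.length :=
    fun δ j hj => rotIdx_lt δ h.hw h.hY h.dY hj
  have rB : ∀ δ, ∀ j < l.length, Gad.rotIdx Z (g ^ n) δ j < l.length :=
    fun δ j hj => rotIdx_lt δ h.geo.hD h.geo.hq h.dB hj
  unfold swapL
  rw [perm_perm d l s, perm_perm d l (rY _), perm_perm d l s, perm_perm d l (rB _),
    perm_perm d l s, perm_perm d l (rY _), perm_perm d l s]
  rfl

/-- the gadget with polynomial-time parameters -/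
theorem tc_gad {τ : ℝ} (hA : SwapStatement τ) {γ : Type} [PTCode γ] {g R n G1 G2 Z : γ → ℕ}
    {zf : γ → ℕ → ℕ → ℕ} (hg : PTF g) (hR : PTF R) (hn : PTU n) (h1 : PTF G1) (h2 : PTF G2)
    (hZ : PTF Z) (hz : PTF (fun p : (γ × ℕ) × Un => zf p.1.1 p.1.2 p.2.val)) :
    ∃ k : ℕ, ∀ {ι α : Type} [PTCode ι] [PTCode α] {P : ι → Prop} {T : ι → ℕ}
      {c : ι → γ} (B : ι → ℕ) (d : α) {l : ι → List α}, TC P T c → TC P T l →
      Small P T (fun x => sz (c x)) →
      (∀ x, P x → Geo7 (g (c x) ^ n (c x)) (G1 (c x)) (R (c x) ^ n (c x)) (G2 (c x)) (Z (c x))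
        (l x).length ∧ ∀ r ∈ l x, sz r ≤ B x) →
      Bud P T (fun x => (l x).length * (B x + 1) * pw τ (Nat.size (g (c x) ^ n (c x)) + 1)) →
      Bud P T (fun x => ovh k (l x).length (sz (c x) + Nat.size (l x).length)) →
      TC P T (fun x => perm d (gadIdx (g (c x)) (R (c x)) (n (c x)) (G1 (c x)) (G2 (c x))
        (Z (c x)) (zf (c x))) (l x)) := by
  have hQA : PTF (fun c => g c ^ n c) := PTF.natPow hg hn
  have hQY : PTF (fun c => R c ^ n c) := PTF.natPow hR hn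
  have hwY : PTF (fun c => Z c * g c ^ n c * G2 c) := PTF.natMul (PTF.natMul hZ hQA) h2
  have hwH : PTF (fun c => Z c * g c ^ n c * G2 c * R c ^ n c * G1 c) :=
    PTF.natMul (PTF.natMul hwY hQY) h1
  have f1 : ∀ {u : γ → ℕ}, PTF u → PTF (fun p : γ × ℕ => u p.1) := fun hu => hu.comp PTF.fst
  have hn' : PTU (fun p : γ × ℕ => n p.1) := hn.comp PTF.fst
  have zz : ∀ {u : γ × ℕ → ℕ}, PTF u →
      PTF (fun q : (γ × ℕ) × Un => zf q.1.1 (u q.1) q.2.val) := fun {u} hu =>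
    PTF.comp (f := fun q : (γ × ℕ) × Un => ((q.1.1, u q.1), q.2)) hz
      (PTF.prodMk (PTF.prodMk (PTF.fst.comp PTF.fst) (hu.comp PTF.fst)) PTF.snd)
  have e1 : PTF₂ (fun c pre => d1 (g c) (R c) (n c) (G1 c) (zf c) pre) :=
    ptf_off1 (z := fun p : γ × ℕ => zf p.1 (p.2 % G1 p.1)) (f1 hg) (f1 hR) hn'
      (zz (PTF.natMod PTF.snd (f1 h1))) (ptf_dig (f1 h1) (f1 hQA) PTF.snd)
  have e2 : PTF₂ (fun c pre => d2 (g c) (R c) (n c) (G2 c) pre) :=
    ptf_off2 (f1 hg) (f1 hR) hn' (ptf_dig (f1 h2) (f1 hQY) PTF.snd)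
  have e3 : PTF₂ (fun c pre => d3 (g c) (R c) (n c) (G1 c) (zf c) pre) :=
    ptf_off3 (z := fun p : γ × ℕ => zf p.1 (p.2 % G1 p.1)) (f1 hg) (f1 hR) hn'
      (zz (PTF.natMod PTF.snd (f1 h1))) (ptf_dig (f1 h1) (f1 hQA) PTF.snd)
  have e4 : PTF₂ (fun c pre => d4 (g c) (R c) (n c) (G1 c) (G2 c) (zf c) pre) :=
    ptf_off4 (z := fun p : γ × ℕ => zf p.1 (dig (G2 p.1 * R p.1 ^ n p.1) (G1 p.1) p.2))
      (f1 hg) (f1 hR) hn' (zz (ptf_dig (PTF.natMul (f1 h2) (f1 hQY)) (f1 h1) PTF.snd))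
      (ptf_dig (f1 h2) (f1 hQY) PTF.snd)
  obtain ⟨k0, hk0⟩ := hA
  obtain ⟨k1, hk1⟩ := tc_rot hwY hQY e1
  obtain ⟨k2, hk2⟩ := tc_rot hZ hQA e2
  obtain ⟨k3, hk3⟩ := tc_rot hwY hQY e3
  obtain ⟨k4, hk4⟩ := tc_rot hZ hQA e4
  refine ⟨k0 + k1 + k2 + k3 + k4, fun {ι α} _ _ {P T c} B d {l} hc hl hs hP hB hO => ?_⟩
  -- the invariant of the intermediate lists
  let J : (ι → List α) → Prop := fun l' => TC P T l' ∧
    ∀ x, P x → (l' x).length = (l x).length ∧ ∀ r ∈ l' x, sz r ≤ B x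
  have hO' : ∀ k ≤ k0 + k1 + k2 + k3 + k4, ∀ l', J l' →
      Bud P T (fun x => ovh k (l' x).length (sz (c x) + Nat.size (l' x).length)) :=
    fun k hk l' h => hO.mono fun x hx => by
      rw [(h.2 x hx).1]; exact ovh_mono hk le_rfl le_rfl
  have keep : ∀ (σ : ι → ℕ → ℕ) (l' : ι → List α), J l' →
      (∀ x, P x → ∀ j < (l x).length, σ x j < (l x).length) →
      ∀ x, P x → (perm d (σ x) (l' x)).length = (l x).length ∧
        ∀ r ∈ perm d (σ x) (l' x), sz r ≤ B x := fun σ l' h hσ x hx =>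
    ⟨by rw [length_perm, (h.2 x hx).1], fun r hr => (h.2 x hx).2 r
      (mem_perm (by rw [(h.2 x hx).1]; exact hσ x hx) hr)⟩
  have sw : ∀ l', J l' → J (fun x => swapL d (g (c x) ^ n (c x))
      (Z (c x) * g (c x) ^ n (c x) * G2 (c x) * R (c x) ^ n (c x) * G1 (c x)) (Z (c x))
      (l' x)) := fun l' h => by
    refine ⟨hk0 ι α P T _ _ _ B d l' (TC.ptf hQA hc hs) (TC.ptf hwH hc hs) (TC.ptf hZ hc hs) h.1
      (fun x hx => ⟨by rw [(h.2 x hx).1]; exact (hP x hx).1.geo, (h.2 x hx).2⟩) ?_,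
      keep _ l' h fun x hx j hj => (hP x hx).1.geo.swapIdx_lt hj⟩
    refine (hB.add (hO' k0 (by omega) l' h)).mono fun x hx => ?_
    rw [(h.2 x hx).1]
    exact Nat.add_le_add_left (ovh_mono le_rfl le_rfl (Nat.le_add_left _ _)) _
  have kY : ∀ (δ : ι → ℕ → ℕ) x, P x → ∀ j < (l x).length,
      Gad.rotIdx (Z (c x) * g (c x) ^ n (c x) * G2 (c x)) (R (c x) ^ n (c x)) (δ x) j <
        (l x).length := fun δ x hx j hj =>
    rotIdx_lt _ (hP x hx).1.hw (hP x hx).1.hY (hP x hx).1.dY hj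
  have kB : ∀ (δ : ι → ℕ → ℕ) x, P x → ∀ j < (l x).length,
      Gad.rotIdx (Z (c x)) (g (c x) ^ n (c x)) (δ x) j < (l x).length := fun δ x hx j hj =>
    rotIdx_lt _ (hP x hx).1.geo.hD (hP x hx).1.geo.hq (hP x hx).1.dB hj
  have gY : ∀ l', J l' → ∀ x, P x → 0 < Z (c x) * g (c x) ^ n (c x) * G2 (c x) ∧
      0 < R (c x) ^ n (c x) ∧
      Z (c x) * g (c x) ^ n (c x) * G2 (c x) * R (c x) ^ n (c x) ∣ (l' x).length :=
    fun l' h x hx => ⟨(hP x hx).1.hw, (hP x hx).1.hY, by rw [(h.2 x hx).1]; exact (hP x hx).1.dY⟩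
  have gB : ∀ l', J l' → ∀ x, P x → 0 < Z (c x) ∧ 0 < g (c x) ^ n (c x) ∧
      Z (c x) * g (c x) ^ n (c x) ∣ (l' x).length :=
    fun l' h x hx => ⟨(hP x hx).1.geo.hD, (hP x hx).1.geo.hq,
      by rw [(h.2 x hx).1]; exact (hP x hx).1.dB⟩
  have j0 : J l := ⟨hl, fun x hx => ⟨rfl, (hP x hx).2⟩⟩
  have j1 : J _ := sw _ ⟨hk4 d hc j0.1 (gB _ j0) (hO' k4 (by omega) _ j0), keep _ _ j0 (kB _)⟩
  have j2 : J _ := sw _ ⟨hk3 d hc j1.1 (gY _ j1) (hO' k3 (by omega) _ j1), keep _ _ j1 (kY _)⟩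
  have j3 : J _ := sw _ ⟨hk2 d hc j2.1 (gB _ j2) (hO' k2 (by omega) _ j2), keep _ _ j2 (kB _)⟩
  have j4 : J _ := sw _ ⟨hk1 d hc j3.1 (gY _ j3) (hO' k1 (by omega) _ j3), keep _ _ j3 (kY _)⟩
  exact j4.1.congr fun x hx => perm_gadIdx d _ _ (hP x hx).1

/-- the parameters `((g, R, G1, G2, Z), (F, t, s, len))` of a gadget call -/
abbrev Ctx : Type := (ℕ × ℕ × ℕ × ℕ × ℕ) × (Un × Un × Un × Un)

theorem size_pow_le (g : ℕ) {n : ℕ} (hn : 0 < n) : Nat.size (g ^ n) ≤ n * Nat.size g := by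
  rw [Nat.size_le, mul_comm, pow_mul]
  exact Nat.pow_lt_pow_left (Nat.lt_size_self g) hn.ne'

/-- all parameters of a layout are bounded by the number of addresses -/
theorem lay_bounds (L : Lay) (hN : 0 < L.N) (hg : 2 ≤ L.g) (hF : 0 < L.F) :
    L.g ≤ L.N ∧ L.R ≤ L.N ∧ L.G1 ≤ L.N ∧ L.G2 ≤ L.N ∧ L.Z ≤ L.N ∧ L.F ≤ Nat.size L.N := by
  have d0 : L.wh ∣ L.N := ⟨L.g ^ L.F * L.Pre, by unfold Lay.N; ring⟩
  have d1 : L.wy ∣ L.wh := ⟨L.R ^ L.F * L.G1, by unfold Lay.wh; ring⟩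
  have dg : L.g ^ L.F ∣ L.N := ⟨L.wh * L.Pre, by unfold Lay.N; ring⟩
  have dR : L.R ^ L.F ∣ L.N := Dvd.dvd.trans ⟨L.wy * L.G1, by unfold Lay.wh; ring⟩ d0
  refine ⟨Nat.le_of_dvd hN ((dvd_pow_self _ hF.ne').trans dg),
    Nat.le_of_dvd hN ((dvd_pow_self _ hF.ne').trans dR),
    Nat.le_of_dvd hN (Dvd.dvd.trans ⟨L.wy * L.R ^ L.F, by unfold Lay.wh; ring⟩ d0),
    Nat.le_of_dvd hN (Dvd.dvd.trans ⟨L.Z * L.g ^ L.F, by unfold Lay.wy; ring⟩ (d1.trans d0)),
    Nat.le_of_dvd hN (Dvd.dvd.trans ⟨L.g ^ L.F * L.G2, by unfold Lay.wy; ring⟩ (d1.trans d0)),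
    (Nat.lt_size.2 ((Nat.pow_le_pow_left hg _).trans (Nat.le_of_dvd hN dg))).le⟩

/-- the gadget on a layout, for a polynomial-time mask -/
theorem tc_lay {τ : ℝ} (hτ : 0 ≤ τ) (hA : SwapStatement τ) {zf : Ctx → ℕ → ℕ → ℕ}
    (hz : PTF (fun p : (Ctx × ℕ) × Un => zf p.1.1 p.1.2 p.2.val)) :
    ∃ k : ℕ, ∀ (ι α : Type) [PTCode ι] [PTCode α] (P : ι → Prop) (T : ι → ℕ) (L : ι → Lay)
      (t s len B : ι → ℕ) (d : α) (l : ι → List α),
      TC P T (fun x => (L x).g) → TC P T (fun x => (L x).F) → TC P T (fun x => (L x).G1) →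
      TC P T (fun x => (L x).R) → TC P T (fun x => (L x).G2) → TC P T (fun x => (L x).Z) →
      TC P T t → TC P T s → TC P T len → TC P T l →
      (∀ x, P x → (l x).length = (L x).N ∧ 0 < (L x).N ∧ 2 ≤ (L x).g ∧ 0 < len x ∧
        t x + len x ≤ (L x).F ∧ s x ≤ (L x).F ∧ ∀ r ∈ l x, sz r ≤ B x) →
      Bud P T (fun x => (l x).length * (B x + 1) * pw τ (len x * Nat.size (L x).g + 1) +
        (l x).length * (Nat.size (l x).length + 1) ^ k) →
      TC P T (fun x => perm d (layIdx (L x) (t x) (len x)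
        (zf (((L x).g, (L x).R, (L x).G1, (L x).G2, (L x).Z),
          (Un.mk (L x).F, Un.mk (t x), Un.mk (s x), Un.mk (len x))))) (l x)) := by
  have uF : PTU (fun c : Ctx => c.2.1.val) := PTU.val (by fun_prop)
  have ut : PTU (fun c : Ctx => c.2.2.1.val) := PTU.val (by fun_prop)
  have ul : PTU (fun c : Ctx => c.2.2.2.2.val) := PTU.val (by fun_prop)
  have pg : PTF (fun c : Ctx => c.1.1) := by fun_prop
  have pR : PTF (fun c : Ctx => c.1.2.1) := by fun_prop
  obtain ⟨k, hk⟩ := tc_gad hA (γ := Ctx) (zf := zf)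
    (G1 := fun c => c.1.2.1 ^ (c.2.1.val - c.2.2.1.val - c.2.2.2.2.val) * c.1.2.2.1)
    (G2 := fun c => c.1.1 ^ (c.2.1.val - c.2.2.2.2.val) * c.1.2.2.2.1 * c.1.2.1 ^ c.2.2.1.val)
    (Z := fun c => c.1.2.2.2.2) pg pR ul
    (PTF.natMul (PTF.natPow pR ((uF.sub ut).sub ul)) (by fun_prop))
    (PTF.natMul (PTF.natMul (PTF.natPow pg (uF.sub ul)) (by fun_prop)) (PTF.natPow pR ut))
    (by fun_prop) hz
  refine ⟨k, fun ι α _ _ P T L t s len B d l hg hF h1 hR h2 hZ ht hs hlen hl hP hB => ?_⟩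
  have bd : ∀ x, P x → _ := fun x hx => lay_bounds (L x) (hP x hx).2.1 (hP x hx).2.2.1
    (by have := hP x hx; omega)
  have bN : Bud P T (fun x => (l x).length) := (TU.length hl).bud
  have sN : Small P T (fun x => Nat.size (l x).length) := Small.size bN
  have un : ∀ {u : ι → ℕ}, TC P T u → (∀ x, P x → u x ≤ (L x).F) → TU P T u := fun hu h =>
    TU.ofNat hu (sN.bud.mono fun x hx => by
      rw [(hP x hx).1]; exact (h x hx).trans (bd x hx).2.2.2.2.2)
  have hc : TC P T (fun x => ((((L x).g, (L x).R, (L x).G1, (L x).G2, (L x).Z),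
      (Un.mk (L x).F, Un.mk (t x), Un.mk (s x), Un.mk (len x))) : Ctx)) :=
    (hg.prodMk (hR.prodMk (h1.prodMk (h2.prodMk hZ)))).prodMk
      (TC.prodMk (un hF fun _ _ => le_rfl) (TC.prodMk (un ht fun x hx => by have := hP x hx; omega)
        (TC.prodMk (un hs fun x hx => (hP x hx).2.2.2.2.2.1)
          (un hlen fun x hx => by have := hP x hx; omega))))
  have hsz : ∀ x, P x → sz ((((L x).g, (L x).R, (L x).G1, (L x).G2, (L x).Z),
      (Un.mk (L x).F, Un.mk (t x), Un.mk (s x), Un.mk (len x))) : Ctx) ≤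
      25 * Nat.size (l x).length + 12 := fun x hx => by
    obtain ⟨b1, b2, b3, b4, b5, b6⟩ := bd x hx
    obtain ⟨e, -, -, -, c1, c2, -⟩ := hP x hx
    have a1 := Nat.size_le_size b1
    have a2 := Nat.size_le_size b2
    have a3 := Nat.size_le_size b3
    have a4 := Nat.size_le_size b4
    have a5 := Nat.size_le_size b5
    simp only [sz_prod, sz_nat, sz_un, e]
    omega
  have g7 : ∀ x, P x → Geo7 ((L x).g ^ len x) (G1' (L x) (t x) (len x)) ((L x).R ^ len x)
      (G2' (L x) (t x) (len x)) (L x).Z (l x).length := fun x hx => by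
    refine geo7 ?_ (by rw [(hP x hx).1]; exact (hP x hx).2.1)
    rw [(hP x hx).1]
    exact lay_dvd (L x) (hP x hx).2.2.2.2.1
  have hB1 : Bud P T (fun x =>
      (l x).length * (B x + 1) * pw τ (Nat.size ((L x).g ^ len x) + 1)) :=
    hB.mono fun x hx => le_trans (Nat.mul_le_mul_left _ (pw_mono hτ (Nat.succ_le_succ
      (size_pow_le _ (hP x hx).2.2.2.1)))) (Nat.le_add_right _ _)
  have hB2 : Bud P T (fun x => ovh k (l x).length (Nat.size (l x).length)) :=
    hB.mono fun x _ => Nat.le_add_left _ _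
  have key := hk B d hc hl
    (sN.of_le_pow 25 1 fun x hx => by have := hsz x hx; rw [pow_one]; omega)
    (fun x hx => ⟨g7 x hx, (hP x hx).2.2.2.2.2.2⟩) hB1
    (Bud.ovh_of_le hB2 1 26 12 le_rfl (fun x _ => by omega)
      fun x hx _ => by have := hsz x hx; omega)
  dsimp only at key
  exact key

end Gad

/-- The cost of the gadget: four interchanges of range `g ^ len` and four rotations
(`B` is only a bound for the sizes of the records, not an input). -/
def GadStatement (τ : ℝ) : Prop :=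
  ∃ k : ℕ, ∀ (ι α : Type) [PTCode ι] [PTCode α] (P : ι → Prop) (T : ι → ℕ) (L : ι → Lay)
    (t s len B : ι → ℕ) (d : α) (l : ι → List α),
    TC P T (fun x => (L x).g) → TC P T (fun x => (L x).F) → TC P T (fun x => (L x).G1) →
    TC P T (fun x => (L x).R) → TC P T (fun x => (L x).G2) → TC P T (fun x => (L x).Z) →
    TC P T t → TC P T s → TC P T len → TC P T l →
    (∀ x, P x → (l x).length = (L x).N ∧ 0 < (L x).N ∧ 2 ≤ (L x).g ∧ 0 < len x ∧
      t x + len x ≤ (L x).F ∧ s x ≤ (L x).F ∧ ∀ r ∈ l x, sz r ≤ B x) →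
    Bud P T (fun x => (l x).length * (B x + 1) * pw τ (len x * Nat.size (L x).g + 1) +
      (l x).length * (Nat.size (l x).length + 1) ^ k) →
    TC P T (fun x => xorL d (L x) (t x) (s x) (len x) (l x)) ∧
      TC P T (fun x => flipL d (L x) (t x) (len x) (l x))

theorem gad_of_swap {τ : ℝ} (hτ : 0 ≤ τ) (hA : SwapStatement τ) : GadStatement τ := by
  obtain ⟨k1, h1⟩ := Gad.tc_lay hτ hA
    (zf := fun c => Gad.zx c.1.2.1 (c.2.2.2.1.val - c.2.2.1.val - c.2.2.2.2.val))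
    (Gad.ptf_dig (PTF.natPow (by fun_prop) (PTU.add (PTU.sub (PTU.sub (PTU.val (by fun_prop))
      (PTU.val (by fun_prop))) (PTU.val (by fun_prop))) (PTU.val PTF.snd))) (PTF.const 2)
      (by fun_prop))
  obtain ⟨k2, h2⟩ := Gad.tc_lay hτ hA (zf := fun _ => Gad.zone) (PTF.const 1)
  refine ⟨k1 + k2, fun ι α _ _ P T L t s len B d l hg hF hG1 hR hG2 hZ ht hs hlen hl hP hB => ?_⟩
  have hB' : ∀ k ≤ k1 + k2, Bud P T (fun x =>
      (l x).length * (B x + 1) * pw τ (len x * Nat.size (L x).g + 1) +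
      (l x).length * (Nat.size (l x).length + 1) ^ k) := fun k hk => hB.mono fun x _ =>
    Nat.add_le_add_left (ovh_mono hk le_rfl le_rfl) _
  exact ⟨h1 ι α P T L t s len B d l hg hF hG1 hR hG2 hZ ht hs hlen hl hP (hB' _ (by omega)),
    h2 ι α P T L t s len B d l hg hF hG1 hR hG2 hZ ht hs hlen hl hP (hB' _ (by omega))⟩

end Crest.Agent.X326.B3
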