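import Crest.Agent.X326.B3.Partner
import Crest.Agent.X326.TC.Deal
import Crest.Agent.X326.M4.Rec

/-!
Row 326 (S0503), part M3: the `W` streams dealt from the suffix of the layout, address
arithmetic of the flat layout, and the list version of the instruction `add`.
-/

set_option autoImplicit false

namespace Crest.Agent.X326.B3

open Crest.Agent.X326.M4

/-! ### dealing and interleaving -/

theorem mul_add_lt {a A b B : ℕ} (h1 : a < A) (h2 : b < B) : a * B + b < A * B := by
  have : (a + 1) * B ≤ A * B := Nat.mul_le_mul_right _ h1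
  rw [Nat.add_mul, Nat.one_mul] at this
  omega



section Deal

variable {α : Type}

theorem getD_mem {l : List α} {j : ℕ} (d : α) (hj : j < l.length) : l.getD j d ∈ l := by
  rw [List.getD_eq_getElem _ _ hj]; exact List.getElem_mem hj

/-- the streams in the order `ρ 0, …, ρ (W - 1)` -/
def pick {W : ℕ} (ρ : Fin W → Fin W) (ws : List (List α)) : List (List α) :=
  (List.finRange W).map fun w => ws.getD (ρ w) []

/-- interleave the streams in the order `ρ 0, …, ρ (W - 1)` -/
def undealP {W : ℕ} (ρ : Fin W → Fin W) (ws : List (List α)) : List α := undeal (pick ρ ws)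

variable {W n : ℕ} {ρ : Fin W → Fin W} {ws : List (List α)}

@[simp] theorem length_pick : (pick ρ ws).length = W := by simp [pick]

theorem getD_pick (w : Fin W) : (pick ρ ws).getD w [] = ws.getD (ρ w) [] := by
  simp [pick, List.getD_eq_getElem?_getD]

theorem mem_of_mem_pick (hW : ws.length = W) {s : List α} (h : s ∈ pick ρ ws) : s ∈ ws := by
  obtain ⟨w, _, rfl⟩ := List.mem_map.1 h
  exact getD_mem _ (by rw [hW]; exact (ρ w).2)

theorem length_undealP (hW : ws.length = W) (hn : ∀ s ∈ ws, s.length = n) :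
    (undealP ρ ws).length = n * W := by
  rw [undealP, length_undeal (fun s hs => hn s (mem_of_mem_pick hW hs)), length_pick]

theorem getD_undealP (hW : ws.length = W) (hn : ∀ s ∈ ws, s.length = n) (i : ℕ) (w : Fin W)
    (d : α) : (undealP ρ ws).getD (i * W + w) d = (ws.getD (ρ w) []).getD i d := by
  rw [undealP, getD_undeal length_pick (fun s hs => hn s (mem_of_mem_pick hW hs)) i w.2, getD_pick]

theorem mem_of_mem_undealP (hW : ws.length = W) {a : α} (h : a ∈ undealP ρ ws) :
    ∃ s ∈ ws, a ∈ s := by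
  obtain ⟨s, h1, h2⟩ := mem_of_mem_undeal h
  exact ⟨s, mem_of_mem_pick hW h1, h2⟩

end Deal

/-! ### digit sums -/

@[simp] theorem ds_zero (q : ℕ) (d : ℕ → ℕ) : ds q d 0 = 0 := rfl

theorem ds_succ_l (q : ℕ) (d : ℕ → ℕ) (n : ℕ) : ds q d (n + 1) = d n * q ^ n + ds q d n := by
  rw [ds, Finset.sum_range_succ, add_comm]; rfl


theorem ds_lt {q : ℕ} {d : ℕ → ℕ} {n : ℕ} (h : ∀ j < n, d j < q) : ds q d n < q ^ n := by
  induction n with
  | zero => simp
  | succ n ih =>
    rw [ds_succ_l, pow_succ']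
    exact mul_add_lt (h n (by omega)) (ih fun j hj => h j (by omega))




/-! ### the layout of the streams -/

/-- spectators in the parent layout from spectators in stream `w` -/
def Base.up (β : Base) (W w : ℕ) : Base := { β with z := β.z * W + w }

/-- spectators in the stream from spectators in the parent layout -/
def Base.down (β : Base) (W : ℕ) : Base := { β with z := β.z / W }

theorem Base.up_down (β : Base) (W : ℕ) : (β.down W).up W (β.z % W) = β := by
  cases β
  simp only [Base.up, Base.down, Base.mk.injEq, true_and]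
  exact Nat.div_add_mod' _ _


namespace Lay

/-- the layout of each of the `W` streams -/
def sub (L : Lay) (W : ℕ) : Lay := { L with Z := L.Z / W }

variable {L : Lay} {W : ℕ}

@[simp] theorem sub_Pre : (L.sub W).Pre = L.Pre := rfl
@[simp] theorem sub_g : (L.sub W).g = L.g := rfl
@[simp] theorem sub_F : (L.sub W).F = L.F := rfl
@[simp] theorem sub_G1 : (L.sub W).G1 = L.G1 := rfl
@[simp] theorem sub_R : (L.sub W).R = L.R := rfl
@[simp] theorem sub_G2 : (L.sub W).G2 = L.G2 := rfl
@[simp] theorem sub_Z : (L.sub W).Z = L.Z / W := rfl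

theorem sub_wy (h : W ∣ L.Z) : (L.sub W).wy * W = L.wy := by
  simp only [wy, sub_Z, sub_g, sub_F, sub_G2]
  conv_rhs => rw [← Nat.div_mul_cancel h]
  ring

theorem sub_wh (h : W ∣ L.Z) : (L.sub W).wh * W = L.wh := by
  simp only [wh, sub_R, sub_F, sub_G1]
  rw [← sub_wy h]
  ring

theorem sub_N (h : W ∣ L.Z) : (L.sub W).N * W = L.N := by
  simp only [N, sub_g, sub_F, sub_Pre]
  rw [← sub_wh h]
  ring

theorem sub_N' (h : W ∣ L.Z) (hW : 0 < W) : (L.sub W).N = L.N / W := by
  rw [← sub_N h, Nat.mul_div_cancel _ hW]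

theorem addr_up (h : W ∣ L.Z) (β : Base) (w : ℕ) (b : Bv) :
    L.addr (β.up W w) b = (L.sub W).addr β b * W + w := by
  simp only [addr, Base.up, sub_R, sub_F, sub_g, sub_Z]
  rw [← sub_wy h]
  conv_lhs => rw [← Nat.div_mul_cancel h]
  ring


variable {sy sa : ℕ} {β : Base}

theorem Ok.up (h : W ∣ L.Z) (hβ : (L.sub W).Ok sy sa β) {w : ℕ} (hw : w < W) :
    L.Ok sy sa (β.up W w) :=
  ⟨hβ.hi, hβ.h, hβ.p, hβ.a, by
    have := mul_add_lt hβ.z hw
    rwa [sub_Z, Nat.div_mul_cancel h] at this⟩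

theorem Ok.down (h : W ∣ L.Z) (hβ : L.Ok sy sa β) : (L.sub W).Ok sy sa (β.down W) :=
  ⟨hβ.hi, hβ.h, hβ.p, hβ.a, by
    have := hβ.z
    rw [← Nat.div_mul_cancel h, Nat.mul_comm] at this
    exact Nat.div_lt_of_lt_mul this⟩

theorem Ok.mono {sy' sa' : ℕ} (hβ : L.Ok sy sa β) (h1 : sy' ≤ sy) (h2 : sa' ≤ sa) :
    L.Ok sy' sa' β :=
  ⟨hβ.hi, fun j hj => by have := hβ.h j hj; omega, hβ.p,
    fun j hj => by have := hβ.a j hj; omega, hβ.z⟩

theorem bit_lt (b : Bv) (j : ℕ) : (b j).val < 2 := ZMod.val_lt _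

theorem Ok.chunk_lt (hβ : L.Ok sy sa β) (b : Bv) : ∀ j < L.F, 2 * β.h j + (b j).val < L.R := by
  intro j hj
  have := hβ.h j hj
  have := bit_lt b j
  omega

theorem Ok.slot_lt (hβ : L.Ok sy sa β) : ∀ j < L.F, β.a j < L.g := by
  intro j hj
  have := hβ.a j hj
  omega

/-- the part of the address below the chunks -/
theorem Ok.low_lt (hβ : L.Ok sy sa β) :
    (β.p * L.g ^ L.F + ds L.g β.a L.F) * L.Z + β.z < L.wy := by
  have h := mul_add_lt (mul_add_lt hβ.p (ds_lt hβ.slot_lt)) hβ.z
  have e : L.G2 * L.g ^ L.F * L.Z = L.wy := by rw [wy]; ring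
  rwa [e] at h

theorem Ok.addr_lt (hβ : L.Ok sy sa β) (b : Bv) : L.addr β b < L.N := by
  have h := mul_add_lt (mul_add_lt hβ.hi (ds_lt (hβ.chunk_lt b))) hβ.low_lt
  have e : L.G1 * L.g ^ L.F * L.Pre * L.R ^ L.F * L.wy = L.N := by rw [N, wh]; ring
  rw [e] at h
  rw [addr, Nat.add_assoc]
  exact h






/-! ### fibres -/

section Fib

variable {α V : Type}

/-- the fibre of the array `l` over the spectators `β`, read through `e` -/
def fib (L : Lay) (e : List α → V) (l : List (List α)) (β : Base) : Bv → V :=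
  fun b => e (l.getD (L.addr β b) [])

theorem fib_deal (h : W ∣ L.Z) (e : List α → V) {l : List (List α)} (hl : l.length = L.N)
    (β : Base) {w : ℕ} (hw : w < W) :
    (L.sub W).fib e (deal W w l) β = L.fib e l (β.up W w) := by
  funext b
  rw [fib, fib, getD_deal hw (hl.trans (sub_N h).symm), addr_up h]

theorem fib_dealAll (h : W ∣ L.Z) (e : List α → V) {l : List (List α)} (hl : l.length = L.N)
    (β : Base) {w : ℕ} (hw : w < W) :
    (L.sub W).fib e ((dealAll W l).getD w []) β = L.fib e l (β.up W w) := by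
  rw [getD_dealAll hw, fib_deal h e hl β hw]

theorem length_of_mem_dealAll (h : W ∣ L.Z) {l s : List α} (hl : l.length = L.N)
    (hs : s ∈ dealAll W l) : s.length = (L.sub W).N :=
  X326.length_of_mem_dealAll (hl.trans (sub_N h).symm) hs

theorem length_undealP (h : W ∣ L.Z) (ρ : Fin W → Fin W) {ws : List (List α)}
    (hW : ws.length = W) (hn : ∀ s ∈ ws, s.length = (L.sub W).N) :
    (undealP ρ ws).length = L.N := by
  rw [B3.length_undealP hW hn, sub_N h]

theorem fib_undealP (h : W ∣ L.Z) (e : List α → V) (ρ : Fin W → Fin W)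
    {ws : List (List (List α))} (hW : ws.length = W) (hn : ∀ s ∈ ws, s.length = (L.sub W).N)
    (β : Base) (w : Fin W) :
    L.fib e (undealP ρ ws) (β.up W w) = (L.sub W).fib e (ws.getD (ρ w) []) β := by
  funext b
  rw [fib, fib, addr_up h, getD_undealP hW hn]

/-- the form used at the end of a recursion step: `β` is in the parent layout -/
theorem fib_undealP' (h : W ∣ L.Z) (h0 : 0 < W) (e : List α → V) (ρ : Fin W → Fin W)
    {ws : List (List (List α))} (hW : ws.length = W) (hn : ∀ s ∈ ws, s.length = (L.sub W).N)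
    (β : Base) :
    L.fib e (undealP ρ ws) β =
      (L.sub W).fib e (ws.getD (ρ ⟨β.z % W, Nat.mod_lt _ h0⟩) []) (β.down W) := by
  rw [← fib_undealP h e ρ hW hn, Base.up_down]

end Fib

end Lay

/-! ### the instruction `add` on lists of records -/

/-- `n • y` -/
def recNsmul (M : ℕ) (y : List ℕ) : ℕ → List ℕ
  | 0 => y.map fun _ => 0
  | n + 1 => recAdd M (recNsmul M y n) y

/-- `a • y` for an integer `a` -/
def recZsmul (M : ℕ) (a : ℤ) (y : List ℕ) : List ℕ :=
  if a < 0 then recNeg M (recNsmul M y a.natAbs) else recNsmul M y a.natAbs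

/-- `(a / 2 ^ j) • y` -/
def recSmul (M : ℕ) (a : ℤ) (j : ℕ) (y : List ℕ) : List ℕ := (recHalf M)^[j] (recZsmul M a y)

/-- `x + (a / 2 ^ j) • y` -/
def recAxpy (M : ℕ) (a : ℤ) (j : ℕ) (x y : List ℕ) : List ℕ := recAdd M x (recSmul M a j y)

/-- the instruction `add` on two streams -/
def addL (M : ℕ) (a : ℤ) (j : ℕ) (s t : List (List ℕ)) : List (List ℕ) :=
  List.zipWith (recAxpy M a j) s t

section Add

variable {r M : ℕ} {x y : List ℕ}

theorem wf_nsmul (hy : WF r M y) (n : ℕ) : WF r M (recNsmul M y n) := by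
  induction n with
  | zero => exact hy.map fun c hc => by omega
  | succ n ih => exact ih.add hy

theorem wf_zsmul (hy : WF r M y) (a : ℤ) : WF r M (recZsmul M a y) := by
  unfold recZsmul
  split_ifs
  · exact (wf_nsmul hy _).neg
  · exact wf_nsmul hy _

theorem wf_iterate_half (hy : WF r M y) (j : ℕ) : WF r M ((recHalf M)^[j] y) := by
  induction j with
  | zero => exact hy
  | succ j ih => rw [Function.iterate_succ_apply']; exact ih.half

theorem wf_smul (hy : WF r M y) (a : ℤ) (j : ℕ) : WF r M (recSmul M a j y) :=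
  wf_iterate_half (wf_zsmul hy a) j

theorem wf_axpy (hx : WF r M x) (hy : WF r M y) (a : ℤ) (j : ℕ) : WF r M (recAxpy M a j x y) :=
  hx.add (wf_smul hy a j)

variable {A : Type} [CommRing A] {u : A}

theorem ev_nsmul (hM : (M : A) = 0) (hy : WF r M y) (n : ℕ) :
    ev u (recNsmul M y n) = n * ev u y := by
  induction n with
  | zero => exact ev_map_of_mul (by simp)
  | succ n ih =>
    rw [recNsmul, ev_add hM (wf_nsmul hy n) hy, ih]
    push_cast
    ring

theorem ev_zsmul (hM : (M : A) = 0) (hy : WF r M y) (a : ℤ) :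
    ev u (recZsmul M a y) = a * ev u y := by
  unfold recZsmul
  split_ifs with h
  · rw [ev_neg hM (wf_nsmul hy _), ev_nsmul hM hy]
    have : (a : A) = -(a.natAbs : A) := by
      have e : a = -(a.natAbs : ℤ) := by omega
      conv_lhs => rw [e]
      simp only [Int.cast_neg, Int.cast_natCast]
    rw [this]
    ring
  · rw [ev_nsmul hM hy]
    have : (a : A) = (a.natAbs : A) := by
      have e : a = (a.natAbs : ℤ) := by omega
      conv_lhs => rw [e]
      simp only [Int.cast_natCast]
    rw [this]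

theorem ev_iterate_half (hM : (M : A) = 0) (hodd : M % 2 = 1) {hf : A} (hhf : 2 * hf = 1)
    (y : List ℕ) (j : ℕ) : ev u ((recHalf M)^[j] y) = hf ^ j * ev u y := by
  induction j with
  | zero => simp
  | succ j ih => rw [Function.iterate_succ_apply', ev_half hM hodd hhf, ih]; ring

theorem ev_smul (hM : (M : A) = 0) (hodd : M % 2 = 1) {hf : A} (hhf : 2 * hf = 1)
    (hy : WF r M y) (a : ℤ) (j : ℕ) : ev u (recSmul M a j y) = (a * hf ^ j) * ev u y := by
  rw [recSmul, ev_iterate_half hM hodd hhf, ev_zsmul hM hy]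
  ring

theorem ev_axpy (hM : (M : A) = 0) (hodd : M % 2 = 1) {hf : A} (hhf : 2 * hf = 1)
    (hx : WF r M x) (hy : WF r M y) (a : ℤ) (j : ℕ) :
    ev u (recAxpy M a j x y) = ev u x + (a * hf ^ j) * ev u y := by
  rw [recAxpy, ev_add hM hx (wf_smul hy a j), ev_smul hM hodd hhf hy]

variable {s t : List (List ℕ)} {n : ℕ}

theorem length_addL (a : ℤ) (j : ℕ) (hs : s.length = n) (ht : t.length = n) :
    (addL M a j s t).length = n := by simp [addL, hs, ht]

theorem getD_addL (a : ℤ) (j : ℕ) (hs : s.length = n) (ht : t.length = n) {i : ℕ} (hi : i < n) :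
    (addL M a j s t).getD i [] = recAxpy M a j (s.getD i []) (t.getD i []) := by
  simp [addL, List.getD_eq_getElem?_getD, List.getElem?_zipWith,
    List.getElem?_eq_getElem (hs ▸ hi), List.getElem?_eq_getElem (ht ▸ hi)]

theorem wf_of_mem_addL (a : ℤ) (j : ℕ) (hs : ∀ x ∈ s, WF r M x) (ht : ∀ x ∈ t, WF r M x) :
    ∀ x ∈ addL M a j s t, WF r M x := by
  intro x hx
  obtain ⟨i, hi, rfl⟩ := List.getElem_of_mem hx
  simp only [addL, List.getElem_zipWith]
  exact wf_axpy (hs _ (List.getElem_mem _)) (ht _ (List.getElem_mem _)) a j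

theorem ev_getD_addL (hM : (M : A) = 0) (hodd : M % 2 = 1) {hf : A} (hhf : 2 * hf = 1)
    (a : ℤ) (j : ℕ) (hs : s.length = n) (ht : t.length = n) (hs' : ∀ x ∈ s, WF r M x)
    (ht' : ∀ x ∈ t, WF r M x) {i : ℕ} (hi : i < n) :
    ev u ((addL M a j s t).getD i []) =
      ev u (s.getD i []) + (a * hf ^ j) * ev u (t.getD i []) := by
  rw [getD_addL a j hs ht hi, ev_axpy hM hodd hhf (hs' _ (getD_mem _ (hs ▸ hi)))
    (ht' _ (getD_mem _ (ht ▸ hi)))]

theorem Lay.fib_addL {L : Lay} {sy sa : ℕ} {β : Base} (hβ : L.Ok sy sa β) (hM : (M : A) = 0)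
    (hodd : M % 2 = 1) {hf : A} (hhf : 2 * hf = 1) (a : ℤ) (j : ℕ) (hs : s.length = L.N)
    (ht : t.length = L.N) (hs' : ∀ x ∈ s, WF r M x) (ht' : ∀ x ∈ t, WF r M x) :
    L.fib (ev u) (addL M a j s t) β =
      L.fib (ev u) s β + ((a : A) * hf ^ j) • L.fib (ev u) t β := by
  funext b
  exact ev_getD_addL hM hodd hhf a j hs ht hs' ht' (hβ.addr_lt b)

end Add

end Crest.Agent.X326.B3
private theorem rz_d8bbddd87d : type_of% @_root_.Crest.Agent.X326.B3.recNsmul.eq_def := @_root_.Crest.Agent.X326.B3.recNsmul.eq_def -- L325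
private theorem rz_ca0d057b92 : type_of% @_root_.Crest.Agent.X326.B3.recNsmul.eq_1 := @_root_.Crest.Agent.X326.B3.recNsmul.eq_1 -- L325
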