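import Crest.Agent.X326.FB.TapsDefs
import Crest.Agent.X326.FB.MajSup
import Crest.Agent.X326.FB.PolyAll_Mg
import Crest.Agent.X326.M4.Main
import Crest.Agent.X326.B3.LayerPure
import Crest.Agent.X326.FB.PolyWd
import Crest.Agent.X326.Mul.Boost
import Crest.Agent.X326.M4.Defs
import Crest.Agent.X326.A.GathTC
import Crest.Agent.X326.TC.Map
import Crest.Agent.X326.TC.Un
import Crest.Agent.X326.A.Rec
import Crest.Agent.X326.A.Top
import Mathlib
import Crest.Agent.X326.B3.Defs
import Crest.Agent.X326.Net.Frame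
import Crest.Agent.X326.Net.Nets
import Crest.Agent.X326.B3.StreamsTC
import Crest.Agent.X326.B3.BaseTC
import Crest.Agent.X326.B3.GadgetTC
import Crest.Agent.X326.B3.Spec
import Crest.Agent.X326.B3.Streams
import Crest.Agent.X326.TC.Rec

-- ▼ part X326/FB/Taps
section

/-!
# Filter bank: the integer taps have all the required properties
-/

set_option autoImplicit false

namespace Crest.Agent.X326.FB

theorem majStatement : MajStatement := by
  intro k Q2 ν e n hk hν hQ0 hQ hn
  have he : eps n ν ≤ 1 / 2 ^ e := eps_le e (by omega) hn.ge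
  refine ⟨natDegree_GI_le n k, natDegree_HI_le n k Q2, fun z hz => norm_GI_le n k hz,
    fun z hz => norm_HI_le n Q2 hk hz, fun z hz => ?_, fun z w hz hw hw1 => ?_, GI_nyquist n k⟩
  · exact (norm_GI_mul_HI_sub_le n hν hQ0 hQ hz).trans
      (mul_le_mul_of_nonneg_left he (Nat.cast_nonneg k))
  · exact (norm_GI_mul_HI_shift_le n hν hQ0 hQ hz hw hw1).trans he

theorem tapsStatement : TapsStatement := tapsStatement_of_maj majStatement

end Crest.Agent.X326.FB
end

-- ▼ part X326/Top/Glue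
section

/-!
# Row 326: the multiplication statement from the layer, the base convolution and the band costs
-/

set_option autoImplicit false

namespace Crest.Agent.X326.Top.P2

open Filter Crest.Agent.Lib.PT FB Par

theorem ev_layerOk (w : ℕ) : ∀ᶠ L in atTop, B3.LayerOk w (2 ^ 18) (par L) := by
  filter_upwards [ev_par_ok, ev_jj_ge 1, ev_layer_room w 3] with L h1 h2 h3
  exact ⟨h1, jj L, h2, rfl, h3⟩

theorem log_ff (L : ℕ) : Nat.log (2 ^ 18) (ff L) = jj L := Nat.log_pow (by norm_num) _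

/-- the cost of one layer at the chosen parameters -/
theorem sv_layer {τ : ℝ} (hτ : 0 ≤ τ) :
    SV (fun L => (par L).vol * ((Nat.log (2 ^ 18) ((par L).d - 3) + 1) *
      pw τ (((par L).d - 3) * (Nat.size ((par L).d - 3) + 2)))) (τ / 32) := by
  have h := sv_vol_mul (so_layer_factor hτ (so_ff.size.add_const le_rfl 2))
  refine SV.of_le' (fun L => le_of_eq ?_) h
  have e : (par L).d - 3 = ff L := by simp [dd]
  rw [e, log_ff]

/-- **Assembly.** -/
theorem specMul_of {ok : M4.Par → Prop} {TL : M4.Par → ℕ} {μ : ℕ → ℕ → ℕ} {τ : ℝ}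
    (hτ0 : 0 ≤ τ) (hτ : τ ≤ 1 - 1 / (2 : ℝ) ^ 90) (hlay : M4.SpecLayer ok TL)
    (hok : ∀ᶠ L in atTop, ok (par L)) (hTL : SV (fun L => TL (par L)) (τ / 32))
    (hconv : M4.SpecConv μ) (hμ : MuOk μ) (hA : AnaLTC μ) (hS : SynLTC μ) : SpecMul := by
  have h4 := specGrid (M4.mainM4 ok TL μ hlay hconv)
  have ha : (0 : ℝ) ≤ 31 / 32 + τ / 32 := by positivity
  have hcyc : SpecCyc Tb :=
    specCyc h4 (hok.and ev_par_ok) ((sv_m4 hτ0 hTL hμ).add (sv_par_vol.mono ha)) (m4_exp_lt_aT hτ)
      hμ tapsStatement (prepL_of anaL_spec) (finishL_of synL_spec)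
      (prepLTC_of anaL_spec widthStatement hA) (finishLTC_of synL_spec widthStatement hS)
  exact mulStatement _ aT (sv_Tb.add (SV.two_pow.mono aT_pos.le)) aT_lt (bigStatement _ hcyc)

end Crest.Agent.X326.Top.P2
end

-- ▼ part X326/Mul/SpecConv
section

/-!
# The base multiplier satisfies the interface of part M4
-/

set_option autoImplicit false

namespace Crest.Agent.X326.Mul

theorem isConv_conv : M4.IsConv conv := getD_conv

/-- the exact convolution costs `cmu r p` for lengths at most `r` and entries below `2 ^ p` -/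
theorem specConv : M4.SpecConv cmu :=
  ⟨conv, convT, isConv_conv, tc_conv_total, fun _ _ _ _ ha hb ha' hb' => convT_le ha hb ha' hb'⟩

end Crest.Agent.X326.Mul
end

-- ▼ part X326/Top/Glue2
section

/-!
# Row 326: the multiplication statement from the layer and the band costs
-/

set_option autoImplicit false

namespace Crest.Agent.X326.Top.P2

open Filter Crest.Agent.Lib.PT FB Par

theorem muOk_cmu : MuOk Mul.cmu := ⟨1, 2, fun r p => by rw [one_mul]; exact le_rfl⟩

/-- the cost of one layer -/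
noncomputable def layCost (τ : ℝ) (m : ℕ) (p : M4.Par) : ℕ :=
  p.vol * ((Nat.log m (p.d - 3) + 1) * pw τ ((p.d - 3) * (Nat.size (p.d - 3) + 2)))

theorem specMul_of_layer {w : ℕ}
    (hlay : M4.SpecLayer (B3.LayerOk w (2 ^ 18)) (layCost (1 - 1 / (2 : ℝ) ^ 40) (2 ^ 18)))
    (hA : AnaLTC Mul.cmu) (hS : SynLTC Mul.cmu) : SpecMul :=
  specMul_of (τ := 1 - 1 / (2 : ℝ) ^ 40) (by norm_num) (by norm_num) hlay (ev_layerOk w)
    (sv_layer (by norm_num)) Mul.specConv muOk_cmu hA hS

end Crest.Agent.X326.Top.P2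
end

-- ▼ part X326/A/FreeTC
section

/-!
Row 326 (S0503), part M2: the free address operations in the time calculus.

Generic forms (`tc_addIdx`, `tc_mulIdx`, `tc_divIdx`, `tc_revIdx`, `tc_cplIdx`, `tc_negIdx`): weights
and ranges are polynomial-time functions of a descriptor `c`, the budget is
`ovh k n (sz c + size n)`.  Final forms (`tc_opIdx`, `tc_swapSmall`, `tc_padL`, `tc_cutL`,
`tc_rotL`): budget `n * (size n + 1) ^ k`.
-/

set_option autoImplicit false

namespace Crest.Agent.X326.A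

open Crest.Agent.Lib.PT

section ptf

variable {ι : Type} [PTCode ι] {w q j v : ι → ℕ}

@[fun_prop]
theorem ptf_dig (hw : PTF w) (hq : PTF q) (hj : PTF j) : PTF fun x => dig (w x) (q x) (j x) := by
  unfold dig; fun_prop

@[fun_prop]
theorem ptf_setDig (hw : PTF w) (hq : PTF q) (hj : PTF j) (hv : PTF v) :
    PTF fun x => setDig (w x) (q x) (j x) (v x) := by
  unfold setDig; fun_prop

@[fun_prop]
theorem ptf_swapIdx (hq : PTF q) (hw : PTF w) (hv : PTF v) (hj : PTF j) :
    PTF fun x => swapIdx (q x) (w x) (v x) (j x) := by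
  unfold swapIdx; fun_prop

@[fun_prop]
theorem ptf_divN (hq : PTF q) (hw : PTF w) (hj : PTF j) :
    PTF fun x => divN (q x) (w x) (j x) := by
  unfold divN; fun_prop

theorem ptf_coefN {c : ι → ℤ} (hq : PTF q) (hc : PTF c) : PTF fun x => coefN (q x) (c x) := by
  unfold coefN
  exact PTF.ite (PTPred.intLe (PTF.const 0) hc) (by fun_prop) (by fun_prop)

end ptf

section generic

variable {γ : Type} [PTCode γ] {w q b : γ → ℕ}

/-- addition of an offset with `K` classes -/
theorem tc_addIdx {off c0 : γ → ℕ → ℕ} (hw : PTF w) (hq : PTF q) (hoff : PTF₂ off)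
    (hc0 : PTF₂ c0) :
    ∃ k : ℕ, ∀ (K : ℕ) {ι α : Type} [PTCode ι] [PTCode α] {P : ι → Prop} {T : ι → ℕ} {c : ι → γ}
      (d : α) {l : ι → List α}, TC P T c → TC P T l →
      (∀ x, P x → 0 < w (c x) ∧ 0 < q (c x) ∧ w (c x) * q (c x) ∣ (l x).length ∧
        (∀ j, c0 (c x) j < K) ∧
        (∀ j j', c0 (c x) j = c0 (c x) j' → j / (w (c x) * q (c x)) = j' / (w (c x) * q (c x)) →
          off (c x) j = off (c x) j') ∧
        (∀ j j', j / (w (c x) * q (c x)) = j' / (w (c x) * q (c x)) → j % w (c x) = j' % w (c x) →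
          off (c x) j = off (c x) j')) →
      Bud P T (fun x => ovh k (l x).length (sz (c x) + Nat.size (l x).length)) →
      TC P T (fun x => perm d (addIdx (w (c x)) (q (c x)) (off (c x))) (l x)) := by
  have h1 : PTF fun p : γ × ℕ => w p.1 := hw.comp PTF.fst
  have h2 : PTF fun p : γ × ℕ => q p.1 := hq.comp PTF.fst
  have h3 : PTF fun p : γ × ℕ => off p.1 p.2 := hoff
  have h4 : PTF fun p : γ × ℕ => c0 p.1 p.2 := hc0
  obtain ⟨k, hk⟩ := tc_perm (col := fun c => addCol (w c) (q c) (off c) (c0 c))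
    (src := fun c => addIdx (w c) (q c) (off c))
    (by dsimp only [PTF₂, addCol]; fun_prop) (by dsimp only [PTF₂, addIdx]; fun_prop)
  exact ⟨k, fun K {ι α} _ _ {P T c} d {l} hc hl h hB => hk (2 * K) d hc hl (fun x hx =>
    ⟨colMono_addIdx (h x hx).1 (h x hx).2.1 (h x hx).2.2.2.1 (h x hx).2.2.2.2.1,
      idxPerm_addIdx (h x hx).1 (h x hx).2.1 (h x hx).2.2.1 (h x hx).2.2.2.2.2⟩) hB⟩

/-- addition of an offset that only depends on the earlier fields -/
theorem tc_addIdx_hi {off : γ → ℕ → ℕ} (hw : PTF w) (hq : PTF q) (hoff : PTF₂ off) :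
    ∃ k : ℕ, ∀ {ι α : Type} [PTCode ι] [PTCode α] {P : ι → Prop} {T : ι → ℕ} {c : ι → γ}
      (d : α) {l : ι → List α}, TC P T c → TC P T l →
      (∀ x, P x → 0 < w (c x) ∧ 0 < q (c x) ∧ w (c x) * q (c x) ∣ (l x).length ∧
        (∀ j j', j / (w (c x) * q (c x)) = j' / (w (c x) * q (c x)) →
          off (c x) j = off (c x) j')) →
      Bud P T (fun x => ovh k (l x).length (sz (c x) + Nat.size (l x).length)) →
      TC P T (fun x => perm d (addIdx (w (c x)) (q (c x)) (off (c x))) (l x)) := by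
  obtain ⟨k, hk⟩ := tc_addIdx (c0 := fun _ _ => 0) hw hq hoff (PTF.const 0)
  exact ⟨k, fun {ι α} _ _ {P T c} d {l} hc hl h hB => hk 1 d hc hl (fun x hx =>
    ⟨(h x hx).1, (h x hx).2.1, (h x hx).2.2.1, fun _ => Nat.one_pos,
      fun j j' _ e => (h x hx).2.2.2 j j' e, fun j j' e _ => (h x hx).2.2.2 j j' e⟩) hB⟩

theorem tc_mulIdx (hw : PTF w) (hq : PTF q) (hb : PTF b) :
    ∃ k : ℕ, ∀ (K : ℕ) {ι α : Type} [PTCode ι] [PTCode α] {P : ι → Prop} {T : ι → ℕ} {c : ι → γ}
      (d : α) {l : ι → List α}, TC P T c → TC P T l →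
      (∀ x, P x → 0 < w (c x) ∧ 0 < q (c x) ∧ w (c x) * q (c x) ∣ (l x).length ∧
        0 < b (c x) ∧ b (c x) ≤ K ∧ Nat.Coprime (q (c x)) (b (c x))) →
      Bud P T (fun x => ovh k (l x).length (sz (c x) + Nat.size (l x).length)) →
      TC P T (fun x => perm d (mulIdx (w (c x)) (q (c x)) (b (c x))) (l x)) := by
  have h1 : PTF fun p : γ × ℕ => w p.1 := hw.comp PTF.fst
  have h2 : PTF fun p : γ × ℕ => q p.1 := hq.comp PTF.fst
  have h3 : PTF fun p : γ × ℕ => b p.1 := hb.comp PTF.fst
  obtain ⟨k, hk⟩ := tc_perm (col := fun c j => b c * dig (w c) (q c) j / q c)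
    (src := fun c => mulIdx (w c) (q c) (b c))
    (by dsimp only [PTF₂]; fun_prop) (by dsimp only [PTF₂, mulIdx]; fun_prop)
  exact ⟨k, fun K {ι α} _ _ {P T c} d {l} hc hl h hB => hk K d hc hl (fun x hx =>
    ⟨(colMono_mulIdx (h x hx).1 (h x hx).2.1 (h x hx).2.2.2.1).of_le (h x hx).2.2.2.2.1,
      idxPerm_mulIdx (h x hx).1 (h x hx).2.1 (h x hx).2.2.2.2.2 (h x hx).2.2.1⟩) hB⟩

theorem tc_divIdx (hw : PTF w) (hq : PTF q) (hb : PTF b) :
    ∃ k : ℕ, ∀ (K : ℕ) {ι α : Type} [PTCode ι] [PTCode α] {P : ι → Prop} {T : ι → ℕ} {c : ι → γ}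
      (d : α) {l : ι → List α}, TC P T c → TC P T l →
      (∀ x, P x → 0 < w (c x) ∧ 0 < q (c x) ∧ w (c x) * q (c x) ∣ (l x).length ∧
        0 < b (c x) ∧ b (c x) ≤ K ∧ q (c x) ≡ 1 [MOD b (c x)]) →
      Bud P T (fun x => ovh k (l x).length (sz (c x) + Nat.size (l x).length)) →
      TC P T (fun x => perm d (divIdx (w (c x)) (q (c x)) (b (c x))) (l x)) := by
  have h1 : PTF fun p : γ × ℕ => w p.1 := hw.comp PTF.fst
  have h2 : PTF fun p : γ × ℕ => q p.1 := hq.comp PTF.fst
  have h3 : PTF fun p : γ × ℕ => b p.1 := hb.comp PTF.fst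
  obtain ⟨k, hk⟩ := tc_perm (col := fun c j => dig (w c) (q c) j % b c)
    (src := fun c => divIdx (w c) (q c) (b c))
    (by dsimp only [PTF₂]; fun_prop) (by dsimp only [PTF₂, divIdx]; fun_prop)
  exact ⟨k, fun K {ι α} _ _ {P T c} d {l} hc hl h hB => hk K d hc hl (fun x hx =>
    ⟨(colMono_divIdx (h x hx).1 (h x hx).2.1 (h x hx).2.2.2.1 (h x hx).2.2.2.2.2).of_le
        (h x hx).2.2.2.2.1,
      idxPerm_divIdx (h x hx).1 (h x hx).2.1 (h x hx).2.2.2.1 (h x hx).2.2.2.2.2
        (h x hx).2.2.1⟩) hB⟩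

/-- `min (b c) n` in unary -/
theorem tu_min' (hb : PTF b) :
    ∃ k : ℕ, ∀ {ι : Type} [PTCode ι] {P : ι → Prop} {T : ι → ℕ} {c : ι → γ} {n : ι → ℕ},
    TC P T c → TU P T n → Bud P T (fun x => ovh k (n x) (sz (c x) + Nat.size (n x))) →
    TU P T (fun x => min (b (c x)) (n x)) := by
  obtain ⟨k, hk⟩ := tc_tab (g := fun (c : γ) (j : ℕ) => decide (j < b c))
    (PTPred.toPTF (PTPred.natLt PTF.snd (hb.comp PTF.fst)))
  refine ⟨k, fun {ι} _ {P T c n} hc hn hB => ?_⟩
  refine (TU.length (TC.filterBy (hk hc hn hB) hn.units)).of_eq fun x => ?_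
  rw [length_filterBy (by simp), List.count_eq_countP, List.countP_map]
  generalize n x = m
  induction m with
  | zero => simp
  | succ m ih =>
    rw [List.range_succ, List.countP_append, ih]
    by_cases h : m < b (c x) <;> simp [h] <;> omega

theorem getD_reverse' {α : Type} (d : α) (r : List α) {i : ℕ} (hi : i < r.length) :
    r.reverse.getD i d = r.getD (r.length - 1 - i) d := by
  rw [List.getD_eq_getElem _ _ (by simpa using hi), List.getD_eq_getElem _ _ (by omega),
    List.getElem_reverse]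

theorem perm_revIdx {α : Type} (d : α) {B : ℕ} (hB : 0 < B) {l : List α} (h : B ∣ l.length) :
    perm d (revIdx B) l = ((chunks B l).map List.reverse).flatten := by
  obtain ⟨m, hm⟩ := h
  rw [Nat.mul_comm] at hm
  have hlen : ∀ r ∈ (chunks B l).map List.reverse, r.length = B := fun r hr => by
    obtain ⟨r', hr', rfl⟩ := List.mem_map.1 hr
    rw [List.length_reverse, length_of_mem_chunks ⟨m, by rw [hm, Nat.mul_comm]⟩ hr']
  refine A.ext_getD d ?_ fun j hj => ?_
  · rw [length_perm, length_flatten_of_length hlen, List.length_map, length_chunks hB hm, hm]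
  · rw [length_perm] at hj
    have h1 : j % B < B := Nat.mod_lt _ hB
    have h2 : j / B < m := (Nat.div_lt_iff_lt_mul hB).2 (hm ▸ hj)
    have h3 : j / B < (chunks B l).length := by rwa [length_chunks hB hm]
    have h4 : ((chunks B l)[j / B]).length = B :=
      length_of_mem_chunks ⟨m, by rw [hm, Nat.mul_comm]⟩ (List.getElem_mem h3)
    rw [getD_perm _ _ _ _ hj, getD_flatten' hB hlen, revIdx,
      ← getD_getD_chunks l (j / B) (show B - 1 - j % B < B by omega) d,
      List.getD_eq_getElem _ _ h3,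
      List.getD_eq_getElem ((chunks B l).map List.reverse) _ (by simpa using h3), List.getElem_map,
      getD_reverse' d _ (by omega), h4]

/-- reversal inside blocks -/
theorem tc_revIdx (hb : PTF b) :
    ∃ k : ℕ, ∀ {ι α : Type} [PTCode ι] [PTCode α] {P : ι → Prop} {T : ι → ℕ} {c : ι → γ}
      (d : α) {l : ι → List α}, TC P T c → TC P T l →
      (∀ x, P x → 0 < b (c x) ∧ b (c x) ∣ (l x).length) →
      Bud P T (fun x => ovh k (l x).length (sz (c x) + Nat.size (l x).length)) →
      TC P T (fun x => perm d (revIdx (b (c x))) (l x)) := by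
  obtain ⟨k, hk⟩ := tu_min' hb
  refine ⟨k, fun {ι α} _ _ {P T c} d {l} hc hl h hB => ?_⟩
  have h1 := TC.chunks (hk hc (TU.length hl) hB) hl
  refine (TC.flatten (TC.map Lin.reverse h1)).congr fun x hx => ?_
  rw [perm_revIdx d (h x hx).1 (h x hx).2]
  rcases Nat.eq_zero_or_pos (l x).length with h0 | h0
  · simp [List.eq_nil_of_length_eq_zero h0]
  · rw [min_eq_left (Nat.le_of_dvd h0 (h x hx).2)]

theorem tc_cplIdx (hw : PTF w) (hq : PTF q) :
    ∃ k : ℕ, ∀ {ι α : Type} [PTCode ι] [PTCode α] {P : ι → Prop} {T : ι → ℕ} {c : ι → γ}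
      (d : α) {l : ι → List α}, TC P T c → TC P T l →
      (∀ x, P x → 0 < w (c x) ∧ 0 < q (c x) ∧ w (c x) * q (c x) ∣ (l x).length) →
      Bud P T (fun x => ovh k (l x).length (sz (c x) + Nat.size (l x).length)) →
      TC P T (fun x => perm d (cplIdx (w (c x)) (q (c x))) (l x)) := by
  obtain ⟨k1, hk1⟩ := tc_revIdx (b := fun c => w c * q c) (hw.natMul hq)
  obtain ⟨k2, hk2⟩ := tc_revIdx hw
  refine ⟨k1 + k2, fun {ι α} _ _ {P T c} d {l} hc hl h hB => ?_⟩
  have h1 := hk1 d hc hl (fun x hx => ⟨Nat.mul_pos (h x hx).1 (h x hx).2.1, (h x hx).2.2⟩)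
    (hB.mono fun x _ => ovh_mono (by omega) le_rfl le_rfl)
  have h2 := hk2 d hc h1
    (fun x hx => ⟨(h x hx).1, by simpa using (Dvd.intro _ rfl).trans (h x hx).2.2⟩)
    (hB.mono fun x _ => by simpa using ovh_mono (by omega) le_rfl le_rfl)
  refine h2.congr fun x hx => ?_
  rw [perm_perm d _ (idxPerm_revIdx (h x hx).1 ((Dvd.intro _ rfl).trans (h x hx).2.2)).lt]
  exact perm_congr d _ fun j _ => (cplIdx_eq_rev (h x hx).1 (h x hx).2.1 j).symm

theorem tc_negIdx (hw : PTF w) (hq : PTF q) :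
    ∃ k : ℕ, ∀ {ι α : Type} [PTCode ι] [PTCode α] {P : ι → Prop} {T : ι → ℕ} {c : ι → γ}
      (d : α) {l : ι → List α}, TC P T c → TC P T l →
      (∀ x, P x → 0 < w (c x) ∧ 0 < q (c x) ∧ w (c x) * q (c x) ∣ (l x).length) →
      Bud P T (fun x => ovh k (l x).length (sz (c x) + Nat.size (l x).length)) →
      TC P T (fun x => perm d (negIdx (w (c x)) (q (c x))) (l x)) := by
  obtain ⟨k1, hk1⟩ := tc_addIdx_hi (off := fun _ _ => 1) hw hq (PTF.const 1)
  obtain ⟨k2, hk2⟩ := tc_cplIdx hw hq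
  refine ⟨k1 + k2, fun {ι α} _ _ {P T c} d {l} hc hl h hB => ?_⟩
  have h1 := hk1 d hc hl (fun x hx => ⟨(h x hx).1, (h x hx).2.1, (h x hx).2.2, fun _ _ _ => rfl⟩)
    (hB.mono fun x _ => ovh_mono (by omega) le_rfl le_rfl)
  have h2 := hk2 d hc h1 (fun x hx => by simpa using h x hx)
    (hB.mono fun x _ => by simpa using ovh_mono (by omega) le_rfl le_rfl)
  refine h2.congr fun x hx => ?_
  rw [perm_perm d _ (idxPerm_cplIdx (h x hx).1 (h x hx).2.1 (h x hx).2.2).lt]
  exact perm_congr d _ fun j _ => (negIdx_eq (h x hx).1 (h x hx).2.1 j).symm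

end generic

/-! ### final forms -/

/-- the code of a field: group and exponent of its weight -/
def fldCode {m : ℕ} : Fld m → Bool × Un
  | .inl i => (true, ⟨m - 1 - i⟩)
  | .inr j => (false, ⟨m - 1 - j⟩)

/-- the weight of a field from its code -/
def wtOf (g : ℕ × ℕ × ℕ) (f : Bool × Un) : ℕ := (bif f.1 then g.2.1 else g.2.2) * g.1 ^ f.2.val

theorem wtOf_fldCode {m : ℕ} (q wH wD : ℕ) (t : Fld m) :
    wtOf (q, wH, wD) (fldCode t) = wt q wH wD t := by
  rcases t with i | j <;> rfl

theorem ptf_wtOf {ι : Type} [PTCode ι] {g : ι → ℕ × ℕ × ℕ} {f : ι → Bool × Un} (hg : PTF g)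
    (hf : PTF f) : PTF fun x => wtOf (g x) (f x) := by
  unfold wtOf
  exact PTF.natMul (by fun_prop) (PTF.natPow (by fun_prop) (PTU.val (by fun_prop)))

theorem size_le_of_dvd {a n : ℕ} (hn : 0 < n) (h : a ∣ n) : Nat.size a ≤ Nat.size n :=
  Nat.size_le_size (Nat.le_of_dvd hn h)

theorem Geo.sz_le {Q q wH wD n : ℕ} (g : Geo Q wH wD n) (hq : q ∣ n) (hn : 0 < n) :
    sz (q, wH, wD) ≤ 5 * Nat.size n + 2 := by
  have h1 := size_le_of_dvd hn hq
  have h2 := size_le_of_dvd hn ((Dvd.intro _ rfl).trans g.h2)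
  have h3 := size_le_of_dvd hn ((((Dvd.intro _ rfl).trans g.h1).mul_right _).trans g.h2)
  simp only [sz_prod, sz_nat]
  omega

/-- (F1) the free operations of part A -/
theorem tc_opIdx : ∃ k : ℕ, ∀ {m Den : ℕ} (op : FOp m), op.ok Den → 0 < Den →
    ∀ {ι α : Type} [PTCode ι] [PTCode α] {P : ι → Prop} {T : ι → ℕ} {q wH wD : ι → ℕ} (d : α)
      {l : ι → List α}, TC P T q → TC P T wH → TC P T wD → TC P T l →
      (∀ x, P x → 0 < q x ∧ q x ≡ 1 [MOD Den] ∧ Geo (q x ^ m) (wH x) (wD x) (l x).length) →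
      Bud P T (fun x => (l x).length * (Nat.size (l x).length + 1) ^ k) →
      TC P T (fun x => perm d (opIdx (q x) (wH x) (wD x) op) (l x)) := by
  have hw : PTF fun c : (ℕ × ℕ × ℕ) × (Bool × Un) × (Bool × Un) × ℤ × ℕ => wtOf c.1 c.2.1 :=
    ptf_wtOf (by fun_prop) (by fun_prop)
  have hq : PTF fun c : (ℕ × ℕ × ℕ) × (Bool × Un) × (Bool × Un) × ℤ × ℕ => c.1.1 := by fun_prop
  have hb : PTF fun c : (ℕ × ℕ × ℕ) × (Bool × Un) × (Bool × Un) × ℤ × ℕ => c.2.2.2.2 := by
    fun_prop
  have hoff : PTF₂ fun (c : (ℕ × ℕ × ℕ) × (Bool × Un) × (Bool × Un) × ℤ × ℕ) (j : ℕ) =>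
      coefN c.1.1 c.2.2.2.1 * dig (wtOf c.1 c.2.2.1) c.1.1 j :=
    PTF.natMul (ptf_coefN (by fun_prop) (by fun_prop))
      (ptf_dig (ptf_wtOf (by fun_prop) (by fun_prop)) (by fun_prop) PTF.snd)
  obtain ⟨k1, hk1⟩ := tc_addIdx_hi hw hq hoff
  obtain ⟨k2, hk2⟩ := tc_mulIdx hw hq hb
  obtain ⟨k3, hk3⟩ := tc_divIdx hw hq hb
  obtain ⟨k4, hk4⟩ := tc_negIdx hw hq
  refine ⟨k1 + k2 + k3 + k4,
    fun {m Den} op hop hDen {ι α} _ _ {P T q wH wD} d {l} hq hH hD hl h hB => ?_⟩
  have hdv : ∀ (t : Fld m) x, P x → wt (q x) (wH x) (wD x) t * q x ∣ (l x).length :=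
    fun t x hx => (wt_dvd_top (h x hx).2.2.h1 t).trans (h x hx).2.2.h2
  have hpos : ∀ (t : Fld m) x, P x → 0 < wt (q x) (wH x) (wD x) t :=
    fun t x hx => wt_pos (h x hx).1 (h x hx).2.2.hD (h x hx).2.2.hH t
  have hc : ∀ e : (Bool × Un) × (Bool × Un) × ℤ × ℕ, TC P T fun x => ((q x, wH x, wD x), e) :=
    fun e => (hq.prodMk (hH.prodMk hD)).prodMk (TC.const e)
  have hB' : ∀ (t : Fld m) (e : (Bool × Un) × (Bool × Un) × ℤ × ℕ) (k : ℕ),
      k ≤ k1 + k2 + k3 + k4 → Bud P T fun x =>
        ovh k (l x).length (sz ((q x, wH x, wD x), e) + Nat.size (l x).length) := fun t e k hk =>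
    Bud.ovh_of_le (s' := fun x => Nat.size (l x).length) hB 1 11 (5 + sz e) hk
      (fun x _ => by omega) fun x hx h0 => by
        have := (h x hx).2.2.sz_le ((Dvd.intro_left _ rfl).trans (hdv t x hx)) h0
        rw [sz_prod]
        dsimp only
        omega
  rcases op with ⟨t, s, c⟩ | ⟨t, b⟩ | ⟨t, b⟩ | t
  · refine (hk1 d (hc (fldCode t, fldCode s, c, 0)) hl (fun x hx => ?_)
      (hB' t _ _ (by omega))).of_eq fun x => ?_
    · simp only [wtOf_fldCode]
      exact ⟨hpos t x hx, (h x hx).1, hdv t x hx, fun j j' e => by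
        rw [dig_eq_of_div (wt_dvd_of_pos_lt (h x hx).2.2.h1 hop) e]⟩
    · simp only [wtOf_fldCode]
      rfl
  · have hb0 : 0 < b := Nat.pos_of_dvd_of_pos hop hDen
    refine (hk2 b d (hc (fldCode t, fldCode t, 0, b)) hl (fun x hx => ?_)
      (hB' t _ _ (by omega))).of_eq fun x => ?_
    · simp only [wtOf_fldCode]
      refine ⟨hpos t x hx, (h x hx).1, hdv t x hx, hb0, le_rfl, ?_⟩
      have : Nat.gcd (q x) b = Nat.gcd 1 b := ((h x hx).2.1.of_dvd hop).gcd_eq
      rw [Nat.Coprime, this, Nat.gcd_one_left]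
    · simp only [wtOf_fldCode]
      rfl
  · have hb0 : 0 < b := Nat.pos_of_dvd_of_pos hop hDen
    refine (hk3 b d (hc (fldCode t, fldCode t, 0, b)) hl (fun x hx => ?_)
      (hB' t _ _ (by omega))).of_eq fun x => ?_
    · simp only [wtOf_fldCode]
      exact ⟨hpos t x hx, (h x hx).1, hdv t x hx, hb0, le_rfl, (h x hx).2.1.of_dvd hop⟩
    · simp only [wtOf_fldCode]
      rfl
  · refine (hk4 d (hc (fldCode t, fldCode t, 0, 0)) hl (fun x hx => ?_)
      (hB' t _ _ (by omega))).of_eq fun x => ?_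
    · simp only [wtOf_fldCode]
      exact ⟨hpos t x hx, (h x hx).1, hdv t x hx⟩
    · simp only [wtOf_fldCode]
      rfl

/-- (F2) the interchange of two digits of bounded range -/
theorem tc_swapSmall : ∃ k : ℕ, ∀ (K : ℕ) {ι α : Type} [PTCode ι] [PTCode α] {P : ι → Prop}
    {T : ι → ℕ} {q wH wD : ι → ℕ} (d : α) {l : ι → List α},
      TC P T q → TC P T wH → TC P T wD → TC P T l →
      (∀ x, P x → q x ≤ K ∧ Geo (q x) (wH x) (wD x) (l x).length) →
      Bud P T (fun x => (l x).length * (Nat.size (l x).length + 1) ^ k) →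
      TC P T (fun x => swapL d (q x) (wH x) (wD x) (l x)) := by
  obtain ⟨k, hk⟩ := tc_perm
    (col := fun (c : (ℕ × ℕ × ℕ) × ℕ) j => dig c.1.2.1 c.1.1 j * c.2 + dig c.1.2.2 c.1.1 j)
    (src := fun c => swapIdx c.1.1 c.1.2.1 c.1.2.2)
    (by dsimp only [PTF₂]; fun_prop) (by dsimp only [PTF₂]; fun_prop)
  refine ⟨k, fun K {ι α} _ _ {P T q wH wD} d {l} hq hH hD hl h hB => ?_⟩
  have hB' : Bud P T fun x =>
      ovh k (l x).length (sz ((q x, wH x, wD x), K) + Nat.size (l x).length) :=
    Bud.ovh_of_le (s' := fun x => Nat.size (l x).length) hB 1 11 (5 + sz K) le_rfl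
      (fun x _ => by omega) fun x hx h0 => by
        have := (h x hx).2.sz_le ((Dvd.intro_left _ rfl).trans (h x hx).2.h2) h0
        rw [sz_prod]
        dsimp only
        omega
  have key := hk (K * K) (c := fun x => ((q x, wH x, wD x), K)) d
    ((hq.prodMk (hH.prodMk hD)).prodMk (TC.const K)) hl (fun x hx =>
    ⟨colMono_swapIdx (h x hx).2.hq (h x hx).2.hD (h x hx).2.h1 (h x hx).1,
      (h x hx).2.idxPerm_swapIdx⟩) hB'
  exact key










end Crest.Agent.X326.A
end

-- ▼ part X326/A/RecDone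
section

/-!
Row 326 (S0503), part M2: the recursion of part A, unconditionally.
-/

set_option autoImplicit false

namespace Crest.Agent.X326.A

open Crest.Agent.Lib.PT

theorem opStatement : OpStatement := by
  obtain ⟨k, hk⟩ := tc_opIdx
  exact fun m Den op hDen hop => ⟨k, fun ι _ P T q wH wD l hq hH hD hl hx hB =>
    hk op hop hDen [] hq hH hD hl (fun x h => (hx x h).2) hB⟩

theorem smallStatement : SmallStatement := by
  obtain ⟨k, hk⟩ := tc_swapSmall
  exact fun K => ⟨k, fun ι _ P T q wH wD l hq hH hD hl hx hB =>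
    hk K [] hq hH hD hl (fun x h => (hx x h).2) hB⟩

/-- **The recursion of part A.** -/
theorem recStatement : RecStatement := rec_of opStatement smallStatement

end Crest.Agent.X326.A
end

-- ▼ part X326/A/Main
section

/-!
Row 326 (S0503), part M2: the fast interchange of two digits, unconditionally.
-/

set_option autoImplicit false

namespace Crest.Agent.X326.A

/-- **part A** -/
theorem swapStatement : SwapStatement tauA := swap_of_rec recStatement

end Crest.Agent.X326.A
end

-- ▼ part X326/B3/Walsh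
section

/-!
Row 326 (S0503), part M3: Fourier multipliers for a finite `F₂`-space acting by commuting
involutions on a module, and the quadratic phases `i ^ (ξᵀ e ξ)`.
-/

set_option autoImplicit false
set_option linter.unusedSectionVars false

namespace Crest.Agent.X326.B3

open Matrix

section Sign

variable (Λ : Type) [CommRing Λ]

/-- the sign `(-1) ^ z` -/
def sg (z : ZMod 2) : Λ := if z = 0 then 1 else -1

variable {Λ}

@[simp] theorem sg_zero : sg Λ 0 = 1 := by simp [sg]

@[simp] theorem sg_one : sg Λ 1 = -1 := by simp [sg]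

theorem zmod2_cases (z : ZMod 2) : z = 0 ∨ z = 1 := by
  revert z; decide

theorem sg_add (a b : ZMod 2) : sg Λ (a + b) = sg Λ a * sg Λ b := by
  have h11 : (1 : ZMod 2) + 1 = 0 := by decide
  rcases zmod2_cases a with rfl | rfl <;> rcases zmod2_cases b with rfl | rfl <;> simp [h11]

theorem sg_sum {β : Type} (s : Finset β) (z : β → ZMod 2) :
    sg Λ (∑ b ∈ s, z b) = ∏ b ∈ s, sg Λ (z b) := by
  classical
  induction s using Finset.induction_on with
  | empty => simp
  | insert a s ha ih => rw [Finset.sum_insert ha, Finset.prod_insert ha, sg_add, ih]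

variable {α : Type} [Fintype α] [DecidableEq α]

/-- orthogonality of the characters -/
theorem sum_sg_dot (g : α → ZMod 2) :
    ∑ ξ : α → ZMod 2, sg Λ (ξ ⬝ᵥ g) = if g = 0 then 2 ^ Fintype.card α else 0 := by
  have h1 : ∀ ξ : α → ZMod 2, sg Λ (ξ ⬝ᵥ g) = ∏ a, sg Λ (ξ a * g a) := fun ξ => sg_sum _ _
  simp only [h1]
  rw [← Fintype.piFinset_univ, ← Finset.prod_univ_sum (fun _ => Finset.univ)
    (fun a (z : ZMod 2) => sg Λ (z * g a))]
  have h2 : ∀ a, ∑ z : ZMod 2, sg Λ (z * g a) = if g a = 0 then 2 else 0 := by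
    intro a
    have hu : (Finset.univ : Finset (ZMod 2)) = {0, 1} := by decide
    rw [hu, Finset.sum_pair (by decide)]
    rcases zmod2_cases (g a) with h | h <;> simp [h]
    norm_num
  simp only [h2]
  split_ifs with h
  · subst h
    simp
  · obtain ⟨a, ha⟩ := Function.ne_iff.1 h
    exact Finset.prod_eq_zero (Finset.mem_univ a) (if_neg ha)

end Sign

section Mult

variable {Λ M : Type} [CommRing Λ] [AddCommGroup M] [Module Λ M]
variable {α : Type} [Fintype α] [DecidableEq α]

/-- the convolution kernel of a multiplier -/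
def kern (hf : Λ) (φ : (α → ZMod 2) → Λ) (g : α → ZMod 2) : Λ :=
  hf ^ Fintype.card α * ∑ ξ, φ ξ * sg Λ (ξ ⬝ᵥ g)

theorem add_self_pi (g : α → ZMod 2) : g + g = 0 := by
  ext a
  exact CharTwo.add_self_eq_zero _

/-- Fourier inversion -/
theorem sum_kern_sg {hf : Λ} (h2 : 2 * hf = 1) (φ : (α → ZMod 2) → Λ) (ζ : α → ZMod 2) :
    ∑ g, kern hf φ g * sg Λ (ζ ⬝ᵥ g) = φ ζ := by
  unfold kern
  simp only [mul_assoc, Finset.sum_mul]
  rw [← Finset.mul_sum, Finset.sum_comm]
  have h1 : ∀ ξ : α → ZMod 2, ∑ g : α → ZMod 2, φ ξ * (sg Λ (ξ ⬝ᵥ g) * sg Λ (ζ ⬝ᵥ g)) =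
      φ ξ * if ξ + ζ = 0 then 2 ^ Fintype.card α else 0 := by
    intro ξ
    rw [← Finset.mul_sum, ← sum_sg_dot]
    congr 1
    refine Finset.sum_congr rfl fun g _ => ?_
    rw [← sg_add, ← add_dotProduct, dotProduct_comm]
  simp only [h1]
  rw [Finset.sum_eq_single ζ]
  · rw [if_pos (add_self_pi ζ), mul_left_comm, ← mul_pow, mul_comm hf, h2, one_pow, mul_one]
  · intro ξ _ hξ
    rw [if_neg, mul_zero]
    intro h
    apply hξ
    rw [← add_zero ξ, ← add_self_pi ζ, ← add_assoc, h, zero_add]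
  · simp

/-- the operator with multiplier `φ` -/
def mult (hf : Λ) (τ : (α → ZMod 2) → Module.End Λ M) (φ : (α → ZMod 2) → Λ) :
    Module.End Λ M :=
  ∑ g, kern hf φ g • τ g

variable {hf : Λ} {τ : (α → ZMod 2) → Module.End Λ M}

theorem mult_add (φ ψ : (α → ZMod 2) → Λ) :
    mult hf τ (fun ξ => φ ξ + ψ ξ) = mult hf τ φ + mult hf τ ψ := by
  unfold mult kern
  rw [← Finset.sum_add_distrib]
  refine Finset.sum_congr rfl fun g _ => ?_
  rw [← add_smul, ← mul_add, ← Finset.sum_add_distrib]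
  simp only [add_mul]

theorem mult_smul (c : Λ) (φ : (α → ZMod 2) → Λ) :
    mult hf τ (fun ξ => c * φ ξ) = c • mult hf τ φ := by
  unfold mult kern
  rw [Finset.smul_sum]
  refine Finset.sum_congr rfl fun g _ => ?_
  rw [smul_smul, mul_left_comm, Finset.mul_sum _ _ c]
  simp only [mul_assoc]

theorem mult_zero : mult hf τ (fun _ => 0) = 0 := by
  simp [mult, kern]

theorem mult_sum {β : Type} (s : Finset β) (φ : β → (α → ZMod 2) → Λ) :
    mult hf τ (fun ξ => ∑ b ∈ s, φ b ξ) = ∑ b ∈ s, mult hf τ (φ b) := by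
  classical
  induction s using Finset.induction_on with
  | empty => simpa using mult_zero
  | insert a s ha ih =>
    simp only [Finset.sum_insert ha]
    rw [mult_add, ih]

theorem mult_one (h2 : 2 * hf = 1) (h0 : τ 0 = 1) : mult hf τ (fun _ => 1) = 1 := by
  unfold mult kern
  rw [Finset.sum_eq_single 0]
  · simp only [one_mul, sum_sg_dot, if_true]
    rw [← mul_pow, mul_comm hf, h2, one_pow, one_smul, h0]
  · intro g _ hg
    simp only [one_mul, sum_sg_dot, if_neg hg, mul_zero, zero_smul]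
  · simp

theorem tau_mul_mult (hτ : ∀ a b, τ (a + b) = τ a * τ b) (t : α → ZMod 2)
    (φ : (α → ZMod 2) → Λ) :
    τ t * mult hf τ φ = mult hf τ (fun ξ => sg Λ (ξ ⬝ᵥ t) * φ ξ) := by
  unfold mult
  rw [Finset.mul_sum, ← Equiv.sum_comp (Equiv.addLeft t)]
  refine Finset.sum_congr rfl fun g _ => ?_
  simp only [Equiv.coe_addLeft]
  rw [mul_smul_comm, ← hτ, ← add_assoc, add_self_pi, zero_add]
  congr 1
  unfold kern
  congr 1
  refine Finset.sum_congr rfl fun ξ _ => ?_
  rw [dotProduct_add, sg_add]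
  ring

theorem mult_mul_mult (h2 : 2 * hf = 1) (hτ : ∀ a b, τ (a + b) = τ a * τ b)
    (φ ψ : (α → ZMod 2) → Λ) :
    mult hf τ φ * mult hf τ ψ = mult hf τ (fun ξ => φ ξ * ψ ξ) := by
  conv_lhs => rw [mult, Finset.sum_mul]
  simp only [smul_mul_assoc, tau_mul_mult hτ, ← mult_smul]
  rw [← mult_sum]
  congr 1
  funext ξ
  simp only [← mul_assoc]
  rw [← Finset.sum_mul, sum_kern_sg h2]

end Mult

/-! ### quadratic phases -/

section Phase

/-- the lift `ZMod 2 → ZMod 4` with values `0`, `1` -/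
def lf (z : ZMod 2) : ZMod 4 := (z.val : ZMod 4)

theorem lf_zero : lf 0 = 0 := by decide

theorem lf_add (a b : ZMod 2) : lf (a + b) = lf a + lf b + 2 * (lf a * lf b) := by
  revert a b; decide

theorem lf_mul (a b : ZMod 2) : lf (a * b) = lf a * lf b := by
  revert a b; decide

theorem lf_mul_self (a : ZMod 2) : lf a * lf a = lf a := by
  revert a; decide

theorem two_mul_lf_add (a b : ZMod 2) : 2 * lf (a + b) = 2 * lf a + 2 * lf b := by
  revert a b; decide

theorem two_mul_lf_sum {β : Type} (s : Finset β) (z : β → ZMod 2) :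
    2 * lf (∑ b ∈ s, z b) = 2 * ∑ b ∈ s, lf (z b) := by
  classical
  induction s using Finset.induction_on with
  | empty => simp [lf_zero]
  | insert a s ha ih =>
    rw [Finset.sum_insert ha, Finset.sum_insert ha, two_mul_lf_add, ih, mul_add]

theorem lf_sum {β : Type} (s : Finset β) (z : β → ZMod 2) :
    lf (∑ b ∈ s, z b) = (∑ b ∈ s, lf (z b)) ^ 2 := by
  classical
  induction s using Finset.induction_on with
  | empty => simp [lf_zero]
  | insert a s ha ih =>
    rw [Finset.sum_insert ha, Finset.sum_insert ha, lf_add]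
    have h1 := two_mul_lf_sum s z
    have h2 := lf_mul_self (z a)
    linear_combination ih + lf (z a) * h1 - h2

variable {ι : Type} [Fintype ι] [DecidableEq ι]

theorem two_mul_sum_symm (S : ι → ι → ZMod 4) (hS : ∀ a b, S a b = S b a) :
    2 * ∑ a, ∑ b, S a b = 2 * ∑ a, S a a := by
  have h1 : ∑ p ∈ (Finset.univ : Finset ι).offDiag, 2 * S p.1 p.2 = 0 := by
    refine Finset.sum_involution (fun p _ => p.swap) (fun p _ => ?_) (fun p hp _ => ?_)
      (fun p hp => ?_) (fun p _ => rfl)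
    · simp only [Prod.fst_swap, Prod.snd_swap]
      rw [hS p.2 p.1]
      have : (4 : ZMod 4) = 0 := by decide
      linear_combination S p.1 p.2 * this
    · intro h
      exact (Finset.mem_offDiag.1 hp).2.2 (congrArg Prod.snd h)
    · simp only [Finset.mem_offDiag, Finset.mem_univ, true_and] at hp ⊢
      exact Ne.symm hp
  rw [← Finset.sum_product' (f := S), ← Finset.diag_union_offDiag,
    Finset.sum_union (Finset.disjoint_diag_offDiag _), mul_add, Finset.mul_sum _ _ 2,
    Finset.mul_sum _ _ 2, h1, add_zero, Finset.sum_diag, Finset.mul_sum]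

/-- the quadratic form with values in `ZMod 4` attached to a matrix over `ZMod 2` -/
def Qf (e : Matrix ι ι (ZMod 2)) (ξ : ι → ZMod 2) : ZMod 4 :=
  ∑ a, ∑ b, lf (e a b) * lf (ξ a) * lf (ξ b)

theorem Qf_add {e e' : Matrix ι ι (ZMod 2)} (he : e.IsSymm) (he' : e'.IsSymm)
    (ξ : ι → ZMod 2) :
    Qf (e + e') ξ = Qf e ξ + Qf e' ξ + 2 * lf (ξ ⬝ᵥ fun a => e a a * e' a a) := by
  have h1 := two_mul_sum_symm (fun a b => lf (e a b) * lf (e' a b) * lf (ξ a) * lf (ξ b))
    (fun a b => by rw [he.apply a b, he'.apply a b]; ring)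
  have h2 : ∑ a, lf (e a a) * lf (e' a a) * lf (ξ a) * lf (ξ a) =
      ∑ a, lf (ξ a * (e a a * e' a a)) := by
    refine Finset.sum_congr rfl fun a _ => ?_
    rw [lf_mul, lf_mul, mul_assoc, lf_mul_self]
    ring
  unfold dotProduct
  rw [two_mul_lf_sum, ← h2, ← h1]
  unfold Qf
  simp only [Finset.mul_sum, ← Finset.sum_add_distrib, Matrix.add_apply, lf_add]
  refine Finset.sum_congr rfl fun a _ => Finset.sum_congr rfl fun b _ => ?_
  ring

theorem Qf_vecMulVec (u ξ : ι → ZMod 2) : Qf (vecMulVec u u) ξ = lf (ξ ⬝ᵥ u) := by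
  unfold dotProduct Qf
  rw [lf_sum, sq, Finset.sum_mul_sum]
  refine Finset.sum_congr rfl fun a _ => Finset.sum_congr rfl fun b _ => ?_
  rw [vecMulVec_apply, lf_mul, lf_mul, lf_mul]
  ring

theorem Qf_one (ξ : ι → ZMod 2) : Qf (1 : Matrix ι ι (ZMod 2)) ξ = ∑ a, lf (ξ a) := by
  unfold Qf
  refine Finset.sum_congr rfl fun a _ => ?_
  rw [Finset.sum_eq_single a]
  · have : lf 1 = 1 := by decide
    rw [Matrix.one_apply_eq, this, one_mul, lf_mul_self]
  · intro b _ hb
    rw [Matrix.one_apply_ne (Ne.symm hb), lf_zero, zero_mul, zero_mul]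
  · simp

variable {Λ : Type} [CommRing Λ]

/-- the power `i ^ n` for `n` modulo four -/
def ipw (i : Λ) (n : ZMod 4) : Λ := i ^ n.val

variable {i : Λ}

theorem ipw_zero : ipw i 0 = 1 := by simp [ipw]

theorem ipw_add (hi : i * i = -1) (a b : ZMod 4) : ipw i (a + b) = ipw i a * ipw i b := by
  have h4 : i ^ 4 = 1 := by
    calc i ^ 4 = (i * i) * (i * i) := by ring
      _ = 1 := by rw [hi]; ring
  unfold ipw
  rw [ZMod.val_add, ← pow_add]
  conv_rhs => rw [← Nat.mod_add_div (a.val + b.val) 4, pow_add, pow_mul, h4, one_pow, mul_one]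

theorem ipw_sum (hi : i * i = -1) {β : Type} (s : Finset β) (z : β → ZMod 4) :
    ipw i (∑ b ∈ s, z b) = ∏ b ∈ s, ipw i (z b) := by
  classical
  induction s using Finset.induction_on with
  | empty => simp [ipw_zero]
  | insert a s ha ih => rw [Finset.sum_insert ha, Finset.prod_insert ha, ipw_add hi, ih]

theorem ipw_two_mul_lf (hi : i * i = -1) (z : ZMod 2) : ipw i (2 * lf z) = sg Λ z := by
  rcases zmod2_cases z with rfl | rfl
  · simp [lf_zero, ipw_zero]
  · have : (2 * lf 1).val = 2 := by decide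
    rw [ipw, this, sg_one, sq, hi]

theorem ipw_lf {hf : Λ} (h2 : 2 * hf = 1) (z : ZMod 2) :
    ipw i (lf z) = hf * (1 + i) + hf * (1 - i) * sg Λ z := by
  rcases zmod2_cases z with rfl | rfl
  · rw [lf_zero, ipw_zero, sg_zero]
    linear_combination -h2
  · have : (lf 1).val = 1 := by decide
    rw [ipw, this, sg_one]
    linear_combination (-i) * h2

end Phase

end Crest.Agent.X326.B3
end

-- ▼ part X326/B3/Frame
section

/-!
Row 326 (S0503), part M3: the frames of the butterfly network on functions `Bv → V`.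
`Phi e` is the operator with multiplier `∏ c, i ^ (ξ_cᵀ e ξ_c)` (one factor per column `c`);
an atom `u uᵀ` acts as `C` along the vectors `u ⊗ c` followed by a translation.
-/

set_option autoImplicit false
set_option linter.unusedSectionVars false

namespace Crest.Agent.X326.B3

open Matrix

section Ops

variable {Λ V : Type} [CommRing Λ] [AddCommGroup V] [Module Λ V]

/-- translation by the vector `z` -/
def trE (Λ : Type) [CommRing Λ] {V : Type} [AddCommGroup V] [Module Λ V] (z : Bv) :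
    Module.End Λ (Bv → V) where
  toFun y := fun b => y (b + z)
  map_add' _ _ := rfl
  map_smul' _ _ := rfl

theorem trE_apply (z : Bv) (y : Bv → V) (b : Bv) : trE Λ z y b = y (b + z) := rfl

theorem trE_zero : (trE Λ 0 : Module.End Λ (Bv → V)) = 1 := by
  ext y b
  simp [trE_apply]

theorem trE_add (z z' : Bv) :
    (trE Λ (z + z') : Module.End Λ (Bv → V)) = trE Λ z * trE Λ z' := by
  refine LinearMap.ext fun y => funext fun b => ?_
  simp [trE_apply, add_assoc]

/-- the butterfly along the vector `z` -/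
def Cv (i hf : Λ) (z : Bv) : Module.End Λ (Bv → V) :=
  (hf * (1 + i)) • 1 + (hf * (1 - i)) • trE Λ z

theorem Cv_apply (i hf : Λ) (z : Bv) (y : Bv → V) (b : Bv) :
    Cv i hf z y b = (hf * (1 + i)) • y b + (hf * (1 - i)) • y (b + z) := rfl

/-- the butterflies along the vectors `zs 0, …, zs (n - 1)` -/
def Cvs (i hf : Λ) (zs : ℕ → Bv) : ℕ → Module.End Λ (Bv → V)
  | 0 => 1
  | n + 1 => Cv i hf (zs n) * Cvs i hf zs n

theorem Crange_eq (i hf : Λ) (lo n : ℕ) (y : Bv → V) :
    Crange i hf lo n y = Cvs i hf (fun c => Pi.single (lo + c) 1) n y := by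
  induction n with
  | zero => rfl
  | succ n ih =>
    simp only [Crange, Cvs, Module.End.mul_apply, ih]
    rfl

theorem Cvs_congr (i hf : Λ) {zs zs' : ℕ → Bv} {n : ℕ} (h : ∀ c < n, zs c = zs' c) :
    (Cvs i hf zs n : Module.End Λ (Bv → V)) = Cvs i hf zs' n := by
  induction n with
  | zero => rfl
  | succ n ih =>
    simp only [Cvs]
    rw [h n (Nat.lt_succ_self n), ih fun c hc => h c (Nat.lt_succ_of_lt hc)]

theorem Cvs_zero {i hf : Λ} (h2 : 2 * hf = 1) (n : ℕ) :
    (Cvs i hf (fun _ => 0) n : Module.End Λ (Bv → V)) = 1 := by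
  induction n with
  | zero => rfl
  | succ n ih =>
    simp only [Cvs, ih, mul_one, Cv, trE_zero, ← add_smul]
    have : hf * (1 + i) + hf * (1 - i) = 1 := by linear_combination h2
    rw [this, one_smul]

/-- conjugation by an additive involution of the addresses -/
theorem Cvs_conj (i hf : Λ) (X : Bv → Bv) (hadd : ∀ a b, X (a + b) = X a + X b)
    (hinv : ∀ a, X (X a) = a) (zs : ℕ → Bv) (n : ℕ) (y : Bv → V) :
    (Cvs i hf zs n (y ∘ X)) ∘ X = Cvs i hf (fun c => X (zs c)) n y := by
  induction n with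
  | zero =>
    funext b
    simp [Cvs, hinv]
  | succ n ih =>
    funext b
    simp only [Cvs, Module.End.mul_apply, Function.comp, Cv_apply, ← ih]
    rw [hadd, hinv]

theorem xorMap_add (t s len : ℕ) (a b : Bv) :
    xorMap t s len (a + b) = xorMap t s len a + xorMap t s len b := by
  funext k
  simp only [xorMap, Pi.add_apply]
  split_ifs
  · ring
  · rfl

theorem xorMap_xorMap {t s len : ℕ} (h : t + len ≤ s) (a : Bv) :
    xorMap t s len (xorMap t s len a) = a := by
  funext k
  simp only [xorMap]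
  split_ifs with h1 h2
  · omega
  · rw [add_assoc, CharTwo.add_self_eq_zero, add_zero]
  · rfl

end Ops

section Groups

variable {m : ℕ}

theorem pos_inj {f a b c c' : ℕ} (hc : c < f) (hc' : c' < f) (h : a * f + c = b * f + c') :
    a = b ∧ c = c' := by
  have hf : 0 < f := by omega
  have h1 : (a * f + c) / f = a := by
    rw [Nat.add_comm, Nat.add_mul_div_right _ _ hf, Nat.div_eq_of_lt hc, zero_add]
  have h2 : (b * f + c') / f = b := by
    rw [Nat.add_comm, Nat.add_mul_div_right _ _ hf, Nat.div_eq_of_lt hc', zero_add]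
  have hab : a = b := by rw [← h1, h, h2]
  subst hab
  exact ⟨rfl, by omega⟩

/-- the address vector of a family of bits indexed by (group, column) -/
def emb (lo f : ℕ) (g : Fin m × Fin f → ZMod 2) : Bv :=
  ∑ p : Fin m × Fin f, Pi.single (lo + p.1 * f + p.2) (g p)

theorem emb_add (lo f : ℕ) (g g' : Fin m × Fin f → ZMod 2) :
    emb lo f (g + g') = emb lo f g + emb lo f g' := by
  simp only [emb, Pi.add_apply, Pi.single_add, Finset.sum_add_distrib]

theorem emb_zero (lo f : ℕ) : emb lo f (0 : Fin m × Fin f → ZMod 2) = 0 := by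
  simp [emb]

theorem emb_apply_pos (lo f : ℕ) (g : Fin m × Fin f → ZMod 2) (p : Fin m × Fin f) :
    emb lo f g (lo + p.1 * f + p.2) = g p := by
  unfold emb
  rw [Finset.sum_apply, Finset.sum_eq_single p]
  · simp
  · intro q _ hq
    rw [Pi.single_eq_of_ne]
    intro h
    have := pos_inj p.2.2 q.2.2 (a := p.1) (b := q.1) (by omega)
    exact hq (Prod.ext (Fin.ext this.1.symm) (Fin.ext this.2.symm))
  · simp

theorem emb_apply_of_ne (lo f : ℕ) (g : Fin m × Fin f → ZMod 2) {k : ℕ}
    (h : ∀ p : Fin m × Fin f, lo + p.1 * f + p.2 ≠ k) : emb lo f g k = 0 := by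
  unfold emb
  rw [Finset.sum_apply]
  exact Finset.sum_eq_zero fun p _ => Pi.single_eq_of_ne (h p).symm _

/-- two address vectors supported on the groups are compared on the groups -/
theorem eq_emb (lo f : ℕ) (g : Fin m × Fin f → ZMod 2) (z : Bv)
    (h1 : ∀ p : Fin m × Fin f, z (lo + p.1 * f + p.2) = g p)
    (h2 : ∀ k, (∀ p : Fin m × Fin f, lo + p.1 * f + p.2 ≠ k) → z k = 0) : z = emb lo f g := by
  funext k
  by_cases hk : ∃ p : Fin m × Fin f, lo + p.1 * f + p.2 = k
  · obtain ⟨p, rfl⟩ := hk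
    rw [h1, emb_apply_pos]
  · push Not at hk
    rw [h2 k hk, emb_apply_of_ne _ _ _ hk]

/-- the vector `u` placed in column `c` -/
def col (f : ℕ) (u : Fin m → ZMod 2) (c : ℕ) : Fin m × Fin f → ZMod 2 :=
  fun p => if p.2.val = c then u p.1 else 0

/-- the vector `t` placed in all columns -/
def allc (f : ℕ) (t : Fin m → ZMod 2) : Fin m × Fin f → ZMod 2 := fun p => t p.1

theorem dot_col {f : ℕ} (ξ : Fin m × Fin f → ZMod 2) (u : Fin m → ZMod 2) (c : Fin f) :
    ξ ⬝ᵥ col f u c = (fun γ => ξ (γ, c)) ⬝ᵥ u := by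
  unfold dotProduct col
  rw [Fintype.sum_prod_type]
  refine Finset.sum_congr rfl fun γ _ => ?_
  rw [Finset.sum_eq_single c]
  · simp
  · intro c' _ hc'
    rw [if_neg (fun h => hc' (Fin.ext h)), mul_zero]
  · simp

theorem dot_allc {f : ℕ} (ξ : Fin m × Fin f → ZMod 2) (t : Fin m → ZMod 2) :
    ξ ⬝ᵥ allc f t = ∑ c : Fin f, (fun γ => ξ (γ, c)) ⬝ᵥ t := by
  unfold dotProduct allc
  rw [Fintype.sum_prod_type, Finset.sum_comm]

theorem single_eq_emb_col (lo : ℕ) {f : ℕ} (s : Fin m) {c : ℕ} (hc : c < f) :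
    (Pi.single (lo + s * f + c) 1 : Bv) = emb lo f (col f (Pi.single s 1) c) := by
  refine eq_emb lo f _ _ (fun p => ?_) (fun k hk => ?_)
  · simp only [col, Pi.single_apply]
    by_cases h : lo + p.1 * f + p.2 = lo + s * f + c
    · have := pos_inj p.2.2 hc (a := p.1) (b := s) (by omega)
      rw [if_pos h, if_pos this.2, if_pos (Fin.ext this.1)]
    · rw [if_neg h]
      split_ifs with h1 h2
      · exact absurd (by rw [h1, h2]) h
      · rfl
      · rfl
  · exact Pi.single_eq_of_ne (hk (s, ⟨c, hc⟩)).symm _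

theorem xorMap_emb_col (lo : ℕ) {f : ℕ} (t s : Fin m) (u : Fin m → ZMod 2) (c : ℕ) :
    xorMap (lo + t * f) (lo + s * f) f (emb lo f (col f u c)) =
      emb lo f (col f (u + Pi.single t (u s)) c) := by
  refine eq_emb lo f _ _ (fun p => ?_) (fun k hk => ?_)
  · simp only [xorMap]
    split_ifs with h
    · have h1 : (p.1 : ℕ) = t ∧ (p.2 : ℕ) = p.1 * f + p.2 - t * f :=
        pos_inj p.2.2 (by omega) (by omega)
      have h2 : lo + p.1 * f + p.2 - (lo + t * f) + (lo + s * f) = lo + s * f + p.2 := by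
        rw [h1.1]; omega
      have h3 := emb_apply_pos lo f (col f u c) (s, p.2)
      simp only at h3
      rw [h2, h3, emb_apply_pos]
      simp only [col, Pi.add_apply, Pi.single_apply, if_pos (Fin.ext h1.1 : p.1 = t)]
      split_ifs <;> simp
    · have h1 : p.1 ≠ t := by
        rintro rfl
        have := p.2.2
        omega
      rw [emb_apply_pos]
      simp only [col, Pi.add_apply, Pi.single_eq_of_ne h1, add_zero]
  · simp only [xorMap]
    split_ifs with h
    · exact absurd (by simp only; omega) (hk (t, ⟨k - (lo + t * f), by omega⟩))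
    · exact emb_apply_of_ne _ _ _ hk

theorem flipMap_eq (lo f : ℕ) (t : Fin m) (b : Bv) :
    flipMap (lo + t * f) f b = b + emb lo f (allc f (Pi.single t 1)) := by
  have : (fun k => if lo + t * f ≤ k ∧ k < lo + t * f + f then (1 : ZMod 2) else 0) =
      emb lo f (allc f (Pi.single t (1 : ZMod 2))) := by
    refine eq_emb lo f _ _ (fun p => ?_) (fun k hk => ?_)
    · simp only [allc, Pi.single_apply]
      by_cases h : p.1 = t
      · have := p.2.2
        rw [if_pos h, if_pos (by rw [h]; omega)]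
      · rw [if_neg h, if_neg]
        intro h1
        have h2 : (p.1 : ℕ) = t ∧ (p.2 : ℕ) = p.1 * f + p.2 - t * f :=
          pos_inj p.2.2 (by omega) (by omega)
        exact h (Fin.ext h2.1)
    · rw [if_neg]
      intro h
      exact absurd (by simp only; omega) (hk (t, ⟨k - (lo + t * f), by omega⟩))
  rw [← this]
  funext k
  simp only [flipMap, Pi.add_apply]
  split_ifs <;> simp

end Groups

section Frames

variable {Λ V : Type} [CommRing Λ] [AddCommGroup V] [Module Λ V] {m : ℕ}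

/-- the translations along the groups -/
def tau (Λ : Type) [CommRing Λ] (V : Type) [AddCommGroup V] [Module Λ V] (lo f : ℕ)
    (g : Fin m × Fin f → ZMod 2) : Module.End Λ (Bv → V) :=
  trE Λ (emb lo f g)

theorem tau_zero (lo f : ℕ) : tau Λ V lo f (0 : Fin m × Fin f → ZMod 2) = 1 := by
  rw [tau, emb_zero, trE_zero]

theorem tau_add (lo f : ℕ) (a b : Fin m × Fin f → ZMod 2) :
    tau Λ V lo f (a + b) = tau Λ V lo f a * tau Λ V lo f b := by
  rw [tau, emb_add, trE_add]
  rfl

variable {i hf : Λ}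

theorem Cvs_mul_mult (h2 : 2 * hf = 1) (lo f : ℕ) (gs : ℕ → Fin m × Fin f → ZMod 2) (n : ℕ)
    (φ : (Fin m × Fin f → ZMod 2) → Λ) :
    Cvs i hf (fun c => emb lo f (gs c)) n * mult hf (tau Λ V lo f) φ =
      mult hf (tau Λ V lo f)
        (fun ξ => (∏ c ∈ Finset.range n, ipw i (lf (ξ ⬝ᵥ gs c))) * φ ξ) := by
  induction n with
  | zero => simp [Cvs]
  | succ n ih =>
    simp only [Cvs]
    rw [mul_assoc, ih, Cv, add_mul, smul_mul_assoc, smul_mul_assoc, one_mul]
    have := tau_mul_mult (hf := hf) (tau_add (Λ := Λ) (V := V) lo f) (gs n)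
    rw [tau] at this
    rw [this, ← mult_smul, ← mult_smul, ← mult_add]
    congr 1
    funext ξ
    rw [Finset.prod_range_succ, ipw_lf h2 (ξ ⬝ᵥ gs n)]
    ring

/-- the phase of a label -/
def phase (i : Λ) (f : ℕ) (e : Matrix (Fin m) (Fin m) (ZMod 2))
    (ξ : Fin m × Fin f → ZMod 2) : Λ :=
  ipw i (∑ c : Fin f, Qf e (fun γ => ξ (γ, c)))

/-- the frame of a label -/
def Phi (V : Type) [AddCommGroup V] [Module Λ V] (i hf : Λ) (lo f : ℕ)
    (e : Matrix (Fin m) (Fin m) (ZMod 2)) : Module.End Λ (Bv → V) :=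
  mult hf (tau Λ V lo f) (phase i f e)

theorem phase_add (hi : i * i = -1) (f : ℕ) {e e' : Matrix (Fin m) (Fin m) (ZMod 2)}
    (he : e.IsSymm) (he' : e'.IsSymm) (ξ : Fin m × Fin f → ZMod 2) :
    phase i f (e + e') ξ =
      sg Λ (ξ ⬝ᵥ allc f fun a => e a a * e' a a) * (phase i f e' ξ * phase i f e ξ) := by
  unfold phase
  simp only [Qf_add he he', Finset.sum_add_distrib]
  rw [ipw_add hi, ipw_add hi, ← Finset.mul_sum, ← two_mul_lf_sum, ipw_two_mul_lf hi, dot_allc]
  ring

/-- the operator of an atom `u uᵀ` started at the label `e` -/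
def actB (V : Type) [AddCommGroup V] [Module Λ V] (i hf : Λ) (lo f : ℕ)
    (e : Matrix (Fin m) (Fin m) (ZMod 2)) (u : Fin m → ZMod 2) : Module.End Λ (Bv → V) :=
  tau Λ V lo f (allc f fun a => e a a * u a) * Cvs i hf (fun c => emb lo f (col f u c)) f

theorem actB_mul_Phi (hi : i * i = -1) (h2 : 2 * hf = 1) (lo f : ℕ)
    {e : Matrix (Fin m) (Fin m) (ZMod 2)} (he : e.IsSymm) (u : Fin m → ZMod 2) :
    actB V i hf lo f e u * Phi V i hf lo f e = Phi V i hf lo f (e + vecMulVec u u) := by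
  have hu : (vecMulVec u u).IsSymm := by
    ext a b
    simp [vecMulVec_apply, mul_comm]
  unfold actB Phi
  rw [mul_assoc, Cvs_mul_mult h2, tau_mul_mult (tau_add lo f)]
  congr 1
  funext ξ
  rw [phase_add hi f he hu]
  have h1 : ∀ a, vecMulVec u u a a = u a := fun a => by
    rw [vecMulVec_apply]
    rcases zmod2_cases (u a) with h | h <;> simp [h]
  simp only [h1]
  congr 2
  unfold phase
  rw [ipw_sum hi, Finset.prod_range]
  refine Finset.prod_congr rfl fun c _ => ?_
  rw [Qf_vecMulVec, dot_col]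

theorem Crange_full_mul_Phi (hi : i * i = -1) (h2 : 2 * hf = 1) (lo f : ℕ)
    {e : Matrix (Fin m) (Fin m) (ZMod 2)} (he : e.IsSymm) :
    tau Λ V lo f (allc f fun a => e a a) * Phi V i hf lo f (e + 1) =
      Cvs i hf (fun c => Pi.single (lo + c) 1) (m * f) * Phi V i hf lo f e := by
  let gs : ℕ → Fin m × Fin f → ZMod 2 := fun j p => if p.1 * f + p.2 = j then 1 else 0
  have h1 : (Cvs i hf (fun c => Pi.single (lo + c) 1) (m * f) : Module.End Λ (Bv → V)) =
      Cvs i hf (fun c => emb lo f (gs c)) (m * f) := by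
    refine Cvs_congr i hf fun j hj => eq_emb lo f _ _ (fun p => ?_) (fun k hk => ?_)
    · simp only [gs, Pi.single_apply, add_assoc, Nat.add_left_cancel_iff]
    · have hf0 : 0 < f := Nat.pos_of_ne_zero (by rintro rfl; simp at hj)
      refine Pi.single_eq_of_ne (fun h => hk (⟨j / f, ?_⟩, ⟨j % f, Nat.mod_lt _ hf0⟩) ?_) _
      · rwa [Nat.div_lt_iff_lt_mul hf0]
      · simp only [h, add_assoc, Nat.div_add_mod']
  unfold Phi
  rw [h1, Cvs_mul_mult h2, tau_mul_mult (tau_add lo f)]
  congr 1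
  funext ξ
  rw [phase_add hi f he Matrix.isSymm_one]
  simp only [Matrix.one_apply_eq, mul_one]
  rw [← mul_assoc, ← sg_add, CharTwo.add_self_eq_zero, sg_zero, one_mul]
  congr 1
  unfold phase
  simp only [Qf_one]
  rw [Finset.sum_comm, ← Fintype.sum_prod_type (f := fun p : Fin m × Fin f => lf (ξ p)),
    ipw_sum hi, Finset.prod_range, ← Equiv.prod_comp finProdFinEquiv]
  refine Finset.prod_congr rfl fun p _ => ?_
  congr 2
  unfold dotProduct
  rw [Finset.sum_eq_single p]
  · simp [gs, finProdFinEquiv, mul_comm, add_comm]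
  · intro q _ hq
    simp only [gs]
    rw [if_neg, mul_zero]
    intro h
    have : (q.1 : ℕ) = p.1 ∧ (q.2 : ℕ) = p.2 := pos_inj q.2.2 p.2.2 (by
      rw [h]; simp [finProdFinEquiv, mul_comm, add_comm])
    exact hq (Prod.ext (Fin.ext this.1) (Fin.ext this.2))
  · simp

theorem Phi_surjective (hi : i * i = -1) (h2 : 2 * hf = 1) (lo f : ℕ)
    (e : Matrix (Fin m) (Fin m) (ZMod 2)) (y : Bv → V) : ∃ x, Phi V i hf lo f e x = y := by
  refine ⟨mult hf (tau Λ V lo f) (fun ξ => ipw i (-∑ c : Fin f, Qf e (fun γ => ξ (γ, c)))) y, ?_⟩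
  rw [← Module.End.mul_apply, Phi, mult_mul_mult h2 (tau_add lo f)]
  simp only [phase, ← ipw_add hi, add_neg_cancel, ipw_zero]
  rw [mult_one h2 (tau_zero lo f)]
  rfl

end Frames

end Crest.Agent.X326.B3
private theorem rz_b5ef0d21d7 : type_of% @_root_.Crest.Agent.X326.B3.Cvs.eq_def := @_root_.Crest.Agent.X326.B3.Cvs.eq_def -- L48
private theorem rz_fc036929b5 : type_of% @_root_.Crest.Agent.X326.B3.Cvs.eq_1 := @_root_.Crest.Agent.X326.B3.Cvs.eq_1 -- L48
end

-- ▼ part X326/B3/Prog
section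

/-!
Row 326 (S0503), part M3: translation of the butterfly network into a program of
`add | xor | flip | call` instructions (`CProg`).
-/

set_option autoImplicit false
set_option linter.unusedSectionVars false

namespace Crest.Agent.X326.B3

open Matrix Crest.Agent.X326.Net

variable {W m : ℕ}

/-- the call on group `s` conjugated by the `xor`s into the groups `ts` -/
def conjProg (w : Fin W) (s : Fin m) : List (Fin m) → List (Ins W m)
  | [] => [Ins.call w s]
  | t :: ts => Ins.xor w t s :: (conjProg w s ts ++ [Ins.xor w t s])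

/-- flips of the groups in the support of `t` -/
def flips (w : Fin W) (t : Fin m → ZMod 2) : List (Ins W m) :=
  ((List.finRange m).filter fun a => t a = 1).map (Ins.flip w)

/-- the support of a vector -/
def supp (u : Fin m → ZMod 2) : Finset (Fin m) := Finset.univ.filter fun a => u a = 1

/-- the program of an atom -/
noncomputable def atomProg (w : Fin W) (e : Matrix (Fin m) (Fin m) (ZMod 2))
    (u : Fin m → ZMod 2) : List (Ins W m) :=
  (if h : (supp u).Nonempty then
    conjProg w ((supp u).max' h) ((supp u).erase ((supp u).max' h)).toList else []) ++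
  flips w fun a => e a a * u a

/-- translation of one instruction of the network -/
noncomputable def trInstr : Instr (Fin W) (ℤ × ℕ) (ZMod 2) (Fin m) → List (Ins W m)
  | .add w w' q => [Ins.add w w' q.1 q.2]
  | .atom w e u _ => atomProg w e u

/-! ### side conditions and call counts -/

theorem ncalls_append (P Q : List (Ins W m)) : ncalls (P ++ Q) = ncalls P + ncalls Q := by
  simp [ncalls]

theorem ncalls_conjProg (w : Fin W) (s : Fin m) (ts : List (Fin m)) :
    ncalls (conjProg w s ts) = 1 := by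
  induction ts with
  | nil => rfl
  | cons t ts ih =>
    simp only [ncalls] at ih
    simp [conjProg, ncalls, Ins.isCall, ih]

theorem ncalls_flips (w : Fin W) (t : Fin m → ZMod 2) : ncalls (flips w t) = 0 := by
  simp [ncalls, flips, Ins.isCall]

theorem ncalls_atomProg (w : Fin W) (e : Matrix (Fin m) (Fin m) (ZMod 2)) (u : Fin m → ZMod 2) :
    ncalls (atomProg w e u) ≤ 1 := by
  unfold atomProg
  rw [ncalls_append, ncalls_flips]
  split_ifs
  · rw [ncalls_conjProg]
  · simp [ncalls]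

theorem ncalls_flatMap (P : List (Instr (Fin W) (ℤ × ℕ) (ZMod 2) (Fin m))) :
    ncalls (P.flatMap trInstr) ≤ natoms P := by
  induction P with
  | nil => simp [ncalls]
  | cons ins P ih =>
    rw [List.flatMap_cons, ncalls_append]
    cases ins with
    | add w w' q =>
      rw [natoms_cons_add]
      have : ncalls (trInstr (Instr.add w w' q : Instr (Fin W) (ℤ × ℕ) (ZMod 2) (Fin m))) = 0 :=
        rfl
      omega
    | atom w e u v =>
      rw [natoms_cons_atom]
      have := ncalls_atomProg w e u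
      simp only [trInstr]
      omega

theorem ok_conjProg (w : Fin W) (s : Fin m) (ts : List (Fin m)) (h : ∀ t ∈ ts, t < s) :
    ∀ ins ∈ conjProg w s ts, ins.ok := by
  induction ts with
  | nil =>
    intro ins hins
    simp only [conjProg, List.mem_singleton] at hins
    subst hins
    trivial
  | cons t ts ih =>
    intro ins hins
    simp only [conjProg, List.mem_cons, List.mem_append, List.not_mem_nil, or_false] at hins
    rcases hins with rfl | hins | rfl
    · exact h t List.mem_cons_self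
    · exact ih (fun t ht => h t (List.mem_cons_of_mem _ ht)) ins hins
    · exact h t List.mem_cons_self

theorem ok_flips (w : Fin W) (t : Fin m → ZMod 2) : ∀ ins ∈ flips w t, ins.ok := by
  intro ins hins
  obtain ⟨a, -, rfl⟩ := List.mem_map.1 hins
  trivial

theorem lt_max_of_mem {u : Fin m → ZMod 2} (h : (supp u).Nonempty) :
    ∀ t ∈ ((supp u).erase ((supp u).max' h)).toList, t < (supp u).max' h := by
  intro t ht
  rw [Finset.mem_toList] at ht
  exact Finset.lt_max'_of_mem_erase_max' _ h ht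

theorem ok_trInstr (ins : Instr (Fin W) (ℤ × ℕ) (ZMod 2) (Fin m)) :
    ∀ j ∈ trInstr ins, j.ok := by
  cases ins with
  | add w w' q =>
    intro j hj
    simp only [trInstr, List.mem_singleton] at hj
    subst hj
    trivial
  | atom w e u v =>
    intro j hj
    simp only [trInstr, atomProg, List.mem_append] at hj
    rcases hj with hj | hj
    · split_ifs at hj with h
      · exact ok_conjProg _ _ _ (lt_max_of_mem h) j hj
      · simp at hj
    · exact ok_flips _ _ j hj

/-! ### semantics -/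

section Sem

variable {Λ V : Type} [CommRing Λ] [AddCommGroup V] [Module Λ V] {i hf : Λ}

theorem runIns_append (lo f : ℕ) (P Q : List (Ins W m)) (x : Fin W → Bv → V) :
    runIns i hf lo f (P ++ Q) x = runIns i hf lo f Q (runIns i hf lo f P x) := by
  simp [runIns, List.foldl_append]

theorem runIns_cons (lo f : ℕ) (ins : Ins W m) (P : List (Ins W m)) (x : Fin W → Bv → V) :
    runIns i hf lo f (ins :: P) x = runIns i hf lo f P (ins.exec i hf lo f x) := rfl

theorem runIns_conjProg (lo f : ℕ) (w : Fin W) (s : Fin m) (ts : List (Fin m))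
    (h : ∀ t ∈ ts, t < s) (x : Fin W → Bv → V) :
    runIns i hf lo f (conjProg w s ts) x = Function.update x w
      (Cvs i hf (fun c => emb lo f (col f
        (Pi.single s 1 + (ts.map fun t => (Pi.single t 1 : Fin m → ZMod 2)).sum) c)) f (x w)) := by
  induction ts generalizing x with
  | nil =>
    simp only [conjProg, runIns, List.foldl_cons, List.foldl_nil, Ins.exec, List.map_nil,
      List.sum_nil, add_zero]
    rw [Crange_eq, Cvs_congr i hf fun c hc => single_eq_emb_col lo s hc]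
  | cons t ts ih =>
    have hts : t < s := h t List.mem_cons_self
    have h' : ∀ t ∈ ts, t < s := fun t ht => h t (List.mem_cons_of_mem _ ht)
    simp only [conjProg]
    rw [runIns_cons, runIns_append, ih h']
    simp only [runIns, List.foldl_cons, List.foldl_nil, Ins.exec, Function.update_self,
      Function.update_idem]
    have hle : lo + t * f + f ≤ lo + s * f := by
      have : (t.val + 1) * f ≤ s * f := Nat.mul_le_mul_right _ hts
      rw [add_mul, one_mul] at this
      omega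
    rw [Cvs_conj i hf _ (xorMap_add _ _ _) (xorMap_xorMap hle)]
    have h1 : ((Pi.single s 1 + (ts.map fun t => (Pi.single t 1 : Fin m → ZMod 2)).sum :
        Fin m → ZMod 2) s) = 1 := by
      rw [Pi.add_apply, Pi.single_eq_same, Pi.list_sum_apply, List.map_map,
        List.sum_eq_zero, add_zero]
      intro z hz
      obtain ⟨t', ht', rfl⟩ := List.mem_map.1 hz
      exact Pi.single_eq_of_ne (h' t' ht').ne' _
    simp only [xorMap_emb_col, h1, List.map_cons, List.sum_cons]
    rw [add_assoc, add_comm (List.sum _)]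

theorem runIns_map_flip (lo f : ℕ) (w : Fin W) (ts : List (Fin m)) (x : Fin W → Bv → V) :
    runIns i hf lo f (ts.map (Ins.flip w)) x = Function.update x w
      (tau Λ V lo f (allc f (ts.map fun t => (Pi.single t 1 : Fin m → ZMod 2)).sum) (x w)) := by
  induction ts generalizing x with
  | nil =>
    have : allc f (0 : Fin m → ZMod 2) = 0 := rfl
    simp [runIns, this, tau_zero]
  | cons t ts ih =>
    rw [List.map_cons, runIns_cons, ih]
    simp only [Ins.exec, Function.update_self, Function.update_idem, List.map_cons,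
      List.sum_cons]
    congr 1
    funext b
    have : ∀ u v : Fin m → ZMod 2, allc f (u + v) = allc f u + allc f v := fun _ _ => rfl
    simp only [tau, trE_apply, Function.comp, flipMap_eq, this, emb_add]
    congr 1
    abel

theorem sum_single_supp (u : Fin m → ZMod 2) :
    ∑ a ∈ supp u, (Pi.single a 1 : Fin m → ZMod 2) = u := by
  funext b
  rw [Finset.sum_apply]
  simp only [Pi.single_apply, Finset.sum_ite_eq, supp, Finset.mem_filter, Finset.mem_univ,
    true_and]
  rcases zmod2_cases (u b) with h | h <;> simp [h]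

theorem runIns_flips (lo f : ℕ) (w : Fin W) (t : Fin m → ZMod 2) (x : Fin W → Bv → V) :
    runIns i hf lo f (flips w t) x = Function.update x w (tau Λ V lo f (allc f t) (x w)) := by
  unfold flips
  rw [runIns_map_flip]
  congr 4
  rw [← List.sum_toFinset _ ((List.nodup_finRange m).filter _)]
  refine Eq.trans (Finset.sum_congr ?_ fun _ _ => rfl) (sum_single_supp t)
  ext a
  simp [supp]

theorem runIns_atomProg (h2 : 2 * hf = 1) (lo f : ℕ) (w : Fin W)
    (e : Matrix (Fin m) (Fin m) (ZMod 2)) (u : Fin m → ZMod 2) (x : Fin W → Bv → V) :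
    runIns i hf lo f (atomProg w e u) x =
      Function.update x w (actB V i hf lo f e u (x w)) := by
  unfold atomProg actB
  rw [runIns_append, runIns_flips, Module.End.mul_apply]
  split_ifs with h
  · rw [runIns_conjProg lo f w _ _ (lt_max_of_mem h), Function.update_self, Function.update_idem,
      Finset.sum_map_toList, Finset.add_sum_erase _ (fun a => (Pi.single a 1 : Fin m → ZMod 2))
        (Finset.max'_mem _ h), sum_single_supp]
  · have hu : u = 0 := by
      rw [← sum_single_supp u, Finset.not_nonempty_iff_eq_empty.1 h, Finset.sum_empty]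
    have h0 : (fun c => emb lo f (col f u c)) = fun _ => 0 := by
      funext c
      have : col f u c = 0 := by
        funext p
        simp [col, hu]
      rw [this, emb_zero]
    rw [h0, Cvs_zero h2]
    rfl

theorem runIns_flatMap (h2 : 2 * hf = 1) (lo f : ℕ)
    (P : List (Instr (Fin W) (ℤ × ℕ) (ZMod 2) (Fin m))) (x : Fin W → Bv → V) :
    runIns i hf lo f (P.flatMap trInstr) x =
      run (fun e u _ y => actB V i hf lo f e u y) (P.map (Instr.mapCoef (coefVal hf))) x := by
  induction P generalizing x with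
  | nil => rfl
  | cons ins P ih =>
    rw [List.flatMap_cons, runIns_append, List.map_cons, run_cons, ih]
    congr 1
    cases ins with
    | add w w' q => rfl
    | atom w e u v => exact runIns_atomProg h2 lo f w e u x

theorem runIns_flipsAll (lo f : ℕ) (t : Fin W → Fin m → ZMod 2) (ws : List (Fin W))
    (hws : ws.Nodup) (x : Fin W → Bv → V) (w : Fin W) :
    runIns i hf lo f (ws.flatMap fun w => flips w (t w)) x w =
      if w ∈ ws then tau Λ V lo f (allc f (t w)) (x w) else x w := by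
  induction ws generalizing x with
  | nil => rfl
  | cons a ws ih =>
    rw [List.nodup_cons] at hws
    rw [List.flatMap_cons, runIns_append, ih hws.2, runIns_flips]
    by_cases hw : w = a
    · subst hw
      rw [if_neg hws.1, if_pos List.mem_cons_self, Function.update_self]
    · simp only [Function.update_of_ne hw, List.mem_cons, hw, false_or]

end Sem

/-- a butterfly network gives a `CProg` -/
theorem cprog_of_netSpec {P : List (Instr (Fin W) (ℤ × ℕ) (ZMod 2) (Fin m))} {ρ : Fin W ≃ Fin W}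
    {lin lout : Fin W → Matrix (Fin m) (Fin m) (ZMod 2)}
    (h : ∀ (R : Type) [CommRing R] (hf : R), 2 * hf = 1 →
      NetSpec R True 1 (P.map (Instr.mapCoef (coefVal hf))) ρ lin lout) :
    ∃ P' : List (Ins W m), CProg P' ρ ∧ ncalls P' ≤ natoms P := by
  refine ⟨P.flatMap trInstr ++
    (List.finRange W).flatMap fun w => flips w fun a => lin (ρ.symm w) a a, ⟨?_, ?_⟩, ?_⟩
  · intro ins hins
    rcases List.mem_append.1 hins with hins | hins
    · obtain ⟨j, -, hj⟩ := List.mem_flatMap.1 hins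
      exact ok_trInstr j ins hj
    · obtain ⟨w, -, hw⟩ := List.mem_flatMap.1 hins
      exact ok_flips _ _ ins hw
  · intro Λ V _ _ _ i hf hi h2 lo f y w
    have hs := h Λ hf h2
    choose x hx using fun w => Phi_surjective (V := V) hi h2 lo f (lin w) (y w)
    have hy : y = fun w => Phi V i hf lo f (lin w) (x w) := funext fun w => (hx w).symm
    rw [runIns_append, runIns_flipsAll lo f _ _ (List.nodup_finRange W),
      if_pos (List.mem_finRange _), runIns_flatMap h2, Equiv.symm_apply_apply, ← hx w, Crange_eq]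
    conv_lhs => rw [hy]
    have hfr := frame (Phi V i hf lo f) (fun e u _ y => actB V i hf lo f e u y) hs.valid (by
      intro w' e u v hm z
      obtain ⟨rfl, he⟩ := hs.symm trivial w' e u v hm
      rw [← Module.End.mul_apply, actB_mul_Phi hi h2 lo f he]) x
    rw [hfr]
    beta_reduce
    rw [hs.logical, hs.label, ← Module.End.mul_apply,
      Crange_full_mul_Phi hi h2 lo f (hs.symm_in trivial w), Module.End.mul_apply]
  · rw [ncalls_append]
    have h1 := ncalls_flatMap P
    have h2 : ∀ ws : List (Fin W),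
        ncalls (ws.flatMap fun w => flips w fun a => lin (ρ.symm w) a a) = 0 := by
      intro ws
      induction ws with
      | nil => rfl
      | cons a ws ih => rw [List.flatMap_cons, ncalls_append, ih, ncalls_flips]
    rw [h2]
    omega

/-- **The field-level program of part B**: `W = 2^63` wires, `m = 2^18` groups. -/
theorem exists_cprog :
    ∃ (W m : ℕ), W = 2 ^ 63 ∧ m = 2 ^ 18 ∧ ∃ (P : List (Ins W m)) (ρ : Fin W ≃ Fin W),
      CProg P ρ ∧ ncalls P * 2 ^ 40 + 13 * (W * m) ≤ W * m * 2 ^ 40 ∧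
        (ncalls P : ℝ) ≤ W * (m : ℝ) ^ (1 - 1 / (2 : ℝ) ^ 40) := by
  obtain ⟨W, m, hW, hm, P, ρ, lin, lout, hspec, hcount, -⟩ := netB
  obtain ⟨P', hP', hn⟩ := cprog_of_netSpec hspec
  have h1 : ncalls P' * 2 ^ 40 + 13 * (W * m) ≤ W * m * 2 ^ 40 :=
    le_trans (Nat.add_le_add_right (Nat.mul_le_mul_right _ hn) _) hcount
  exact ⟨W, m, hW, hm, P', ρ, hP', h1, count_le_rpow hm h1⟩

end Crest.Agent.X326.B3
private theorem rz_1a005b2300 : type_of% @_root_.Crest.Agent.X326.B3.conjProg.eq_def := @_root_.Crest.Agent.X326.B3.conjProg.eq_def -- L19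
private theorem rz_043082c6e9 : type_of% @_root_.Crest.Agent.X326.B3.conjProg.eq_1 := @_root_.Crest.Agent.X326.B3.conjProg.eq_1 -- L19
private theorem rz_a57d9a1d39 : type_of% @_root_.Crest.Agent.X326.B3.trInstr.eq_1 := @_root_.Crest.Agent.X326.B3.trInstr.eq_1 -- L38
end

-- ▼ part X326/B3/Adapt
section

/-!
Row 326 (S0503), part M3: adapters from the component theorems to the statements of `B3/Spec`.
-/

set_option autoImplicit false

namespace Crest.Agent.X326.B3

open Crest.Agent.Lib.PT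

namespace Ad

theorem sz_le_msz {α : Type} [PTCode α] {l : List α} {r : α} (h : r ∈ l) : sz r ≤ msz l := by
  induction l with
  | nil => simp at h
  | cons a l ih =>
    have e : msz (a :: l) = max (sz a) (msz l) := rfl
    rw [e]
    rcases List.mem_cons.1 h with rfl | h
    · exact le_max_left _ _
    · exact (ih h).trans (le_max_right _ _)

theorem le_two_pow_size (n : ℕ) : n ≤ 2 ^ n.size := (Nat.lt_size_self n).le

theorem pow_le_two_pow_size (n F : ℕ) : n ^ F ≤ 2 ^ (F * n.size) := by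
  rw [Nat.mul_comm, pow_mul]
  exact Nat.pow_le_pow_left (le_two_pow_size n) F

theorem size_N_le (L : Lay) : Nat.size L.N + 1 ≤ (sz L + 1) ^ 2 := by
  have h1 : L.N ≤ 2 ^ (L.Z.size + L.F * L.g.size + L.G2.size + L.F * L.R.size + L.G1.size +
      L.F * L.g.size + L.Pre.size) := by
    have e : L.N = L.Z * L.g ^ L.F * L.G2 * L.R ^ L.F * L.G1 * L.g ^ L.F * L.Pre := rfl
    rw [e]
    simp only [pow_add]
    exact Nat.mul_le_mul (Nat.mul_le_mul (Nat.mul_le_mul (Nat.mul_le_mul (Nat.mul_le_mul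
      (Nat.mul_le_mul (le_two_pow_size _) (pow_le_two_pow_size _ _)) (le_two_pow_size _))
      (pow_le_two_pow_size _ _)) (le_two_pow_size _)) (pow_le_two_pow_size _ _))
      (le_two_pow_size _)
  have h2 := Nat.size_le_size h1
  rw [Nat.size_pow] at h2
  have h3 := sz_lay L
  have h4 : L.F * (2 * L.g.size + L.R.size) ≤ sz L * sz L :=
    Nat.mul_le_mul (by omega) (by omega)
  have h5 : (sz L + 1) ^ 2 = sz L * sz L + 2 * sz L + 1 := by ring
  have h6 : L.F * (2 * L.g.size + L.R.size) = 2 * (L.F * L.g.size) + L.F * L.R.size := by ring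
  omega

end Ad

/-- the gadget in the form used by the recursion -/
theorem gadgetStatement_of {τ : ℝ} (h : GadStatement τ) : GadgetStatement τ := by
  obtain ⟨k, hk⟩ := h
  refine ⟨fun x => if x.2.1.2.2.2.val = 0 then x.2.2 else
    bif x.2.1.1 then xorL [] x.1 x.2.1.2.1.val x.2.1.2.2.1.val x.2.1.2.2.2.val x.2.2
    else flipL [] x.1 x.2.1.2.1.val x.2.1.2.2.2.val x.2.2, 2 * k, ?_, ?_⟩
  · generalize hT : (fun x : Lay × (Bool × Un × Un × Un) × List (List ℕ) =>
      x.1.N * (msz x.2.2 + 1) * pw τ (x.2.1.2.2.2.val * Nat.size x.1.g + 1) +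
        x.1.N * (sz x.1 + 1) ^ (2 * k)) = T
    refine TC.ite' (P := GadDom) (T := T)
      (TU.val (TC.fst (TC.snd TC.id)).snd.snd.snd).decide_eq_zero (TC.snd (TC.snd TC.id)) ?_
    generalize hD : (fun x : Lay × (Bool × Un × Un × Un) × List (List ℕ) =>
      GadDom x ∧ ¬ x.2.1.2.2.2.val = 0) = D
    have hD' : ∀ x, D x → GadDom x ∧ ¬ x.2.1.2.2.2.val = 0 := fun x hx => by rwa [← hD] at hx
    have hL : TC D T (fun x => x.1) := TC.fst TC.id
    have hp : TC D T (fun x => x.2.1) := TC.fst (TC.snd TC.id)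
    have hl : TC D T (fun x => x.2.2) := TC.snd (TC.snd TC.id)
    obtain ⟨h1, h2⟩ := hk _ _ D T (fun x => x.1) (fun x => x.2.1.2.1.val)
      (fun x => x.2.1.2.2.1.val) (fun x => x.2.1.2.2.2.val) (fun x => msz x.2.2) []
      (fun x => x.2.2) (tc_layg hL) (tu_layF hL).toNat (tc_layG1 hL) (tc_layR hL) (tc_layG2 hL)
      (tc_layZ hL) hp.snd.fst.unVal hp.snd.snd.fst.unVal hp.snd.snd.snd.unVal hl
      (fun x hx => by
        obtain ⟨⟨hG, hN, h3, h4, _⟩, h0⟩ := hD' x hx
        exact ⟨hN, Bf.N_pos hG, hG.g, Nat.pos_of_ne_zero h0, h3.trans h4, h4,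
          fun _ hr => Ad.sz_le_msz hr⟩)
      (Bud.self.mono fun x hx => by
        rw [← hT, (hD' x hx).1.2.1]
        beta_reduce
        rw [pow_mul]
        exact Nat.add_le_add_left (Nat.mul_le_mul_left _
          (Nat.pow_le_pow_left (Ad.size_N_le _) _)) _)
    exact TC.cond hp.fst h1 h2
  · rintro L src t s len l ⟨hG, hN, h3, h4, h5⟩
    simp only at hG hN h3 h4 h5
    by_cases h0 : len = 0
    · subst h0
      refine ⟨rfl, fun x hx => hx, fun β _ b => ?_⟩
      have e : gadMap src t s 0 b = b := by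
        funext j
        cases src
        · exact if_neg (by omega)
        · exact if_neg (by omega)
      rw [e]
      rfl
    · simp only [if_neg h0]
      cases src
      · exact ⟨length_flipL _ _ _ _ _, fun x hx => mem_flipL hN (h3.trans h4) hx,
          fun β hβ b => getD_flipL [] [] hG.even hN (h3.trans h4) hβ b⟩
      · exact ⟨length_xorL _ _ _ _ _ _, fun x hx => mem_xorL hN (h3.trans h4) hx,
          fun β hβ b => getD_xorL [] [] hG.even hN h3 (h5 rfl) hβ b⟩

/-- **The gadget**, unconditionally. -/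
theorem gadgetStatement : GadgetStatement (1 - 1 / (2 : ℝ) ^ 40) :=
  gadgetStatement_of (gad_of_swap A.tauA_pos.le A.swapStatement)

/-- the field-level program with its exact sizes -/
theorem progStatement :
    ∃ W m : ℕ, W = 2 ^ 63 ∧ m = 2 ^ 18 ∧ ProgStatement W m (1 - 1 / (2 : ℝ) ^ 40) := by
  obtain ⟨W, m, hW, hm, P, ρ, hP, -, h⟩ := exists_cprog
  exact ⟨W, m, hW, hm, P, ρ, hP, h⟩

/-- part B from its main statement -/
theorem partB_of_main (h : MainB) :
    ∃ W m : ℕ, W = 2 ^ 63 ∧ m = 2 ^ 18 ∧ PartBStatement W m (1 - 1 / (2 : ℝ) ^ 40) := by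
  obtain ⟨W, m, hW, hm, hP⟩ := progStatement
  refine ⟨W, m, hW, hm, h W m _ ?_ ?_ A.tauA_pos A.tauA_le_one hP gadgetStatement baseStatement⟩
  · rw [hW]; positivity
  · rw [hm]; norm_num

end Crest.Agent.X326.B3
end

-- ▼ part X326/B3/Alg
section

/-!
Row 326 (S0503), part M3: the list-level recursion (definitions and statements).
-/

set_option autoImplicit false

namespace Crest.Agent.X326.B3

open Crest.Agent.Lib.PT

/-- arrays of records -/
abbrev Arr : Type := List (List ℕ)

/-- type of the gadget -/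
abbrev GadT : Type := Lay × (Bool × Un × Un × Un) × Arr → Arr

/-- type of the base butterfly -/
abbrev BaseT : Type := (ℕ × ℕ) × Lay × Un × Arr → Arr

/-- list-level semantics of one instruction; `L` is the layout of the streams, the groups have
`f` chunks and start at chunk `lo`, `rc lo' l` is the child call at chunk `lo'` -/
def execL {W m : ℕ} (gad : GadT) (M : ℕ) (L : Lay) (lo f : ℕ) (rc : ℕ → Arr → Arr)
    (ws : List Arr) : Ins W m → List Arr
  | .add w w' a e => ws.set w (addL M a e (ws.getD w []) (ws.getD w' []))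
  | .xor w t s => ws.set w (gad (L, (true, ⟨lo + t * f⟩, ⟨lo + s * f⟩, ⟨f⟩), ws.getD w []))
  | .flip w t => ws.set w (gad (L, (false, ⟨lo + t * f⟩, ⟨lo + t * f + f⟩, ⟨f⟩), ws.getD w []))
  | .call w s => ws.set w (rc (lo + s * f) (ws.getD w []))

/-- the recursion: level `j` treats the `m ^ j` chunks starting at chunk `lo` -/
def pbL {W m : ℕ} (gad : GadT) (bf : BaseT) (P : List (Ins W m)) (ρ : Fin W → Fin W) (M r : ℕ) :
    ℕ → Lay → ℕ → Arr → Arr
  | 0, L, lo, l => bf ((M, r), L, ⟨lo⟩, l)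
  | j + 1, L, lo, l => undealP ρ (P.foldl (execL gad M (L.sub W) lo (m ^ j)
      (fun lo' l' => pbL gad bf P ρ M r j (L.sub W) lo' l')) (dealAll W l))

/-- the specification of the gadget (second half of `GadgetStatement`) -/
def GadSpec (gad : GadT) : Prop :=
  ∀ (L : Lay) (src : Bool) (t s len : ℕ) (l : Arr),
    GadDom (L, (src, ⟨t⟩, ⟨s⟩, ⟨len⟩), l) →
      (gad (L, (src, ⟨t⟩, ⟨s⟩, ⟨len⟩), l)).length = l.length ∧
      (∀ x ∈ gad (L, (src, ⟨t⟩, ⟨s⟩, ⟨len⟩), l), x ∈ l) ∧
      ∀ β, L.Safe β → ∀ b, (gad (L, (src, ⟨t⟩, ⟨s⟩, ⟨len⟩), l)).getD (L.addr β b) [] =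
        l.getD (L.addr β (gadMap src t s len b)) []

/-- the specification of the base butterfly (second half of `BaseStatement`) -/
def BaseSpec (bf : BaseT) : Prop :=
  ∀ (M r : ℕ) (L : Lay) (j : ℕ) (l : Arr), BaseDom ((M, r), L, ⟨j⟩, l) →
    WFL L r M (bf ((M, r), L, ⟨j⟩, l)) ∧
    ∀ (A : Type) [CommRing A] (y hf : A), (M : A) = 0 → M % 2 = 1 → y ^ r = -1 →
      2 * hf = 1 → ∀ β, L.Safe β →
        fib y L β (bf ((M, r), L, ⟨j⟩, l)) = Cop (y ^ (r / 2)) hf j (fib y L β l)

/-- `W` well-formed streams -/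
def WFS (W : ℕ) (L : Lay) (r M : ℕ) (ws : List Arr) : Prop :=
  ws.length = W ∧ ∀ s ∈ ws, WFL L r M s

/-- correctness of the recursion (proved in `B3/Rec.lean`) -/
def RecStatement : Prop :=
  ∀ (W m : ℕ) (gad : GadT) (bf : BaseT) (P : List (Ins W m)) (ρ : Fin W ≃ Fin W),
    0 < W → GadSpec gad → BaseSpec bf → CProg P ρ →
    ∀ (M r j : ℕ) (L : Lay) (lo : ℕ) (l : Arr),
      PartBDom W m ((M, r), L, (⟨lo⟩, ⟨j⟩), l) →
      WFL L r M (pbL gad bf P ρ M r j L lo l) ∧
      ∀ (A : Type) [CommRing A] (y hf : A), (M : A) = 0 → M % 2 = 1 → y ^ r = -1 →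
        r % 2 = 0 → 2 * hf = 1 → ∀ β, L.Safe β →
          fib y L β (pbL gad bf P ρ M r j L lo l) =
            Crange (y ^ (r / 2)) hf lo (m ^ j) (fib y L β l)

end Crest.Agent.X326.B3
private theorem rz_13c8839cab : type_of% @_root_.Crest.Agent.X326.B3.execL.eq_1 := @_root_.Crest.Agent.X326.B3.execL.eq_1 -- L25
private theorem rz_f5cc8258f7 : type_of% @_root_.Crest.Agent.X326.B3.pbL.eq_def := @_root_.Crest.Agent.X326.B3.pbL.eq_def -- L33
private theorem rz_b9e7f88c7f : type_of% @_root_.Crest.Agent.X326.B3.pbL.eq_1 := @_root_.Crest.Agent.X326.B3.pbL.eq_1 -- L33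
end

-- ▼ part X326/TC/RecStage
section

/-!
# Fine-grained time calculus: recursion in direct style

A recursive function `f : X → Y` that satisfies
`f x = bif isBase x then base x else post (runStages f prog (pre x))`
for a FIXED list `prog` of stages (free steps on a state `Z`, conditional recursive calls) is
computed within `B x` as soon as `L x + (sum of B over the calls made at x) ≤ B x`, where `L x`
bounds the local work of the node `x` up to a constant (`TC.recStages`, `TC.recStages'`,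
`TC.recLinear`).

`TCG R V h` is the "ghost" form of `TC`: `h z` is computed within `O(V x + sz x + 1 + sz z)` for all
states `z` related by `R` to a node `x`.
-/

set_option autoImplicit false
set_option linter.dupNamespace false

namespace Crest.Agent.X326

open Crest.Agent.Lib.PT Function

/-! ### ghost budgets -/

section ghost

variable {X Z W : Type} [PTCode X] [PTCode Z] [PTCode W]

/-- `h` is computed on all `z` related to some ghost `x` within the budget of `x`. -/
def TCG (R : X → Z → Prop) (V : X → ℕ) (h : Z → W) : Prop :=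
  ∃ (Q : Z → Prop) (S : Z → ℕ), TC Q S h ∧
    ∃ C, ∀ x z, R x z → Q z ∧ S z ≤ C * (V x + sz x + 1)

theorem TCG.intro {R : X → Z → Prop} {V : X → ℕ} {h : Z → W} {Q : Z → Prop} {S : Z → ℕ}
    (hh : TC Q S h) (C : ℕ) (hQ : ∀ x z, R x z → Q z)
    (hS : ∀ x z, R x z → S z ≤ C * (V x + sz x + 1)) : TCG R V h :=
  ⟨Q, S, hh, C, fun x z hr => ⟨hQ x z hr, hS x z hr⟩⟩

/-- the usual case: the cost of the step is at most `C * V x` -/
theorem TCG.intro' {R : X → Z → Prop} {V : X → ℕ} {h : Z → W} {Q : Z → Prop} {S : Z → ℕ}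
    (hh : TC Q S h) (C : ℕ) (hQ : ∀ x z, R x z → Q z)
    (hS : ∀ x z, R x z → S z ≤ C * V x) : TCG R V h :=
  TCG.intro hh C hQ (fun x z hr => (hS x z hr).trans (Nat.mul_le_mul_left _ (by omega)))

theorem TCG.of_lin {R : X → Z → Prop} {V : X → ℕ} {h : Z → W} (hh : Lin h) : TCG R V h :=
  TCG.intro hh 0 (fun _ _ _ => trivial) (fun _ _ _ => by simp)

theorem TCG.mono {R R' : X → Z → Prop} {V : X → ℕ} {h : Z → W} (hh : TCG R V h)
    (hR : ∀ x z, R' x z → R x z) : TCG R' V h := by
  obtain ⟨Q, S, h1, C, h2⟩ := hh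
  exact ⟨Q, S, h1, C, fun x z hr => h2 x z (hR x z hr)⟩

theorem TCG.congr {R : X → Z → Prop} {V : X → ℕ} {h h' : Z → W} (hh : TCG R V h)
    (he : ∀ x z, R x z → h z = h' z) : TCG R V h' := by
  obtain ⟨Q, S, h1, C, h2⟩ := hh
  refine ⟨fun z => Q z ∧ h z = h' z, S, (h1.restrict (fun _ h => h.1)).congr (fun _ h => h.2), C,
    fun x z hr => ⟨⟨(h2 x z hr).1, he x z hr⟩, (h2 x z hr).2⟩⟩

/-- the least budget of a ghost -/
noncomputable def gcost (R : X → Z → Prop) (V : X → ℕ) (z : Z) : ℕ :=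
  sInf {t | ∃ x, R x z ∧ t = V x + sz x + 1}

omit [PTCode Z] in
theorem gcost_le {R : X → Z → Prop} {V : X → ℕ} {x : X} {z : Z} (h : R x z) :
    gcost R V z ≤ V x + sz x + 1 := Nat.sInf_le ⟨x, h, rfl⟩

omit [PTCode Z] in
theorem gcost_spec {R : X → Z → Prop} (V : X → ℕ) {z : Z} (h : ∃ x, R x z) :
    ∃ x, R x z ∧ gcost R V z = V x + sz x + 1 := by
  obtain ⟨x, hx⟩ := h
  exact Nat.sInf_mem (s := {t | ∃ x, R x z ∧ t = V x + sz x + 1}) ⟨_, x, hx, rfl⟩

omit [PTCode Z] [PTCode W] in
theorem gcost_mono {R : X → Z → Prop} {R' : X → W → Prop} {V : X → ℕ} {z : Z} {w : W}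
    (h : ∃ x, R x z) (h' : ∀ x, R x z → R' x w) : gcost R' V w ≤ gcost R V z := by
  obtain ⟨x, hx, e⟩ := gcost_spec V h
  rw [e]
  exact gcost_le (h' x hx)

theorem TCG.tc {R : X → Z → Prop} {V : X → ℕ} {h : Z → W} (hh : TCG R V h) :
    TC (fun z => ∃ x, R x z) (gcost R V) h := by
  obtain ⟨Q, S, h1, C, h2⟩ := hh
  refine h1.mono (fun z ⟨x, hx⟩ => (h2 x z hx).1) (Bud.of_le_mul C (fun z hz => ?_))
  obtain ⟨x, hx, e⟩ := gcost_spec V hz
  rw [e]
  exact (h2 x z hx).2

theorem TCG.of_tc {R : X → Z → Prop} {V : X → ℕ} {h : Z → W}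
    (hh : TC (fun z => ∃ x, R x z) (gcost R V) h) : TCG R V h :=
  TCG.intro hh 1 (fun x _ hr => ⟨x, hr⟩) (fun _ _ hr => by simpa using gcost_le hr)

/-- apply a ghost step to the result of a computation whose input is the ghost -/
theorem TC.compG {R : X → Z → Prop} {P : X → Prop} {V : X → ℕ} {h : Z → W} {g : X → Z}
    (hh : TCG R V h) (hg : TC P V g) (hR : ∀ x, P x → R x (g x)) : TC P V (fun x => h (g x)) := by
  obtain ⟨Q, S, h1, C, h2⟩ := hh
  exact h1.comp hg (fun x hx => (h2 x _ (hR x hx)).1) ⟨C, fun x hx => (h2 x _ (hR x hx)).2⟩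

/-- size of the result of a ghost step -/
theorem TCG.sz_le {R : X → Z → Prop} {V : X → ℕ} {h : Z → W} (hh : TCG R V h) :
    ∃ C, ∀ x z, R x z → sz (h z) ≤ C * (V x + sz x + 1 + sz z + 1) := by
  obtain ⟨C, hC⟩ := hh.tc.sz
  refine ⟨C, fun x z hr => (hC z ⟨x, hr⟩).trans (Nat.mul_le_mul_left _ ?_)⟩
  have := gcost_le (V := V) hr
  omega

end ghost

/-! ### stages -/

/-- One stage of a recursive procedure with state `Z`: a free step or a conditional call. -/
inductive Stage (X Y Z : Type) : Type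
  /-- a step without recursive call -/
  | free (h : Z → Z) : Stage X Y Z
  /-- if `c z` holds, call the procedure on `get z` and store the result with `put` -/
  | callIf (c : Z → Bool) (get : Z → X) (put : Z → Y → Z) : Stage X Y Z

namespace Stage

variable {X Y Z : Type}

/-- an unconditional call -/
@[reducible] def call (get : Z → X) (put : Z → Y → Z) : Stage X Y Z :=
  .callIf (fun _ => true) get put

/-- effect of a stage when calls are answered by `f` -/
def run (f : X → Y) : Stage X Y Z → Z → Z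
  | free h, z => h z
  | callIf c get put, z => bif c z then put z (f (get z)) else z

/-- cost `B` of the call made by a stage -/
def cost (B : X → ℕ) : Stage X Y Z → Z → ℕ
  | free _, _ => 0
  | callIf c get _, z => bif c z then B (get z) else 0

/-- `1` for a call stage, `0` for a free stage -/
def isCall : Stage X Y Z → ℕ
  | free _ => 0
  | callIf _ _ _ => 1

@[simp] theorem run_free (f : X → Y) (h : Z → Z) (z : Z) : (free h : Stage X Y Z).run f z = h z :=
  rfl

@[simp] theorem run_callIf (f : X → Y) (c : Z → Bool) (get : Z → X) (put : Z → Y → Z) (z : Z) :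
    (callIf c get put).run f z = bif c z then put z (f (get z)) else z := rfl


@[simp] theorem cost_free (B : X → ℕ) (h : Z → Z) (z : Z) :
    (free h : Stage X Y Z).cost B z = 0 := rfl

@[simp] theorem cost_callIf (B : X → ℕ) (c : Z → Bool) (get : Z → X) (put : Z → Y → Z) (z : Z) :
    (callIf c get put).cost B z = bif c z then B (get z) else 0 := rfl

@[simp] theorem isCall_free (h : Z → Z) : (free h : Stage X Y Z).isCall = 0 := rfl

@[simp] theorem isCall_callIf (c : Z → Bool) (get : Z → X) (put : Z → Y → Z) :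
    (callIf c get put).isCall = 1 := rfl

/-- The machine-level requirements on a stage, for the states `z` related by `R` to the node `x`:
every part is computed within the budget `V x`, and calls stay in the domain `P` and decrease the
measure `μ`. -/
def OK [PTCode X] [PTCode Y] [PTCode Z] (f : X → Y) (P : X → Prop) (μ V : X → ℕ)
    (R : X → Z → Prop) : Stage X Y Z → Prop
  | free h => TCG R V h
  | callIf c get put => TCG R V c ∧ TCG (fun x z => R x z ∧ c z = true) V get ∧
      TCG (fun x (p : Z × Y) => R x p.1 ∧ c p.1 = true ∧ p.2 = f (get p.1)) V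
        (fun p => put p.1 p.2) ∧
      ∀ x z, R x z → c z = true → P (get z) ∧ μ (get z) < μ x

variable [PTCode X] [PTCode Y] [PTCode Z] {f : X → Y} {P : X → Prop} {μ V : X → ℕ}
  {R R' : X → Z → Prop}

theorem ok_free {h : Z → Z} (hh : TCG R V h) : (free h : Stage X Y Z).OK f P μ V R := hh


theorem ok_call {get : Z → X} {put : Z → Y → Z} (hget : TCG R V get)
    (hput : TCG (fun x (p : Z × Y) => R x p.1 ∧ p.2 = f (get p.1)) V (fun p => put p.1 p.2))
    (hdom : ∀ x z, R x z → P (get z) ∧ μ (get z) < μ x) : (call get put).OK f P μ V R :=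
  ⟨TCG.of_lin (TC.const true), hget.mono (fun _ _ h => h.1),
    hput.mono (fun _ _ h => ⟨h.1, h.2.2⟩), fun x z h _ => hdom x z h⟩

theorem OK.mono {s : Stage X Y Z} (h : s.OK f P μ V R) (hR : ∀ x z, R' x z → R x z) :
    s.OK f P μ V R' := by
  cases s with
  | free h' => exact TCG.mono h hR
  | callIf c get put =>
    exact ⟨h.1.mono hR, h.2.1.mono (fun x z hr => ⟨hR x z hr.1, hr.2⟩),
      h.2.2.1.mono (fun x p hr => ⟨hR x p.1 hr.1, hr.2⟩), fun x z hr => h.2.2.2 x z (hR x z hr)⟩

end Stage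

section stages

variable {X Y Z : Type}

/-- run a list of stages -/
def runStages (f : X → Y) (l : List (Stage X Y Z)) (z : Z) : Z :=
  l.foldl (fun z s => s.run f z) z

/-- total cost `B` of the calls made by a list of stages -/
def callCost (f : X → Y) (B : X → ℕ) : List (Stage X Y Z) → Z → ℕ
  | [], _ => 0
  | s :: l, z => s.cost B z + callCost f B l (s.run f z)

@[simp] theorem runStages_nil (f : X → Y) (z : Z) : runStages f ([] : List (Stage X Y Z)) z = z :=
  rfl

@[simp] theorem runStages_cons (f : X → Y) (s : Stage X Y Z) (l : List (Stage X Y Z)) (z : Z) :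
    runStages f (s :: l) z = runStages f l (s.run f z) := rfl


@[simp] theorem callCost_nil (f : X → Y) (B : X → ℕ) (z : Z) :
    callCost f B ([] : List (Stage X Y Z)) z = 0 := rfl

@[simp] theorem callCost_cons (f : X → Y) (B : X → ℕ) (s : Stage X Y Z)
    (l : List (Stage X Y Z)) (z : Z) :
    callCost f B (s :: l) z = s.cost B z + callCost f B l (s.run f z) := rfl


/-- if every call costs at most `b`, the calls cost at most `(number of call stages) * b` -/
theorem callCost_le {f : X → Y} {B : X → ℕ} (l : List (Stage X Y Z)) (J : Z → Prop) (b : ℕ)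
    (hJ : ∀ s ∈ l, ∀ z, J z → J (s.run f z))
    (hb : ∀ c get put, Stage.callIf c get put ∈ l → ∀ z, J z → c z = true → B (get z) ≤ b)
    (z : Z) (hz : J z) : callCost f B l z ≤ (l.map Stage.isCall).sum * b := by
  induction l generalizing z with
  | nil => simp
  | cons s l ih =>
    have h1 := ih (fun s' hs' => hJ s' (by simp [hs']))
      (fun c get put h => hb c get put (by simp [h])) _ (hJ s (by simp) z hz)
    have h2 : s.cost B z ≤ s.isCall * b := by
      cases s with
      | free h => simp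
      | callIf c get put =>
        cases hc : c z
        · simp [hc]
        · simpa [hc] using hb c get put (by simp) z hz hc
    rw [callCost_cons, List.map_cons, List.sum_cons, add_mul]
    omega

/-- run the stages up to the next call -/
def stGo (n : ℕ) (post : Z → Y) : List (Stage X Y Z) → ℕ → Z → ((Fin (n + 1) × Z) × X) ⊕ Y
  | [], _, z => Sum.inr (post z)
  | .free h :: l, i, z => stGo n post l (i + 1) (h z)
  | .callIf c get _ :: l, i, z =>
      bif c z then Sum.inl ((Fin.ofNat (n + 1) i, z), get z) else stGo n post l (i + 1) z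

/-- continue after the call of the first stage has returned -/
def stResume (n : ℕ) (post : Z → Y) : List (Stage X Y Z) → ℕ → Z × Y →
    ((Fin (n + 1) × Z) × X) ⊕ Y
  | .callIf _ _ put :: l, i, p => stGo n post l (i + 1) (put p.1 p.2)
  | _, _, p => Sum.inr p.2

theorem drop_eq_cons {α : Type} {prog l : List α} {s : α} {i : ℕ} (h : prog.drop i = s :: l) :
    ∃ hi : i < prog.length, prog[i] = s ∧ prog.drop (i + 1) = l := by
  have hi : i < prog.length := by
    by_contra hi
    rw [List.drop_of_length_le (by omega)] at h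
    exact absurd h (by simp)
  rw [List.drop_eq_getElem_cons hi] at h
  exact ⟨hi, (List.cons.inj h).1, (List.cons.inj h).2⟩

variable [PTCode X] [PTCode Y] [PTCode Z]

theorem tc_stGo {prog : List (Stage X Y Z)} {f : X → Y} {P : X → Prop} {V μ : X → ℕ}
    {post : Z → Y} {R : ℕ → X → Z → Prop}
    (hR : ∀ i (hi : i < prog.length) x z, R i x z → R (i + 1) x (prog[i].run f z))
    (hst : ∀ i (hi : i < prog.length), prog[i].OK f P μ V (R i))
    (hpost : TCG (R prog.length) V post) (l : List (Stage X Y Z)) (i : ℕ)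
    (hl : prog.drop i = l) (hi : i ≤ prog.length) :
    TC (fun z => ∃ x, R i x z) (gcost (R i) V) (stGo prog.length post l i) := by
  induction l generalizing i with
  | nil =>
    have : i = prog.length := by
      have := List.drop_eq_nil_iff.1 hl
      omega
    subst this
    exact hpost.tc.inr
  | cons s l ih =>
    obtain ⟨hi', e1, e2⟩ := drop_eq_cons hl
    have h1 := hst i hi'
    have h2 := hR i hi'
    rw [e1] at h1 h2
    have h3 := ih (i + 1) e2 hi'
    cases s with
    | free h =>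
      exact h3.comp (TCG.tc h1) (fun z ⟨x, hx⟩ => ⟨x, h2 x z hx⟩)
        (Bud.self.mono (fun z hz => gcost_mono hz (fun x hx => h2 x z hx)))
    | callIf c get put =>
      refine TC.cond' h1.1.tc ?_ ?_
      · refine TC.inl (TC.prodMk (TC.prodMk (TC.const _) TC.id) ?_)
        exact h1.2.1.tc.mono (fun z ⟨⟨x, hx⟩, hc⟩ => ⟨x, hx, hc⟩)
          (Bud.self.mono (fun z hz => gcost_mono hz.1 (fun x hx => ⟨hx, hz.2⟩)))
      · have h4 : ∀ x z, R i x z → c z = false → R (i + 1) x z := fun x z hx hc => by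
          simpa [hc] using h2 x z hx
        exact h3.mono (fun z ⟨⟨x, hx⟩, hc⟩ => ⟨x, h4 x z hx hc⟩)
          (Bud.self.mono (fun z hz => gcost_mono hz.1 (fun x hx => h4 x z hx hz.2)))

/-- **Staged recursion**, with an invariant `I x i z` that may depend on the number `i` of stages
already executed.  `V` is the budget of the local steps, `L` dominates `V x + sz x + 1` up to a
constant, `B` bounds the total cost. -/
theorem TC.recStages (prog : List (Stage X Y Z)) {f : X → Y} {P : X → Prop} {V L B μ : X → ℕ}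
    {isBase : X → Bool} {base : X → Y} {pre : X → Z} {post : Z → Y} (I : X → ℕ → Z → Prop)
    (hf : ∀ x, P x → f x = bif isBase x then base x else post (runStages f prog (pre x)))
    (hisBase : TC P V isBase)
    (hbase : TC (fun x => P x ∧ isBase x = true) V base)
    (hpre : TC (fun x => P x ∧ isBase x = false) V pre)
    (hI0 : ∀ x, P x → isBase x = false → I x 0 (pre x))
    (hI : ∀ i (hi : i < prog.length) x z, P x → isBase x = false → I x i z →
      I x (i + 1) (prog[i].run f z))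
    (hsz : ∃ C, ∀ x i z, P x → isBase x = false → I x i z →
      Lib.PT.sz z ≤ C * (V x + Lib.PT.sz x + 1))
    (hst : ∀ i (hi : i < prog.length),
      prog[i].OK f P μ V (fun x z => P x ∧ isBase x = false ∧ I x i z))
    (hpost : TCG (fun x z => P x ∧ isBase x = false ∧ I x prog.length z) V post)
    (hL : ∃ c, ∀ x, P x → V x + Lib.PT.sz x + 1 ≤ c * L x)
    (hB0 : ∀ x, P x → isBase x = true → L x ≤ B x)
    (hB : ∀ x, P x → isBase x = false → L x + callCost f B prog (pre x) ≤ B x) :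
    TC P B f := by
  classical
  set n := prog.length with hn
  let R : ℕ → X → Z → Prop := fun i x z => P x ∧ isBase x = false ∧ I x i z
  have hR : ∀ i (hi : i < prog.length) x z, R i x z → R (i + 1) x (prog[i].run f z) :=
    fun i hi x z h => ⟨h.1, h.2.1, hI i hi x z h.1 h.2.1 h.2.2⟩
  have hgo := tc_stGo (R := R) hR hst hpost
  let step : X ⊕ ((Fin (n + 1) × Z) × Y) → ((Fin (n + 1) × Z) × X) ⊕ Y :=
    Sum.elim (fun x => bif isBase x then Sum.inr (base x) else stGo n post prog 0 (pre x))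
      (fun q => stResume n post (prog.drop q.1.1) q.1.1 (q.1.2, q.2))
  let PS : X ⊕ ((Fin (n + 1) × Z) × Y) → Prop :=
    Sum.elim P (fun q => ∃ x, R q.1.1 x q.1.2 ∧ ∃ c get put l,
      prog.drop q.1.1 = .callIf c get put :: l ∧ c q.1.2 = true ∧ q.2 = f (get q.1.2))
  let TS : X ⊕ ((Fin (n + 1) × Z) × Y) → ℕ := Sum.elim V (fun q => gcost (R q.1.1) V q.1.2)
  have hstep : TC PS TS step := by
    refine TC.sumElim (TC.cond' hisBase hbase.inr ?_) ?_
    · exact TC.compG (TCG.of_tc (hgo prog 0 rfl (Nat.zero_le _))) hpre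
        (fun x hx => ⟨hx.1, hx.2, hI0 x hx.1 hx.2⟩)
    · refine TC.finite_cases' (c := fun q : (Fin (n + 1) × Z) × Y => q.1.1)
        (f := fun d q => stResume n post (prog.drop d) d (q.1.2, q.2)) TC.id.fst.fst (fun d => ?_)
      rcases hd : prog.drop d with _ | ⟨_ | ⟨c, get, put⟩, l⟩
      · exact TC.id.snd.inr
      · exact TC.id.snd.inr
      · obtain ⟨hi', e1, e2⟩ := drop_eq_cons hd
        have h1 := hst d hi'
        have h2 := hR d hi'
        rw [e1] at h1 h2
        have h3 := hgo l (d + 1) e2 hi'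
        have key : ∀ q : (Fin (n + 1) × Z) × Y, PS (Sum.inr q) ∧ q.1.1 = d →
            (∃ x, R d x q.1.2) ∧ c q.1.2 = true ∧ q.2 = f (get q.1.2) := by
          rintro q ⟨⟨x, hx, c', get', put', l', h4, h5, h6⟩, h7⟩
          rw [h7] at hx h4
          rw [hd] at h4
          obtain ⟨h8, -⟩ := List.cons.inj h4
          obtain ⟨rfl, rfl, rfl⟩ := Stage.callIf.inj h8
          exact ⟨⟨x, hx⟩, h5, h6⟩
        have h5 : TC (fun q : (Fin (n + 1) × Z) × Y => PS (Sum.inr q) ∧ q.1.1 = d)
            (fun q => TS (Sum.inr q)) (fun q => put q.1.2 q.2) := by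
          refine h1.2.2.1.tc.comp (f := fun q : (Fin (n + 1) × Z) × Y => (q.1.2, q.2))
            (TC.id.fst.snd.prodMk TC.id.snd) (fun q hq => ?_) (Bud.self.mono (fun q hq => ?_))
          · obtain ⟨⟨x, hx⟩, h6⟩ := key q hq
            exact ⟨x, hx, h6⟩
          · obtain ⟨h7, h6⟩ := key q hq
            show _ ≤ gcost (R q.1.1) V q.1.2
            rw [hq.2]
            exact gcost_mono h7 (fun x hx => ⟨hx, h6⟩)
        have h6 : ∀ (q : (Fin (n + 1) × Z) × Y) x, c q.1.2 = true → q.2 = f (get q.1.2) →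
            R d x q.1.2 → R (d + 1) x (put q.1.2 q.2) := fun q x hc hy hx => by
          simpa [hc, hy] using h2 x q.1.2 hx
        refine h3.comp h5 (fun q hq => ?_) (Bud.self.mono (fun q hq => ?_))
        · obtain ⟨⟨x, hx⟩, h7, h8⟩ := key q hq
          exact ⟨x, h6 q x h7 h8 hx⟩
        · obtain ⟨h9, h7, h8⟩ := key q hq
          show _ ≤ gcost (R q.1.1) V q.1.2
          rw [hq.2]
          exact gcost_mono h9 (fun x hx => h6 q x h7 h8 hx)
  obtain ⟨Cz, hCz⟩ := hsz
  obtain ⟨c, hc⟩ := hL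
  obtain ⟨Cb, hCb⟩ := hbase.sz
  obtain ⟨Cp, hCp⟩ := hpost.sz_le
  have hreach : ∀ (x : X) (l : List (Stage X Y Z)) (i : ℕ) (z : Z), prog.drop i = l →
      i ≤ n → R i x z → R n x (runStages f l z) := by
    intro x l
    induction l with
    | nil =>
      intro i z hl hi hz
      have : i = n := by
        have := List.drop_eq_nil_iff.1 hl
        omega
      exact this ▸ hz
    | cons s l ih =>
      intro i z hl hi hz
      obtain ⟨hi', e1, e2⟩ := drop_eq_cons hl
      exact ih (i + 1) _ e2 hi' (e1 ▸ hR i hi' x z hz)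
  -- constants
  obtain ⟨E, hE⟩ : ∃ E, E = 4 * n + 4 * Cz + 6 := ⟨_, rfl⟩
  obtain ⟨D, hD⟩ : ∃ D, D = (2 + n * E + Cb + Cp * (Cz + 2)) * c := ⟨_, rfl⟩
  have main : ∀ (m : ℕ) (x : X), μ x < m → P x →
      ∃ t, RecRun step PS TS (Sum.inl x) (f x) t ∧ t + Lib.PT.sz (f x) ≤ D * B x := by
    intro m
    induction m with
    | zero => intro x hx; omega
    | succ m ihm =>
      intro x hμ hx
      obtain ⟨U, hU⟩ : ∃ U, U = V x + Lib.PT.sz x + 1 := ⟨_, rfl⟩
      have hU1 : 1 ≤ U := by omega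
      have hUL : U ≤ c * L x := hU ▸ hc x hx
      have hcost : TS (Sum.inl x) + Lib.PT.sz (Sum.inl x : X ⊕ ((Fin (n + 1) × Z) × Y)) + 1 =
          U + 1 := by
        simp only [TS, Sum.elim_inl, sz_inl]
        omega
      cases hb : isBase x
      · have inner : ∀ (l : List (Stage X Y Z)) (i : ℕ) (z : Z) (a : X ⊕ ((Fin (n + 1) × Z) × Y)),
            prog.drop i = l → i ≤ n → R i x z → PS a → step a = stGo n post l i z →
            ∃ t, RecRun step PS TS a (post (runStages f l z)) t ∧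
              t ≤ TS a + Lib.PT.sz a + 1 + l.length * (E * U) + D * callCost f B l z := by
          intro l
          induction l with
          | nil =>
            intro i z a _ _ _ ha hs
            exact ⟨_, RecRun.ret ha hs, by simp⟩
          | cons s l ih =>
            intro i z a hl hi hz ha hs
            obtain ⟨hi', e1, e2⟩ := drop_eq_cons hl
            have h1 := hst i hi'
            have h2 := hR i hi' x z hz
            rw [e1] at h1 h2
            have e3 : (s :: l).length * (E * U) = l.length * (E * U) + E * U := by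
              rw [List.length_cons, add_mul, one_mul]
            cases s with
            | free h =>
              obtain ⟨t, ht, hle⟩ := ih (i + 1) (h z) a e2 hi' h2 ha hs
              refine ⟨t, ht, ?_⟩
              rw [e3, callCost_cons, Stage.cost_free, zero_add, Stage.run_free]
              omega
            | callIf c' get put =>
              cases hc' : c' z
              · have h3 : (Stage.callIf c' get put).run f z = z := by simp [hc']
                rw [h3] at h2
                obtain ⟨t, ht, hle⟩ := ih (i + 1) z a e2 hi' h2 ha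
                  (by rw [hs]; simp [stGo, hc'])
                refine ⟨t, by rwa [runStages_cons, h3], ?_⟩
                rw [e3, callCost_cons, h3, mul_add]
                omega
              · have h3 : (Stage.callIf c' get put).run f z = put z (f (get z)) := by simp [hc']
                rw [h3] at h2
                obtain ⟨hP', hμ'⟩ := h1.2.2.2 x z hz hc'
                obtain ⟨t₁, ht₁, hle₁⟩ := ihm (get z) (by omega) hP'
                have hv : ((Fin.ofNat (n + 1) i : Fin (n + 1)) : ℕ) = i := by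
                  simp [Nat.mod_eq_of_lt (Nat.lt_succ_of_le hi)]
                have ha' : PS (Sum.inr ((Fin.ofNat (n + 1) i, z), f (get z))) :=
                  ⟨x, by simpa only [hv] using hz, c', get, put, l, by simpa only [hv] using hl,
                    hc', rfl⟩
                obtain ⟨t₂, ht₂, hle₂⟩ := ih (i + 1) (put z (f (get z)))
                  (Sum.inr ((Fin.ofNat (n + 1) i, z), f (get z))) e2 hi' h2 ha'
                  (by simp only [step, Sum.elim_inr, hv, hl, stResume])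
                refine ⟨_, RecRun.call (k := (Fin.ofNat (n + 1) i, z)) ha
                  (by rw [hs]; simp only [stGo, hc', cond_true]) ht₁
                  (by rwa [runStages_cons, h3]), ?_⟩
                have b1 : TS (Sum.inr ((Fin.ofNat (n + 1) i, z), f (get z))) ≤ U := by
                  simp only [TS, Sum.elim_inr, hv]
                  exact hU ▸ gcost_le hz
                have b2 : Lib.PT.sz (Fin.ofNat (n + 1) i) ≤ n := by
                  have : Lib.PT.sz (Fin.ofNat (n + 1) i) = Lib.PT.sz i := by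
                    rw [sz_fin, hv, sz_nat]
                  have := sz_nat_le i
                  omega
                have b3 := hCz x i z hz.1 hz.2.1 hz.2.2
                have b4 : E * U = 4 * (n * U) + 4 * (Cz * U) + 6 * U := by rw [hE]; ring
                have b5 : n ≤ n * U := Nat.le_mul_of_pos_right _ hU1
                rw [← hU] at b3
                simp only [sz_inr, sz_prod] at hle₂
                rw [e3, callCost_cons, h3, mul_add, Stage.cost_callIf, hc', cond_true]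
                omega
        have hz0 : R 0 x (pre x) := ⟨hx, hb, hI0 x hx hb⟩
        obtain ⟨t, ht, hle⟩ := inner prog 0 (pre x) (Sum.inl x) rfl (Nat.zero_le _) hz0 hx
          (by simp [step, hb])
        have hfx : f x = post (runStages f prog (pre x)) := by rw [hf x hx, hb]; rfl
        have hend := hreach x prog 0 (pre x) rfl (Nat.zero_le _) hz0
        refine ⟨t, hfx ▸ ht, ?_⟩
        have b1 := hCp x _ hend
        have b2 := hCz x n _ hend.1 hend.2.1 hend.2.2
        rw [← hfx, ← hU] at b1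
        rw [← hU] at b2
        have b3 : Cp * (U + Lib.PT.sz (runStages f prog (pre x)) + 1) ≤ Cp * ((Cz + 2) * U) :=
          Nat.mul_le_mul_left _ (by rw [add_mul]; omega)
        have b4 : (2 + n * E + Cb + Cp * (Cz + 2)) * U ≤ D * L x := by
          rw [hD, mul_assoc]
          exact Nat.mul_le_mul_left _ hUL
        have b5 : (2 + n * E + Cb + Cp * (Cz + 2)) * U =
            2 * U + n * (E * U) + Cb * U + Cp * ((Cz + 2) * U) := by ring
        have b6 : D * (L x + callCost f B prog (pre x)) ≤ D * B x :=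
          Nat.mul_le_mul_left _ (hB x hx hb)
        rw [mul_add] at b6
        rw [hcost, ← hn] at hle
        omega
      · have hfx : f x = base x := by rw [hf x hx, hb]; rfl
        refine ⟨_, RecRun.ret hx (by simp [step, hb, hfx]), ?_⟩
        have b1 : Lib.PT.sz (base x) ≤ Cb * (V x + Lib.PT.sz x + 1) := hCb x ⟨hx, hb⟩
        rw [← hfx, ← hU] at b1
        have b4 : (2 + n * E + Cb + Cp * (Cz + 2)) * U ≤ D * L x := by
          rw [hD, mul_assoc]
          exact Nat.mul_le_mul_left _ hUL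
        have b5 : (2 + n * E + Cb + Cp * (Cz + 2)) * U =
            2 * U + n * (E * U) + Cb * U + Cp * ((Cz + 2) * U) := by ring
        have b6 : D * L x ≤ D * B x := Nat.mul_le_mul_left _ (hB0 x hx hb)
        rw [hcost]
        omega
  refine hstep.recRun D (fun x hx => ?_)
  obtain ⟨t, ht, hle⟩ := main (μ x + 1) x (Nat.lt_succ_self _) hx
  refine ⟨t, ht, ?_⟩
  have : D * B x ≤ D * (B x + Lib.PT.sz x + 1) := Nat.mul_le_mul_left _ (by omega)
  omega

/-- **Staged recursion** with an invariant that does not depend on the stage. -/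
theorem TC.recStages' (prog : List (Stage X Y Z)) {f : X → Y} {P : X → Prop} {V L B μ : X → ℕ}
    {isBase : X → Bool} {base : X → Y} {pre : X → Z} {post : Z → Y} (I : X → Z → Prop)
    (hf : ∀ x, P x → f x = bif isBase x then base x else post (runStages f prog (pre x)))
    (hisBase : TC P V isBase)
    (hbase : TC (fun x => P x ∧ isBase x = true) V base)
    (hpre : TC (fun x => P x ∧ isBase x = false) V pre)
    (hI0 : ∀ x, P x → isBase x = false → I x (pre x))
    (hI : ∀ s ∈ prog, ∀ x z, P x → isBase x = false → I x z → I x (s.run f z))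
    (hsz : ∃ C, ∀ x z, P x → isBase x = false → I x z →
      Lib.PT.sz z ≤ C * (V x + Lib.PT.sz x + 1))
    (hst : ∀ s ∈ prog, s.OK f P μ V (fun x z => P x ∧ isBase x = false ∧ I x z))
    (hpost : TCG (fun x z => P x ∧ isBase x = false ∧ I x z) V post)
    (hL : ∃ c, ∀ x, P x → V x + Lib.PT.sz x + 1 ≤ c * L x)
    (hB0 : ∀ x, P x → isBase x = true → L x ≤ B x)
    (hB : ∀ x, P x → isBase x = false → L x + callCost f B prog (pre x) ≤ B x) :
    TC P B f :=
  TC.recStages prog (μ := μ) (fun x _ z => I x z) hf hisBase hbase hpre hI0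
    (fun _ hi x z => hI _ (List.getElem_mem hi) x z)
    (hsz.imp (fun _ h x _ z => h x z)) (fun _ hi => hst _ (List.getElem_mem hi)) hpost hL hB0 hB


end stages

end Crest.Agent.X326
private theorem rz_1624e94bda : type_of% @_root_.Crest.Agent.X326.stGo.eq_def := @_root_.Crest.Agent.X326.stGo.eq_def -- L270
private theorem rz_979d28d4d3 : type_of% @_root_.Crest.Agent.X326.stGo.eq_1 := @_root_.Crest.Agent.X326.stGo.eq_1 -- L270
private theorem rz_573848a6d2 : type_of% @_root_.Crest.Agent.X326.stResume.eq_1 := @_root_.Crest.Agent.X326.stResume.eq_1 -- L277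
end

-- ▼ part X326/B3/Cost
section

/-!
Row 326 (S0503), part M3: the cost of the recursion.
-/

set_option autoImplicit false

namespace Crest.Agent.X326.B3

open Crest.Agent.Lib.PT

/-- inputs of a call: `((M, r), L, (lo, j), l)` -/
abbrev XB : Type := (ℕ × ℕ) × Lay × (Un × Un) × Arr

/-- states: `(((M, r), L', (lo, j'), f), streams)` -/
abbrev ZB : Type := ((ℕ × ℕ) × Lay × (Un × Un) × Un) × List Arr

section defs

variable {W m : ℕ}

/-- the recursion on coded inputs -/
def resB (gad : GadT) (bf : BaseT) (P : List (Ins W m)) (ρ : Fin W → Fin W) (x : XB) : Arr :=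
  pbL gad bf P ρ x.1.1 x.1.2 x.2.2.1.2.val x.2.1 x.2.2.1.1.val x.2.2.2

/-- first stage: deal the streams -/
def preB (W m : ℕ) (x : XB) : ZB :=
  ((x.1, x.2.1.sub W, (x.2.2.1.1, ⟨x.2.2.1.2.val - 1⟩), ⟨m ^ (x.2.2.1.2.val - 1)⟩),
    dealAll W x.2.2.2)

/-- an instruction without call on a state -/
def freeB (gad : GadT) (ins : Ins W m) (z : ZB) : ZB :=
  (z.1, execL gad z.1.1.1 z.1.2.1 z.1.2.2.1.1.val z.1.2.2.2.val (fun _ l => l) z.2 ins)

/-- the input of a child call -/
def getB (w s : ℕ) (z : ZB) : XB :=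
  (z.1.1, z.1.2.1, (⟨z.1.2.2.1.1.val + s * z.1.2.2.2.val⟩, z.1.2.2.1.2), z.2.getD w [])

/-- store the result of a child call -/
def putB (w : ℕ) (z : ZB) (y : Arr) : ZB := (z.1, z.2.set w y)

/-- the stage of an instruction -/
def stageB (gad : GadT) : Ins W m → Stage XB Arr ZB
  | .add w w' a e => .free (freeB gad (Ins.add w w' a e : Ins W m))
  | .xor w t s => .free (freeB gad (Ins.xor w t s))
  | .flip w t => .free (freeB gad (Ins.flip w t))
  | .call w s => Stage.call (getB w s) (putB w)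

/-- per-record unit -/
def unitB (k M r : ℕ) (L : Lay) : ℕ :=
  (r + 1) * (Nat.size M + 1) + (Nat.size M + Nat.size r + sz L + 1) ^ k

/-- the total cost of the recursion -/
noncomputable def costB (τ : ℝ) (W m s : ℕ) (U q : ℕ) : ℕ → ℕ → ℕ
  | 0, N => N * U * pw τ (m ^ 0 * (q + 1))
  | j + 1, N => N * U * pw τ (m ^ (j + 1) * (q + 1)) + s * costB τ W m s U q j (N / W)

/-- domain of the states -/
def DomZ (W m : ℕ) (z : ZB) : Prop :=
  z.1.2.1.Good ∧ z.1.2.2.1.1.val + m * z.1.2.2.2.val ≤ z.1.2.1.F ∧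
    WFS W z.1.2.1 z.1.1.2 z.1.1.1 z.2

end defs

section pure

variable {W m : ℕ} {τ : ℝ}

theorem pass_eq (k M r : ℕ) (L : Lay) : pass k M r L = L.N * unitB k M r L := rfl

theorem costB_mono {s U U' q : ℕ} (h : U ≤ U') (j N : ℕ) :
    costB τ W m s U q j N ≤ costB τ W m s U' q j N := by
  induction j generalizing N with
  | zero => exact Nat.mul_le_mul_right _ (Nat.mul_le_mul_left _ h)
  | succ j ih =>
    exact Nat.add_le_add (Nat.mul_le_mul_right _ (Nat.mul_le_mul_left _ h))
      (Nat.mul_le_mul_left _ (ih _))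

theorem costB_le_real (hm : 0 < m) (hτ : 0 ≤ τ) {s : ℕ} (hs : (s : ℝ) ≤ W * (m : ℝ) ^ τ)
    (U q j N : ℕ) :
    (costB τ W m s U q j N : ℝ) ≤ 2 * (j + 1) * (N * U) * ((m ^ j * (q + 1) : ℕ) : ℝ) ^ τ := by
  induction j generalizing N with
  | zero =>
    have h := pw_le_two_mul hτ (x := m ^ 0 * (q + 1)) (by positivity)
    have h0 : (0 : ℝ) ≤ (N : ℝ) * U := by positivity
    have h1 := mul_le_mul_of_nonneg_left h h0
    simp only [costB, Nat.cast_mul, Nat.cast_zero, zero_add] at h1 ⊢
    linarith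
  | succ j ih =>
    have h := pw_le_two_mul hτ (x := m ^ (j + 1) * (q + 1)) (by positivity)
    have h0 : (0 : ℝ) ≤ (N : ℝ) * U := by positivity
    have h1 := mul_le_mul_of_nonneg_left h h0
    have h2 := ih (N / W)
    have h3 : (W : ℝ) * ((N / W : ℕ) : ℝ) ≤ N := by exact_mod_cast Nat.mul_div_le N W
    have h4 : ((m ^ (j + 1) * (q + 1) : ℕ) : ℝ) ^ τ =
        (m : ℝ) ^ τ * ((m ^ j * (q + 1) : ℕ) : ℝ) ^ τ := by
      rw [← Real.mul_rpow (by positivity) (by positivity)]
      congr 1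
      push_cast
      ring
    set E : ℝ := ((m ^ j * (q + 1) : ℕ) : ℝ) ^ τ with hE
    have hE0 : 0 ≤ E := Real.rpow_nonneg (by positivity) _
    have hm0 : (0 : ℝ) ≤ (m : ℝ) ^ τ := Real.rpow_nonneg (by positivity) _
    have h5 : (s : ℝ) * (costB τ W m s U q j (N / W) : ℝ) ≤
        (W * (m : ℝ) ^ τ) * (2 * (j + 1) * (((N / W : ℕ) : ℝ) * U) * E) :=
      mul_le_mul hs h2 (by positivity) (by positivity)
    have h6 : (W * (m : ℝ) ^ τ) * (2 * (j + 1) * (((N / W : ℕ) : ℝ) * U) * E) =
        (2 * (j + 1) * U * ((m : ℝ) ^ τ * E)) * (W * ((N / W : ℕ) : ℝ)) := by ring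
    have h7 : (2 * (j + 1) * U * ((m : ℝ) ^ τ * E)) * (W * ((N / W : ℕ) : ℝ)) ≤
        (2 * (j + 1) * U * ((m : ℝ) ^ τ * E)) * N :=
      mul_le_mul_of_nonneg_left h3 (by positivity)
    rw [h4] at h1 ⊢
    simp only [costB, Nat.cast_add, Nat.cast_mul, Nat.cast_one] at h1 ⊢
    nlinarith

theorem costB_le (hm : 0 < m) (hτ : 0 ≤ τ) {s : ℕ} (hs : (s : ℝ) ≤ W * (m : ℝ) ^ τ)
    (U q j N : ℕ) :
    costB τ W m s U q j N ≤ 2 * (N * U * (j + 1) * pw τ (m ^ j * (q + 1))) := by
  have h1 := costB_le_real hm hτ hs U q j N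
  have h2 := le_pw τ (m ^ j * (q + 1))
  have h3 := mul_le_mul_of_nonneg_left h2
    (by positivity : (0 : ℝ) ≤ 2 * (j + 1) * ((N : ℝ) * U))
  have h4 : (costB τ W m s U q j N : ℝ) ≤
      ((2 * (N * U * (j + 1) * pw τ (m ^ j * (q + 1))) : ℕ) : ℝ) := by
    push_cast at h1 h3 ⊢
    linarith
  exact_mod_cast h4

theorem Lay.Good.N_pos {L : Lay} (h : L.Good) : 0 < L.N := by
  have := h.Pre
  have := h.G1
  have := h.R
  have := h.G2
  have := h.Z
  have : 0 < L.g := by have := h.g; omega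
  unfold Lay.N Lay.wh Lay.wy
  positivity

theorem F_le_sz (L : Lay) : L.F ≤ sz L := by
  rw [sz_lay]; omega

theorem unitB_sub (k M r : ℕ) (L : Lay) (W : ℕ) : unitB k M r (L.sub W) ≤ unitB k M r L :=
  Nat.add_le_add_left (Nat.pow_le_pow_left (by have := sz_laySub_le L W; omega) k) _

theorem unitB_mono {k k' : ℕ} (h : k ≤ k') (M r : ℕ) (L : Lay) :
    unitB k M r L ≤ unitB k' M r L :=
  Nat.add_le_add_left (Nat.pow_le_pow_right (by omega) h) _

theorem sub_N_le {L : Lay} (h : W ∣ L.Z) (hW : 0 < W) : (L.sub W).N ≤ L.N := by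
  rw [Lay.sub_N' h hW]; exact Nat.div_le_self _ _

theorem WFS.getD {L : Lay} {r M : ℕ} {ws : List Arr} (h : WFS W L r M ws) (w : Fin W) :
    WFL L r M (ws.getD w []) := h.2 _ (getD_mem _ (h.1 ▸ w.2))

theorem WFS.set' {L : Lay} {r M : ℕ} {ws : List Arr} (h : WFS W L r M ws) (w : ℕ) {s : Arr}
    (hs : WFL L r M s) : WFS W L r M (ws.set w s) :=
  ⟨by simpa using h.1, fun t ht => (List.mem_or_eq_of_mem_set ht).elim (h.2 t) (fun e => e ▸ hs)⟩

theorem grp_le {lo f F : ℕ} (h : lo + m * f ≤ F) (s : Fin m) : lo + s * f + f ≤ F := by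
  have : (s + 1) * f ≤ m * f := Nat.mul_le_mul_right _ s.2
  rw [Nat.add_mul, Nat.one_mul] at this
  omega

theorem gadDom_xor {z : ZB} (h : DomZ W m z) (w : Fin W) {t s : Fin m} (hts : t < s) :
    GadDom (z.1.2.1, (true, ⟨z.1.2.2.1.1.val + t * z.1.2.2.2.val⟩,
      ⟨z.1.2.2.1.1.val + s * z.1.2.2.2.val⟩, ⟨z.1.2.2.2.val⟩), z.2.getD w []) := by
  have h1 := grp_le h.2.1 s
  have h2 : ((t : ℕ) + 1) * z.1.2.2.2.val ≤ s * z.1.2.2.2.val := Nat.mul_le_mul_right _ hts
  rw [Nat.add_mul, Nat.one_mul] at h2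
  refine ⟨h.1, (h.2.2.getD w).1, ?_, ?_, fun _ => h1⟩
  · show z.1.2.2.1.1.val + t * z.1.2.2.2.val + z.1.2.2.2.val ≤
      z.1.2.2.1.1.val + s * z.1.2.2.2.val
    omega
  · show z.1.2.2.1.1.val + s * z.1.2.2.2.val ≤ z.1.2.1.F
    omega

theorem gadDom_flip {z : ZB} (h : DomZ W m z) (w : Fin W) (t : Fin m) :
    GadDom (z.1.2.1, (false, ⟨z.1.2.2.1.1.val + t * z.1.2.2.2.val⟩,
      ⟨z.1.2.2.1.1.val + t * z.1.2.2.2.val + z.1.2.2.2.val⟩, ⟨z.1.2.2.2.val⟩), z.2.getD w []) :=
  ⟨h.1, (h.2.2.getD w).1, le_rfl, grp_le h.2.1 t, fun e => absurd e (by simp)⟩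

theorem WFL.gad {gad : GadT} (hg : GadSpec gad) {L : Lay} {src : Bool} {t s len r M : ℕ}
    {l : Arr} (hd : GadDom (L, (src, ⟨t⟩, ⟨s⟩, ⟨len⟩), l)) (hl : WFL L r M l) :
    WFL L r M (gad (L, (src, ⟨t⟩, ⟨s⟩, ⟨len⟩), l)) :=
  ⟨(hg L src t s len l hd).1.trans hl.1, fun x hx => hl.2 x ((hg L src t s len l hd).2.1 x hx)⟩

theorem DomZ.free {gad : GadT} (hg : GadSpec gad) {z : ZB} (h : DomZ W m z) (ins : Ins W m)
    (hins : ins.ok) : DomZ W m (freeB gad ins z) := by
  refine ⟨h.1, h.2.1, ?_⟩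
  rcases ins with ⟨w, w', a, e⟩ | ⟨w, t, s⟩ | ⟨w, t⟩ | ⟨w, s⟩
  · exact h.2.2.set' w ((h.2.2.getD w).addL (h.2.2.getD w') a e)
  · exact h.2.2.set' w (WFL.gad hg (gadDom_xor h w hins) (h.2.2.getD w))
  · exact h.2.2.set' w (WFL.gad hg (gadDom_flip h w t) (h.2.2.getD w))
  · exact h.2.2.set' w (h.2.2.getD w)

theorem runStages_stageB (gad : GadT) (f : XB → Arr) (P : List (Ins W m)) (z : ZB) :
    (runStages f (P.map (stageB gad)) z).2 =
      P.foldl (execL gad z.1.1.1 z.1.2.1 z.1.2.2.1.1.val z.1.2.2.2.val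
        (fun lo' l' => f (z.1.1, z.1.2.1, (⟨lo'⟩, z.1.2.2.1.2), l'))) z.2 := by
  induction P generalizing z with
  | nil => rfl
  | cons ins P ih =>
    rw [List.map_cons, runStages_cons, ih, List.foldl_cons]
    rcases ins with ⟨w, w', a, e⟩ | ⟨w, t, s⟩ | ⟨w, t⟩ | ⟨w, s⟩ <;> rfl

theorem sum_isCall (gad : GadT) (P : List (Ins W m)) :
    ((P.map (stageB gad)).map Stage.isCall).sum = ncalls P := by
  induction P with
  | nil => rfl
  | cons ins P ih =>
    rw [List.map_cons, List.map_cons, List.sum_cons, ih]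
    rcases ins with ⟨w, w', a, e⟩ | ⟨w, t, s⟩ | ⟨w, t⟩ | ⟨w, s⟩ <;>
      simp [ncalls, List.countP_cons, Ins.isCall, stageB, Nat.add_comm]

theorem dom_pre {x : XB} (h : PartBDom W m x) (hj : x.2.2.1.2.val ≠ 0) :
    W ∣ x.2.1.Z ∧ DomZ W m (preB W m x) ∧ W ^ (x.2.2.1.2.val - 1) ∣ (x.2.1.sub W).Z := by
  obtain ⟨⟨M, r⟩, L, ⟨⟨lo⟩, ⟨j⟩⟩, l⟩ := x
  obtain ⟨h1, h2, h3, h4⟩ := h
  simp only at h1 h2 h3 h4 hj ⊢
  obtain ⟨j, rfl⟩ : ∃ j', j = j' + 1 := ⟨j - 1, by omega⟩
  have hW : W ∣ L.Z := (Dvd.intro_left _ (pow_succ W j).symm).trans h3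
  refine ⟨hW, ⟨h1.sub hW, ?_, length_dealAll _ _, h4.dealAll hW⟩, ?_⟩
  · simpa [preB, pow_succ'] using h2
  · simp only [Nat.add_sub_cancel, Lay.sub_Z]
    exact Nat.dvd_div_of_mul_dvd (by rwa [← pow_succ'])

end pure

end Crest.Agent.X326.B3
private theorem rz_ca8ad1f6bb : type_of% @_root_.Crest.Agent.X326.B3.costB.eq_def := @_root_.Crest.Agent.X326.B3.costB.eq_def -- L58
private theorem rz_fea912a62b : type_of% @_root_.Crest.Agent.X326.B3.costB.eq_1 := @_root_.Crest.Agent.X326.B3.costB.eq_1 -- L58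
private theorem rz_309ad7164f : type_of% @_root_.Crest.Agent.X326.B3.stageB.eq_1 := @_root_.Crest.Agent.X326.B3.stageB.eq_1 -- L47
end

-- ▼ part X326/B3/CostTC
section

/-!
Row 326 (S0503), part M3: the machine computing the recursion.
-/

set_option autoImplicit false

namespace Crest.Agent.X326.B3

open Crest.Agent.Lib.PT

section tc

variable {W m : ℕ} {τ : ℝ}

/-- budget of a step on a state -/
noncomputable def budZ (τ : ℝ) (k : ℕ) (z : ZB) : ℕ :=
  pass k z.1.1.1 z.1.1.2 z.1.2.1 * pw τ (z.1.2.2.2.val * Nat.size z.1.2.1.g + 1)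

/-- budget of the local work of a call -/
noncomputable def budX (τ : ℝ) (k m : ℕ) (x : XB) : ℕ :=
  pass k x.1.1 x.1.2 x.2.1 * pw τ (m ^ x.2.2.1.2.val * (Nat.size x.2.1.g + 1))

theorem pass_le_budZ (k : ℕ) (z : ZB) : pass k z.1.1.1 z.1.1.2 z.1.2.1 ≤ budZ τ k z :=
  Nat.le_mul_of_pos_right _ (one_le_pw τ (Nat.succ_pos _))

theorem pass_le_budX (hm : 0 < m) (k : ℕ) (x : XB) : pass k x.1.1 x.1.2 x.2.1 ≤ budX τ k m x :=
  Nat.le_mul_of_pos_right _ (one_le_pw τ (by positivity))

theorem gad_cost_le {kg k : ℕ} (hk : kg ≤ k) {z : ZB} {l : Arr}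
    (hl : WFL z.1.2.1 z.1.1.2 z.1.1.1 l) :
    z.1.2.1.N * (msz l + 1) * pw τ (z.1.2.2.2.val * Nat.size z.1.2.1.g + 1) +
      z.1.2.1.N * (sz z.1.2.1 + 1) ^ kg ≤ 3 * budZ τ k z := by
  have h1 : msz l + 1 ≤ 2 * unitB k z.1.1.1 z.1.1.2 z.1.2.1 := by
    have := hl.msz_le
    unfold unitB
    nlinarith [Nat.zero_le ((Nat.size z.1.1.1 + Nat.size z.1.1.2 + sz z.1.2.1 + 1) ^ k)]
  have h2 : (sz z.1.2.1 + 1) ^ kg ≤ unitB k z.1.1.1 z.1.1.2 z.1.2.1 :=
    ((Nat.pow_le_pow_left (by omega) kg).trans (Nat.pow_le_pow_right (by omega) hk)).trans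
      (Nat.le_add_left _ _)
  have h3 := pass_le_budZ (τ := τ) k z
  have h4 := Nat.mul_le_mul_right (pw τ (z.1.2.2.2.val * Nat.size z.1.2.1.g + 1))
    (Nat.mul_le_mul_left z.1.2.1.N h1)
  have h5 := Nat.mul_le_mul_left z.1.2.1.N h2
  rw [← pass_eq] at h5
  have h6 : z.1.2.1.N * (2 * unitB k z.1.1.1 z.1.1.2 z.1.2.1) *
      pw τ (z.1.2.2.2.val * Nat.size z.1.2.1.g + 1) = 2 * budZ τ k z := by
    rw [budZ, pass_eq]; ring
  omega

theorem tc_freeB {gad : GadT} {kg k : ℕ} (hk : kg ≤ k)
    (hg : TC GadDom (fun x => x.1.N * (msz x.2.2 + 1) *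
      pw τ (x.2.1.2.2.2.val * Nat.size x.1.g + 1) + x.1.N * (sz x.1 + 1) ^ kg) gad)
    (ins : Ins W m) (hins : ins.ok) : TC (DomZ W m) (budZ τ k) (freeB gad ins) := by
  have hz : TC (DomZ W m) (budZ τ k) (fun z : ZB => z) := TC.id
  have hlo : TU (DomZ W m) (budZ τ k) (fun z : ZB => z.1.2.2.1.1.val) :=
    TU.val hz.fst.snd.snd.fst.fst
  have hf : TU (DomZ W m) (budZ τ k) (fun z : ZB => z.1.2.2.2.val) := TU.val hz.fst.snd.snd.snd
  have hw : ∀ w : ℕ, TC (DomZ W m) (budZ τ k) (fun z : ZB => z.2.getD w []) := fun w =>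
    TC.getD hz.snd (TU.const w) (TC.const [])
  refine TC.prodMk hz.fst ?_
  rcases ins with ⟨w, w', a, e⟩ | ⟨w, t, s⟩ | ⟨w, t⟩ | ⟨w, s⟩
  · refine tc_addSet w w' a e hz.fst.fst.fst hz.snd (fun z => z.1.2.1.N) (fun z => z.1.1.2)
      (fun z h s hs => ⟨(h.2.2.2 s hs).1.le, fun y hy => ((h.2.2.2 s hs).2 y hy).1.le⟩) ?_
    refine Bud.self.mono (fun z _ => le_trans ?_ (pass_le_budZ k z))
    exact Nat.mul_le_mul_left _ (Nat.le_add_right _ _)
  · refine TC.set hz.snd (TU.const w) (TC.comp hg (hz.fst.snd.fst.prodMk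
      (((TC.const true).prodMk ((TC.unMk (hlo.add (hf.const_mul t))).prodMk
        ((TC.unMk (hlo.add (hf.const_mul s))).prodMk (TC.unMk hf)))).prodMk (hw w)))
      (fun z h => gadDom_xor h w hins) ?_)
    exact (Bud.self.const_mul 3).mono (fun z h => gad_cost_le hk (h.2.2.getD w))
  · refine TC.set hz.snd (TU.const w) (TC.comp hg (hz.fst.snd.fst.prodMk
      (((TC.const false).prodMk ((TC.unMk (hlo.add (hf.const_mul t))).prodMk
        ((TC.unMk ((hlo.add (hf.const_mul t)).add hf)).prodMk (TC.unMk hf)))).prodMk (hw w)))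
      (fun z h => gadDom_flip h w t) ?_)
    exact (Bud.self.const_mul 3).mono (fun z h => gad_cost_le hk (h.2.2.getD w))
  · exact TC.set hz.snd (TU.const w) (hw w)

theorem lin_getB (w s : ℕ) : Lin (getB w s) := by
  have hz : Lin (fun z : ZB => z) := TC.id
  exact hz.fst.fst.prodMk (hz.fst.snd.fst.prodMk (((TC.unMk ((TU.val hz.fst.snd.snd.fst.fst).add
    ((TU.val hz.fst.snd.snd.snd).const_mul s))).prodMk hz.fst.snd.snd.fst.snd).prodMk
      (TC.getD hz.snd (TU.const w) (TC.const []))))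

theorem lin_putB (w : ℕ) : Lin (fun p : ZB × Arr => putB w p.1 p.2) := by
  have hz : Lin (fun z : ZB × Arr => z) := TC.id
  exact hz.fst.fst.prodMk (TC.set hz.fst.snd (TU.const w) hz.snd)

theorem sz_XB (x : XB) : sz x = 2 * (2 * Nat.size x.1.1 + 1 + Nat.size x.1.2) + 1 +
    (2 * sz x.2.1 + 1 + (2 * (2 * x.2.2.1.1.val + 1 + x.2.2.1.2.val) + 1 + sz x.2.2.2)) := by
  simp only [sz_prod, sz_nat, sz_un]

theorem budZ_pre (hW : 0 < W) (hm : 0 < m) (hτ : 0 ≤ τ) (k : ℕ) {x : XB} (h : PartBDom W m x)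
    (hj : x.2.2.1.2.val ≠ 0) {z : ZB} (hz : z.1 = (preB W m x).1) :
    budZ τ k z ≤ budX τ k m x := by
  have hd := (dom_pre h hj).1
  rw [budZ, budX, hz, pass_eq, pass_eq]
  refine Nat.mul_le_mul (Nat.mul_le_mul (sub_N_le hd hW) (unitB_sub _ _ _ _ _)) (pw_mono hτ ?_)
  show m ^ (x.2.2.1.2.val - 1) * Nat.size x.2.1.g + 1 ≤ _
  have h1 : m ^ (x.2.2.1.2.val - 1) ≤ m ^ x.2.2.1.2.val := Nat.pow_le_pow_right hm (by omega)
  have h2 : 1 ≤ m ^ x.2.2.1.2.val := Nat.one_le_pow _ _ hm
  have h3 := Nat.mul_le_mul_right (Nat.size x.2.1.g) h1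
  rw [Nat.mul_add, Nat.mul_one]
  omega

theorem sz_le_pass (hm : 2 ≤ m) {k : ℕ} (hk : 1 ≤ k) {x : XB} (h : PartBDom W m x) :
    sz x + 1 ≤ 20 * pass k x.1.1 x.1.2 x.2.1 := by
  have h1 := h.2.2.2.sz_le
  have h2 := F_le_sz x.2.1
  have h3 : x.2.2.1.2.val < m ^ x.2.2.1.2.val := Nat.lt_pow_self (by omega)
  have h4 := h.2.1
  have h5 : Nat.size x.1.1 + Nat.size x.1.2 + sz x.2.1 + 1 ≤
      (Nat.size x.1.1 + Nat.size x.1.2 + sz x.2.1 + 1) ^ k := Nat.le_self_pow (by omega) _
  have h6 : (Nat.size x.1.1 + Nat.size x.1.2 + sz x.2.1 + 1) ^ k ≤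
      x.2.1.N * (Nat.size x.1.1 + Nat.size x.1.2 + sz x.2.1 + 1) ^ k :=
    Nat.le_mul_of_pos_left _ h.1.N_pos
  rw [sz_XB, pass, Nat.mul_add x.2.1.N]
  rw [Nat.mul_left_comm] at h1
  omega

theorem tc_resB {gad : GadT} {bf : BaseT} {P : List (Ins W m)} {ρ : Fin W → Fin W} {kg kb : ℕ}
    (hW : 0 < W) (hm : 2 ≤ m) (hτ : 0 ≤ τ) (hP : ∀ ins ∈ P, ins.ok)
    (hs : (ncalls P : ℝ) ≤ W * (m : ℝ) ^ τ)
    (hg : TC GadDom (fun x => x.1.N * (msz x.2.2 + 1) *
      pw τ (x.2.1.2.2.2.val * Nat.size x.1.g + 1) + x.1.N * (sz x.1 + 1) ^ kg) gad)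
    (hb : TC BaseDom (fun x => pass kb x.1.1 x.1.2 x.2.1) bf) (hgs : GadSpec gad)
    (hwf : ∀ x, PartBDom W m x → WFL x.2.1 x.1.2 x.1.1 (resB gad bf P ρ x)) :
    TC (PartBDom W m) (fun x => pass (kg + kb + 1) x.1.1 x.1.2 x.2.1 * (x.2.2.1.2.val + 1) *
      pw τ (m ^ x.2.2.1.2.val * (Nat.size x.2.1.g + 1))) (resB gad bf P ρ) := by
  set k := kg + kb + 1 with hk
  have hm0 : 0 < m := by omega
  let B : XB → ℕ := fun x => costB τ W m (ncalls P) (unitB k x.1.1 x.1.2 x.2.1)
    (Nat.size x.2.1.g) x.2.2.1.2.val x.2.1.N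
  let I : XB → ZB → Prop := fun x z => z.1 = (preB W m x).1 ∧ DomZ W m z
  have hget : ∀ (w : Fin W) (s : Fin m) (x : XB) (z : ZB), PartBDom W m x →
      x.2.2.1.2.val ≠ 0 → I x z → PartBDom W m (getB w s z) := by
    intro w s x z hx hj hz
    have h1 := grp_le hz.2.2.1 s
    have h2 : z.1.2.2.2.val = m ^ z.1.2.2.1.2.val := by rw [hz.1]; rfl
    refine ⟨hz.2.1, ?_, ?_, hz.2.2.2.getD w⟩
    · show z.1.2.2.1.1.val + s * z.1.2.2.2.val + m ^ z.1.2.2.1.2.val ≤ z.1.2.1.F
      omega
    · show W ^ z.1.2.2.1.2.val ∣ z.1.2.1.Z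
      rw [hz.1]
      exact (dom_pre hx hj).2.2
  have hI : ∀ s ∈ P.map (stageB gad), ∀ x z, PartBDom W m x →
      decide (x.2.2.1.2.val = 0) = false → I x z → I x (s.run (resB gad bf P ρ) z) := by
    intro s hs x z hx hj hz
    obtain ⟨ins, hins, rfl⟩ := List.mem_map.1 hs
    have hok := hP ins hins
    rcases ins with ⟨w, w', a, e⟩ | ⟨w, t, s⟩ | ⟨w, t⟩ | ⟨w, s⟩
    · exact ⟨hz.1, hz.2.free hgs _ hok⟩
    · exact ⟨hz.1, hz.2.free hgs _ hok⟩
    · exact ⟨hz.1, hz.2.free hgs _ hok⟩
    · exact ⟨hz.1, hz.2.1, hz.2.2.1,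
        hz.2.2.2.set' w (hwf _ (hget w s x z hx (by simpa using hj) hz))⟩
  have key : TC (PartBDom W m) B (resB gad bf P ρ) := by
    refine TC.recStages' (P.map (stageB gad)) (V := budX τ k m) (L := budX τ k m)
      (μ := fun x => x.2.2.1.2.val) (isBase := fun x => decide (x.2.2.1.2.val = 0))
      (base := fun x => bf (x.1, x.2.1, x.2.2.1.1, x.2.2.2)) (pre := preB W m)
      (post := fun z => undealP ρ z.2) I ?_ ?_ ?_ ?_ ?_ hI ?_ ?_ ?_ ?_ ?_ ?_
    · rintro ⟨⟨M, r⟩, L, ⟨⟨lo⟩, ⟨j⟩⟩, l⟩ _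
      rcases j with _ | j
      · rfl
      · simp only [Nat.add_eq_zero_iff, one_ne_zero, and_false, decide_false, cond_false]
        rw [runStages_stageB]
        rfl
    · exact TU.decide_eq_zero (TU.val TC.id.snd.snd.fst.snd)
    · refine TC.comp hb (TC.id.fst.prodMk (TC.id.snd.fst.prodMk
        (TC.id.snd.snd.fst.fst.prodMk TC.id.snd.snd.snd))) ?_ ?_
      · rintro x ⟨hx, hj⟩
        have h1 := hx.2.1
        have h2 : 1 ≤ m ^ x.2.2.1.2.val := Nat.one_le_pow _ _ hm0
        exact ⟨hx.1, by show x.2.2.1.1.val < x.2.1.F; omega, hx.2.2.2⟩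
      · refine Bud.self.mono (fun x _ => le_trans ?_ (pass_le_budX hm0 k x))
        exact Nat.mul_le_mul_left _ (unitB_mono (by omega) _ _ _)
    · have hx : TC (fun x : XB => PartBDom W m x ∧ decide (x.2.2.1.2.val = 0) = false)
          (budX τ k m) (fun x : XB => x) := TC.id
      have hj := (TU.val hx.snd.snd.fst.snd).sub (TU.const 1)
      refine (hx.fst.prodMk ((tc_laySub W hx.snd.fst).prodMk
        ((hx.snd.snd.fst.fst.prodMk (TC.unMk hj)).prodMk
          (TC.unMk (TU.pow (TU.const m) hj ?_))))).prodMk (TC.dealAll W hx.snd.snd.snd)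
      refine Bud.sz.mono (fun x h => ?_)
      have h1 := h.1.2.1
      have h2 := F_le_sz x.2.1
      have h3 : m ^ (x.2.2.1.2.val - 1) ≤ m ^ x.2.2.1.2.val := Nat.pow_le_pow_right hm0 (by omega)
      rw [sz_XB]
      omega
    · intro x hx hj
      exact ⟨rfl, (dom_pre hx (by simpa using hj)).2.1⟩
    · refine ⟨8 * W + 16, fun x z hx hj hz => ?_⟩
      have hj' : x.2.2.1.2.val ≠ 0 := by simpa using hj
      have h1 := sz_streams_le hz.2.2.2.1 hz.2.2.2.2
      have h2 := (pass_le_budZ k z).trans (budZ_pre hW hm0 hτ k hx hj' hz.1)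
      have h3 : z.1.2.1.N * ((z.1.1.2 + 1) * (Nat.size z.1.1.1 + 1)) ≤
          pass k z.1.1.1 z.1.1.2 z.1.2.1 := Nat.mul_le_mul_left _ (Nat.le_add_right _ _)
      have h4 : sz z.1 ≤ 2 * sz x := by
        rw [hz.1, sz_XB]
        have a1 := hx.2.1
        have a2 := F_le_sz x.2.1
        have a3 : m ^ (x.2.2.1.2.val - 1) ≤ m ^ x.2.2.1.2.val :=
          Nat.pow_le_pow_right hm0 (by omega)
        have a4 := sz_laySub_le x.2.1 W
        simp only [preB, sz_prod, sz_nat, sz_un]
        omega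
      have h5 : sz z.2 ≤ W * (8 * budX τ k m x + 1) := by
        refine h1.trans (Nat.mul_le_mul_left _ ?_)
        rw [Nat.mul_left_comm z.1.2.1.N]
        omega
      rw [sz_prod]
      nlinarith
    · intro s hs
      obtain ⟨ins, hins, rfl⟩ := List.mem_map.1 hs
      have hok := hP ins hins
      have hfree : TCG (fun x z => PartBDom W m x ∧ decide (x.2.2.1.2.val = 0) = false ∧ I x z)
          (budX τ k m) (freeB gad ins) :=
        TCG.intro' (tc_freeB (k := k) (by omega) hg ins hok) 1 (fun _ _ h => h.2.2.2)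
          (fun x z h => by
            simpa using budZ_pre hW hm0 hτ k h.1 (by simpa using h.2.1) h.2.2.1)
      rcases ins with ⟨w, w', a, e⟩ | ⟨w, t, s⟩ | ⟨w, t⟩ | ⟨w, s⟩
      · exact Stage.ok_free hfree
      · exact Stage.ok_free hfree
      · exact Stage.ok_free hfree
      · refine Stage.ok_call (TCG.of_lin (lin_getB w s)) (TCG.of_lin (lin_putB w)) ?_
        rintro x z ⟨hx, hj, hz⟩
        have hj' : x.2.2.1.2.val ≠ 0 := by simpa using hj
        refine ⟨hget w s x z hx hj' hz, ?_⟩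
        show z.1.2.2.1.2.val < x.2.2.1.2.val
        rw [hz.1]
        show x.2.2.1.2.val - 1 < _
        omega
    · exact TCG.of_lin (tc_undealP ρ TC.id.snd)
    · refine ⟨21, fun x hx => ?_⟩
      have h1 := sz_le_pass hm (k := k) (by omega) hx
      have h2 := pass_le_budX (τ := τ) hm0 k x
      omega
    · intro x _ hj
      have hj' : x.2.2.1.2.val = 0 := by simpa using hj
      simp only [B, budX, hj', costB, pass_eq]
      exact le_rfl
    · intro x hx hj
      have hj' : x.2.2.1.2.val ≠ 0 := by simpa using hj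
      obtain ⟨hd, hdz, -⟩ := dom_pre hx hj'
      have h1 := callCost_le (f := resB gad bf P ρ) (B := B) (P.map (stageB gad)) (I x)
        (costB τ W m (ncalls P) (unitB k x.1.1 x.1.2 x.2.1) (Nat.size x.2.1.g)
          (x.2.2.1.2.val - 1) (x.2.1.N / W))
        (fun s hs z hz => hI s hs x z hx hj hz) (fun c get put hs z hz _ => by
          obtain ⟨ins, -, e⟩ := List.mem_map.1 hs
          rcases ins with ⟨w, w', a, e'⟩ | ⟨w, t, s⟩ | ⟨w, t⟩ | ⟨w, s⟩
          · cases e
          · cases e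
          · cases e
          · obtain ⟨-, rfl, -⟩ := Stage.callIf.inj e
            show costB τ W m (ncalls P) (unitB k z.1.1.1 z.1.1.2 z.1.2.1) (Nat.size z.1.2.1.g)
              z.1.2.2.1.2.val z.1.2.1.N ≤ _
            rw [hz.1, ← Lay.sub_N' hd hW]
            exact costB_mono (unitB_sub _ _ _ _ _) _ _) (preB W m x) ⟨rfl, hdz⟩
      rw [sum_isCall] at h1
      obtain ⟨j, hj''⟩ : ∃ j, x.2.2.1.2.val = j + 1 := ⟨x.2.2.1.2.val - 1, by omega⟩
      simp only [B, budX, hj'', costB, pass_eq, Nat.add_sub_cancel] at h1 ⊢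
      omega
  refine key.budget ((Bud.self.const_mul 2).mono (fun x _ => ?_))
  exact costB_le hm0 hτ hs _ _ _ _

end tc

/-- part B from the correctness of the recursion -/
theorem mainB_of_rec (h : RecStatement) : MainB := by
  rintro W m τ hW hm hτ - ⟨P, ρ, hP, hs⟩ ⟨gad, kg, hg, hgs⟩ ⟨bf, kb, hb, hbs⟩
  refine ⟨resB gad bf P ρ, kg + kb + 1, tc_resB hW hm hτ.le hP.ok hs hg hb hgs ?_, ?_⟩
  · rintro ⟨⟨M, r⟩, L, ⟨⟨lo⟩, ⟨j⟩⟩, l⟩ hx
    exact (h W m gad bf P ρ hW hgs hbs hP M r j L lo l hx).1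
  · intro M r L lo j l hx
    exact h W m gad bf P ρ hW hgs hbs hP M r j L lo l hx

end Crest.Agent.X326.B3
end

-- ▼ part X326/B3/Rec

/-!
Row 326 (S0503), part M3: correctness of the list-level recursion.
-/

set_option autoImplicit false

namespace Crest.Agent.X326.B3

open Crest.Agent.Lib.PT Crest.Agent.X326.M4

section Step

variable {W m M r lo f : ℕ} {L : Lay} {gad : GadT} {rc : ℕ → Arr → Arr} {ws : List Arr}

theorem WFS.getDR (h : WFS W L r M ws) (w : Fin W) : WFL L r M (ws.getD w []) :=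
  h.2 _ (getD_mem _ (by rw [h.1]; exact w.2))

theorem WFS.setR (h : WFS W L r M ws) (w : ℕ) {s : Arr} (hs : WFL L r M s) :
    WFS W L r M (ws.set w s) :=
  ⟨by rw [List.length_set, h.1], fun t ht => by
    rcases List.mem_or_eq_of_mem_set ht with h1 | rfl
    · exact h.2 t h1
    · exact hs⟩

theorem group_le (hF : lo + m * f ≤ L.F) (t : Fin m) : lo + t * f + f ≤ L.F := by
  have : (t.val + 1) * f ≤ m * f := Nat.mul_le_mul_right _ t.2
  rw [Nat.add_mul, Nat.one_mul] at this
  omega

theorem gadDom_xorR (hL : L.Good) (hF : lo + m * f ≤ L.F) {t s : Fin m} (hts : t < s) {l : Arr}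
    (hl : l.length = L.N) :
    GadDom (L, (true, ⟨lo + t * f⟩, ⟨lo + s * f⟩, ⟨f⟩), l) := by
  have h1 := group_le hF s
  have h2 : (t.val + 1) * f ≤ s.val * f := Nat.mul_le_mul_right _ hts
  rw [Nat.add_mul, Nat.one_mul] at h2
  refine ⟨hL, hl, ?_, ?_, fun _ => h1⟩
  · show lo + t * f + f ≤ lo + s * f
    omega
  · show lo + s * f ≤ L.F
    omega

theorem gadDom_flipR (hL : L.Good) (hF : lo + m * f ≤ L.F) (t : Fin m) {l : Arr}
    (hl : l.length = L.N) :
    GadDom (L, (false, ⟨lo + t * f⟩, ⟨lo + t * f + f⟩, ⟨f⟩), l) :=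
  ⟨hL, hl, le_rfl, group_le hF t, fun h => by simp at h⟩

theorem wfl_gad (hg : GadSpec gad) {src : Bool} {t s len : ℕ} {l : Arr}
    (hd : GadDom (L, (src, ⟨t⟩, ⟨s⟩, ⟨len⟩), l)) (hl : WFL L r M l) :
    WFL L r M (gad (L, (src, ⟨t⟩, ⟨s⟩, ⟨len⟩), l)) :=
  ⟨(hg L src t s len l hd).1.trans hl.1, fun x hx => hl.2 x ((hg L src t s len l hd).2.1 x hx)⟩

/-- one instruction preserves well-formedness -/
theorem WFS.execL (hg : GadSpec gad) (hL : L.Good) (hF : lo + m * f ≤ L.F)
    (hrc : ∀ (s : Fin m) (l : Arr), WFL L r M l → WFL L r M (rc (lo + s * f) l))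
    (h : WFS W L r M ws) {ins : Ins W m} (hok : ins.ok) :
    WFS W L r M (execL gad M L lo f rc ws ins) := by
  cases ins with
  | add w w' a e => exact h.setR _ ((h.getDR w).addL (h.getDR w') a e)
  | xor w t s => exact h.setR _ (wfl_gad hg (gadDom_xorR hL hF hok (h.getDR w).1) (h.getDR w))
  | flip w t => exact h.setR _ (wfl_gad hg (gadDom_flipR hL hF t (h.getDR w).1) (h.getDR w))
  | call w s => exact h.setR _ (hrc s _ (h.getDR w))

theorem WFS.foldl_execL (hg : GadSpec gad) (hL : L.Good) (hF : lo + m * f ≤ L.F)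
    (hrc : ∀ (s : Fin m) (l : Arr), WFL L r M l → WFL L r M (rc (lo + s * f) l))
    {P : List (Ins W m)} (hok : ∀ ins ∈ P, ins.ok) (h : WFS W L r M ws) :
    WFS W L r M (P.foldl (B3.execL gad M L lo f rc) ws) := by
  induction P generalizing ws with
  | nil => exact h
  | cons ins P ih =>
    exact ih (fun i hi => hok i (by simp [hi])) (h.execL hg hL hF hrc (hok ins (by simp)))

variable {A : Type} [CommRing A] {y hf : A} {β : Base}

/-- the fibres of all the streams -/
def fibS (W : ℕ) (y : A) (L : Lay) (β : Base) (ws : List Arr) : Fin W → Bv → A :=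
  fun w => fib y L β (ws.getD w [])

theorem fibS_set (hW : ws.length = W) (w : Fin W) (s : Arr) :
    fibS W y L β (ws.set w s) = Function.update (fibS W y L β ws) w (fib y L β s) := by
  funext v
  by_cases hv : v = w
  · subst hv
    rw [Function.update_self, fibS, List.getD_eq_getElem?_getD,
      List.getElem?_set_self (by rw [hW]; exact v.2), Option.getD_some]
  · rw [Function.update_of_ne hv, fibS, fibS, List.getD_eq_getElem?_getD,
      List.getElem?_set_ne (fun e => hv (Fin.ext e.symm)), ← List.getD_eq_getElem?_getD]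

theorem fib_gad (hg : GadSpec gad) {src : Bool} {t s len : ℕ} {l : Arr}
    (hd : GadDom (L, (src, ⟨t⟩, ⟨s⟩, ⟨len⟩), l)) (hβ : L.Safe β) :
    fib y L β (gad (L, (src, ⟨t⟩, ⟨s⟩, ⟨len⟩), l)) = fib y L β l ∘ gadMap src t s len := by
  funext b
  simp only [fib, Function.comp_apply, (hg L src t s len l hd).2.2 β hβ b]

theorem fibS_execL (hg : GadSpec gad) (hL : L.Good) (hF : lo + m * f ≤ L.F)
    (hM : (M : A) = 0) (hodd : M % 2 = 1) (h2 : 2 * hf = 1) (hβ : L.Safe β) (i : A)
    (hrc : ∀ (s : Fin m) (l : Arr), WFL L r M l →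
      fib y L β (rc (lo + s * f) l) = Crange i hf (lo + s * f) f (fib y L β l))
    (h : WFS W L r M ws) {ins : Ins W m} (hok : ins.ok) :
    fibS W y L β (execL gad M L lo f rc ws ins) = Ins.exec i hf lo f (fibS W y L β ws) ins := by
  cases ins with
  | add w w' a e =>
    rw [execL, fibS_set h.1, Ins.exec, fib_eq,
      Lay.fib_addL hβ hM hodd h2 a e (h.getDR w).1 (h.getDR w').1 (h.getDR w).2 (h.getDR w').2]
    rfl
  | xor w t s =>
    rw [execL, fibS_set h.1, Ins.exec, fib_gad hg (gadDom_xorR hL hF hok (h.getDR w).1) hβ]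
    rfl
  | flip w t =>
    rw [execL, fibS_set h.1, Ins.exec, fib_gad hg (gadDom_flipR hL hF t (h.getDR w).1) hβ]
    rfl
  | call w s =>
    rw [execL, fibS_set h.1, Ins.exec, hrc s _ (h.getDR w)]
    rfl

theorem fibS_foldl (hg : GadSpec gad) (hL : L.Good) (hF : lo + m * f ≤ L.F)
    (hM : (M : A) = 0) (hodd : M % 2 = 1) (h2 : 2 * hf = 1) (hβ : L.Safe β) (i : A)
    (hrc0 : ∀ (s : Fin m) (l : Arr), WFL L r M l → WFL L r M (rc (lo + s * f) l))
    (hrc : ∀ (s : Fin m) (l : Arr), WFL L r M l →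
      fib y L β (rc (lo + s * f) l) = Crange i hf (lo + s * f) f (fib y L β l))
    {P : List (Ins W m)} (hok : ∀ ins ∈ P, ins.ok) (h : WFS W L r M ws) :
    fibS W y L β (P.foldl (execL gad M L lo f rc) ws) = runIns i hf lo f P (fibS W y L β ws) := by
  induction P generalizing ws with
  | nil => rfl
  | cons ins P ih =>
    rw [List.foldl_cons, ih (fun i hi => hok i (by simp [hi]))
      (h.execL hg hL hF hrc0 (hok ins (by simp))),
      fibS_execL hg hL hF hM hodd h2 hβ i hrc h (hok ins (by simp))]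
    rfl

end Step

theorem partBDom_sub {W m M r j lo : ℕ} {L : Lay} {l : Arr}
    (h : PartBDom W m ((M, r), L, (⟨lo⟩, ⟨j + 1⟩), l)) (s : Fin m) {l' : Arr}
    (hl : WFL (L.sub W) r M l') :
    PartBDom W m ((M, r), L.sub W, (⟨lo + s * m ^ j⟩, ⟨j⟩), l') := by
  obtain ⟨h1, h2, h3, _⟩ := h
  have h2' : lo + m * m ^ j ≤ L.F := by rw [← pow_succ']; exact h2
  have h3' : W ^ (j + 1) ∣ L.Z := h3
  have hW : W ∣ L.Z := (dvd_pow_self W (Nat.succ_ne_zero j)).trans h3'
  refine ⟨h1.sub hW, group_le (L := L) h2' s, ?_, hl⟩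
  show W ^ j ∣ L.Z / W
  rw [pow_succ'] at h3'
  exact Nat.dvd_div_of_mul_dvd h3'

theorem mul_self_half {A : Type} [CommRing A] {y : A} {r : ℕ} (hy : y ^ r = -1) (hr : r % 2 = 0) :
    y ^ (r / 2) * y ^ (r / 2) = -1 := by
  rw [← pow_add, ← hy]
  congr 1
  omega

/-- correctness of the recursion -/
theorem recStatement : RecStatement := by
  intro W m gad bf P ρ hW0 hg hb hP M r j
  induction j with
  | zero =>
    intro L lo l h
    have hd : BaseDom ((M, r), L, ⟨lo⟩, l) := ⟨h.1, by
      have := h.2.1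
      simp only [pow_zero] at this
      exact this, h.2.2.2⟩
    refine ⟨(hb M r L lo l hd).1, fun A _ y hf hM hodd hy _ h2 β hβ => ?_⟩
    exact (hb M r L lo l hd).2 A y hf hM hodd hy h2 β hβ
  | succ j ih =>
    intro L lo l h
    have h3' : W ^ (j + 1) ∣ L.Z := h.2.2.1
    have hW : W ∣ L.Z := (dvd_pow_self W (Nat.succ_ne_zero j)).trans h3'
    have hG : (L.sub W).Good := h.1.sub hW
    have hF : lo + m * m ^ j ≤ (L.sub W).F := by rw [← pow_succ']; exact h.2.1
    have hl : WFL L r M l := h.2.2.2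
    have h0 : WFS W (L.sub W) r M (dealAll W l) := ⟨length_dealAll _ _, WFL.dealAll hW hl⟩
    have hrc0 : ∀ (s : Fin m) (l' : Arr), WFL (L.sub W) r M l' →
        WFL (L.sub W) r M (pbL gad bf P ρ M r j (L.sub W) (lo + s * m ^ j) l') :=
      fun s l' hl' => (ih _ _ _ (partBDom_sub h s hl')).1
    have h1 := WFS.foldl_execL (rc := fun lo' l' => pbL gad bf P ρ M r j (L.sub W) lo' l')
      hg hG hF hrc0 hP.ok h0
    refine ⟨WFL.undealP hW ρ h1.1 h1.2, fun A _ y hf hM hodd hy hr h2 β hβ => ?_⟩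
    have hβ' : (L.sub W).Safe (β.down W) := Lay.Ok.down hW hβ
    have h4 := fibS_foldl (y := y) (rc := fun lo' l' => pbL gad bf P ρ M r j (L.sub W) lo' l')
      hg hG hF hM hodd h2 hβ' (y ^ (r / 2)) hrc0
      (fun s l' hl' => (ih _ _ _ (partBDom_sub h s hl')).2 A y hf hM hodd hy hr h2 _ hβ')
      hP.ok h0
    have h5 := congrFun h4 (ρ ⟨β.z % W, Nat.mod_lt _ hW0⟩)
    rw [hP.spec A A _ hf (mul_self_half hy hr) h2, ← pow_succ'] at h5
    rw [pbL, fib_eq, Lay.fib_undealP' hW hW0 _ ρ h1.1 (fun s hs => (h1.2 s hs).1)]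
    refine h5.trans ?_
    congr 1
    rw [fibS, fib_eq, Lay.fib_dealAll hW _ hl.1 _ (Nat.mod_lt _ hW0), Base.up_down, fib_eq]

end Crest.Agent.X326.B3
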