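import Crest.Agent.X326.TC.MergeSpec
import Crest.Agent.X326.B3.Defs

/-!
Row 326 (S0503), part M3: the partner of an address at weight `w` (the address with the parity of
`x / w` flipped), the list of partners, and the partner of a safe address.
-/

set_option autoImplicit false

namespace Crest.Agent.X326.B3

open Finset

/-- the partner of the index `x` at weight `w` -/
def pidx (w x : ℕ) : ℕ := if x / w % 2 = 0 then x + w else x - w

/-- entry `x` of `partner w l` is entry `pidx w x` of `l` -/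
def partner {α : Type} (w : ℕ) (l : List α) : List α :=
  ((chunks 2 (chunks w l)).map List.reverse).flatten.flatten

theorem pidx_eq {w : ℕ} (_hw : 0 < w) (x : ℕ) :
    (x / w / 2 * 2 + (1 - x / w % 2)) * w + x % w = pidx w x := by
  unfold pidx
  have h1 := Nat.div_add_mod' x w
  have h2 := Nat.div_add_mod' (x / w) 2
  split_ifs with h
  · have : x / w / 2 * 2 + (1 - x / w % 2) = x / w + 1 := by omega
    rw [this, add_mul]; omega
  · have h3 : x / w / 2 * 2 + (1 - x / w % 2) + 1 = x / w := by omega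
    have h4 : (x / w / 2 * 2 + (1 - x / w % 2) + 1) * w = x / w * w := by rw [h3]
    rw [add_mul] at h4
    omega

theorem partner_map_range {α : Type} {w : ℕ} (hw : 0 < w) (n : ℕ) (f : ℕ → α) :
    partner w ((List.range (n * 2 * w)).map f) =
      (List.range (n * 2 * w)).map (fun x => f (pidx w x)) := by
  unfold partner
  rw [chunks_map_range hw, chunks_map_range (by norm_num : 0 < 2), List.map_map]
  have h1 : (List.reverse ∘ fun i => (List.range 2).map
      (fun j => (List.range w).map (fun j' => f ((i * 2 + j) * w + j')))) =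
      fun i => (List.range 2).map
        (fun j => (List.range w).map (fun j' => f ((i * 2 + (1 - j)) * w + j'))) := by
    funext i
    simp [List.range_succ]
  rw [h1, flatten_map_range n 2
    (fun i j => (List.range w).map (fun j' => f ((i * 2 + (1 - j)) * w + j'))),
    flatten_map_range (n * 2) w (fun k j' => f ((k / 2 * 2 + (1 - k % 2)) * w + j'))]
  exact List.map_congr_left (fun x _ => by rw [pidx_eq hw])

theorem partner_eq {α : Type} {w : ℕ} (hw : 0 < w) {l : List α} (h : 2 * w ∣ l.length) (d : α) :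
    partner w l = (List.range l.length).map (fun x => l.getD (pidx w x) d) := by
  obtain ⟨n, hn⟩ := h
  have hn' : l.length = n * 2 * w := by rw [hn]; ring
  conv_lhs => rw [← map_getD_range l d]
  rw [hn', partner_map_range hw]

theorem length_partner {α : Type} {w : ℕ} (hw : 0 < w) {l : List α} (h : 2 * w ∣ l.length) :
    (partner w l).length = l.length := by
  rcases l with _ | ⟨d, l⟩
  · simp [partner]
  · rw [partner_eq hw h d]; simp

theorem getD_partner {α : Type} {w : ℕ} (hw : 0 < w) {l : List α} (h : 2 * w ∣ l.length) (d : α)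
    {x : ℕ} (hx : x < l.length) : (partner w l).getD x d = l.getD (pidx w x) d := by
  rw [partner_eq hw h d, getD_map_range _ hx]

theorem mem_of_mem_partner {α : Type} {w : ℕ} {l : List α} {a : α} (h : a ∈ partner w l) :
    a ∈ l := by
  unfold partner at h
  obtain ⟨r, hr, ha⟩ := List.mem_flatten.1 h
  obtain ⟨c, hc, hr⟩ := List.mem_flatten.1 hr
  obtain ⟨c', hc', rfl⟩ := List.mem_map.1 hc
  exact mem_of_mem_chunks (mem_of_mem_chunks hc' (List.mem_reverse.1 hr)) ha


/-- for a power of two the partner is the index with one bit flipped -/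
theorem pidx_two_pow (j x : ℕ) : pidx (2 ^ j) x = x ^^^ 2 ^ j := by
  have hw : 0 < 2 ^ j := by positivity
  rw [← pidx_eq hw]
  apply Nat.eq_of_testBit_eq
  intro i
  have hlt : x % 2 ^ j < 2 ^ j := Nat.mod_lt _ hw
  rw [mul_comm _ (2 ^ j), Nat.testBit_two_pow_mul_add _ hlt, Nat.testBit_xor, Nat.testBit_two_pow,
    Nat.testBit_mod_two_pow]
  split_ifs with h
  · have : j ≠ i := by omega
    simp [h, this]
  · obtain ⟨e, rfl⟩ : ∃ e, i = j + e := ⟨i - j, by omega⟩
    rw [Nat.add_sub_cancel_left, show x.testBit (j + e) = (x / 2 ^ j).testBit e by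
      rw [Nat.testBit_div_two_pow, add_comm]]
    generalize x / 2 ^ j = y
    rcases e with _ | e
    · rcases Nat.mod_two_eq_zero_or_one y with h0 | h0 <;>
        simp [Nat.testBit_zero, h0, Nat.add_mod]
    · rw [Nat.testBit_succ, Nat.testBit_succ]
      have : (y / 2 * 2 + (1 - y % 2)) / 2 = y / 2 := by omega
      rw [this]
      simp

/-! ### digit sums -/

theorem ds_succ (q : ℕ) (d : ℕ → ℕ) (n : ℕ) : ds q d (n + 1) = ds q d n + d n * q ^ n := by
  unfold ds; rw [Finset.sum_range_succ]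

theorem ds_succ' (q : ℕ) (d : ℕ → ℕ) (n : ℕ) :
    ds q d (n + 1) = d 0 + q * ds q (fun j => d (j + 1)) n := by
  unfold ds
  rw [Finset.sum_range_succ', Finset.mul_sum, add_comm]
  simp only [pow_zero, mul_one, add_right_inj]
  exact Finset.sum_congr rfl (fun j _ => by ring)

theorem ds_lt_pow {q n : ℕ} {d : ℕ → ℕ} (h : ∀ j < n, d j < q) : ds q d n < q ^ n := by
  induction n with
  | zero => simp [ds]
  | succ n ih =>
    have h1 := ih (fun j hj => h j (by omega))
    have h2 : (d n + 1) * q ^ n ≤ q * q ^ n := Nat.mul_le_mul_right _ (h n (by omega))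
    rw [ds_succ, pow_succ']
    nlinarith

theorem ds_congr' {q n : ℕ} {d d' : ℕ → ℕ} (h : ∀ j < n, d j = d' j) : ds q d n = ds q d' n :=
  Finset.sum_congr rfl (fun j hj => by rw [h j (Finset.mem_range.1 hj)])

theorem ds_split (q : ℕ) (d : ℕ → ℕ) (a n : ℕ) :
    ds q d (a + n) = ds q d a + q ^ a * ds q (fun j => d (a + j)) n := by
  unfold ds
  rw [Finset.sum_range_add, Finset.mul_sum]
  congr 1
  exact Finset.sum_congr rfl (fun j _ => by ring)

namespace Lay

variable {L : Lay} {β : Base} {sy sa : ℕ}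

/-- the digits of the chunks -/
def ydig (β : Base) (b : Bv) (j : ℕ) : ℕ := 2 * β.h j + (b j).val

/-- the part of an address below the chunks -/
def low (L : Lay) (β : Base) : ℕ := (β.p * L.g ^ L.F + ds L.g β.a L.F) * L.Z + β.z

theorem addr_eq (L : Lay) (β : Base) (b : Bv) :
    L.addr β b = (β.hi * L.R ^ L.F + ds L.R (ydig β b) L.F) * L.wy + L.low β := by
  unfold addr low ydig; ring

theorem ydig_lt (h : L.Ok sy sa β) (b : Bv) {j : ℕ} (hj : j < L.F) : ydig β b j < L.R := by
  have h1 := h.h j hj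
  have h2 : (b j).val < 2 := ZMod.val_lt _
  unfold ydig; omega

theorem low_lt (h : L.Ok sy sa β) : L.low β < L.wy := by
  have h1 : ds L.g β.a L.F < L.g ^ L.F := ds_lt_pow (fun j hj => by have := h.a j hj; omega)
  have h2 : (β.p + 1) * L.g ^ L.F ≤ L.G2 * L.g ^ L.F := Nat.mul_le_mul_right _ h.p
  have h3 : (β.p * L.g ^ L.F + ds L.g β.a L.F + 1) * L.Z ≤ L.G2 * L.g ^ L.F * L.Z :=
    Nat.mul_le_mul_right _ (by nlinarith)
  have h4 := h.z
  unfold low wy
  nlinarith

theorem addr_lt_N (h : L.Ok sy sa β) (b : Bv) : L.addr β b < L.N := by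
  have h1 : ds L.R (ydig β b) L.F < L.R ^ L.F := ds_lt_pow (fun j hj => ydig_lt h b hj)
  have h2 : (β.hi + 1) * L.R ^ L.F ≤ L.G1 * L.g ^ L.F * L.Pre * L.R ^ L.F :=
    Nat.mul_le_mul_right _ h.hi
  have h3 : (β.hi * L.R ^ L.F + ds L.R (ydig β b) L.F + 1) * L.wy ≤
      L.G1 * L.g ^ L.F * L.Pre * L.R ^ L.F * L.wy := Nat.mul_le_mul_right _ (by nlinarith)
  have h4 := low_lt h
  have h5 : L.N = L.G1 * L.g ^ L.F * L.Pre * L.R ^ L.F * L.wy := by unfold N wh; ring
  rw [addr_eq, h5]
  nlinarith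

/-- an address split at chunk `lo` -/
theorem addr_split (h : L.Ok sy sa β) {lo : ℕ} (hlo : lo < L.F) (b : Bv) :
    ∃ u v : ℕ, v < L.wy * L.R ^ lo ∧ ∀ b' : Bv, (∀ j, j ≠ lo → b' j = b j) →
      L.addr β b' = (L.R * u + ydig β b' lo) * (L.wy * L.R ^ lo) + v := by
  obtain ⟨e, he⟩ : ∃ e, L.F = lo + (e + 1) := ⟨L.F - lo - 1, by omega⟩
  refine ⟨β.hi * L.R ^ e + ds L.R (fun j => ydig β b (lo + (j + 1))) e,
    ds L.R (ydig β b) lo * L.wy + L.low β, ?_, fun b' hb' => ?_⟩
  · have h1 : ds L.R (ydig β b) lo < L.R ^ lo :=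
      ds_lt_pow (fun j hj => ydig_lt h b (by omega))
    have h2 : (ds L.R (ydig β b) lo + 1) * L.wy ≤ L.R ^ lo * L.wy := Nat.mul_le_mul_right _ h1
    have h3 := low_lt h
    nlinarith
  · have e1 : ds L.R (ydig β b') lo = ds L.R (ydig β b) lo :=
      ds_congr' (fun j hj => by unfold ydig; rw [hb' j (by omega)])
    have e2 : ds L.R (fun j => ydig β b' (lo + (j + 1))) e =
        ds L.R (fun j => ydig β b (lo + (j + 1))) e :=
      ds_congr' (fun j _ => by unfold ydig; rw [hb' _ (by omega)])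
    have e3 : ds L.R (ydig β b') L.F = ds L.R (ydig β b') (lo + (e + 1)) := by rw [← he]
    have e4 : L.R ^ L.F = L.R ^ (lo + (e + 1)) := by rw [← he]
    rw [addr_eq, e3, e4, ds_split, ds_succ', e1, e2]
    simp only [add_zero]
    ring

theorem val_add_one (c : ZMod 2) : (c + 1).val = 1 - c.val := by
  revert c; decide

/-- the parity of an address at the weight of chunk `lo` is the selected bit -/
theorem addr_div_mod_two (h : L.Ok sy sa β) (hR : 2 ∣ L.R) {lo : ℕ} (hlo : lo < L.F) (b : Bv) :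
    L.addr β b / (L.wy * L.R ^ lo) % 2 = (b lo).val := by
  obtain ⟨u, v, hv, hb⟩ := addr_split h hlo b
  obtain ⟨R', hR'⟩ := hR
  have h2 : (b lo).val < 2 := ZMod.val_lt _
  rw [hb b (fun _ _ => rfl), add_comm, Nat.add_mul_div_right _ _ (by omega),
    Nat.div_eq_of_lt hv, zero_add, hR', mul_assoc, ydig]
  omega

/-- the partner of an address flips the selected bit of chunk `lo` -/
theorem pidx_addr (h : L.Ok sy sa β) (hR : 2 ∣ L.R) {lo : ℕ} (hlo : lo < L.F) (b : Bv) :
    pidx (L.wy * L.R ^ lo) (L.addr β b) = L.addr β (b + Pi.single lo 1) := by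
  have h0 := addr_div_mod_two h hR hlo b
  obtain ⟨u, v, hv, hb⟩ := addr_split h hlo b
  have h2 : (b lo).val < 2 := ZMod.val_lt _
  have h3 : ydig β (b + Pi.single lo 1) lo = 2 * β.h lo + (1 - (b lo).val) := by
    unfold ydig
    rw [Pi.add_apply, Pi.single_eq_same, val_add_one]
  unfold pidx
  rw [h0, hb (b + Pi.single lo 1) (fun j hj => by simp [hj]), hb b (fun _ _ => rfl), h3, ydig]
  split_ifs with h4
  · rw [h4]; ring_nf
  · have h5 : (b lo).val = 1 := by omega
    rw [h5]
    apply Nat.sub_eq_of_eq_add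
    ring

theorem two_mul_dvd_N (hR : 2 ∣ L.R) {lo : ℕ} (hlo : lo < L.F) :
    2 * (L.wy * L.R ^ lo) ∣ L.N := by
  obtain ⟨e, he⟩ : ∃ e, L.F = lo + (e + 1) := ⟨L.F - lo - 1, by omega⟩
  obtain ⟨R', hR'⟩ := hR
  have e4 : L.R ^ L.F = L.R ^ lo * L.R ^ e * (2 * R') := by rw [← hR', he]; ring
  refine ⟨L.R ^ e * R' * L.G1 * L.g ^ L.F * L.Pre, ?_⟩
  unfold N wh
  rw [e4]; ring

theorem weight_pos (h : L.Ok sy sa β) {lo : ℕ} (hlo : lo < L.F) : 0 < L.wy * L.R ^ lo := by
  have h1 := low_lt h
  have h2 := h.h lo hlo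
  have : 0 < L.R := by omega
  have : 0 < L.wy := by omega
  positivity

end Lay

end Crest.Agent.X326.B3
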